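import Crest.Agent.N250.Wt.AA
import Crest.Agent.N250.Wt.Cx

/-!
# Row 250, Floer norms (helper76), part 3: members of `AA`, conjugation, inverse, exponential
-/

set_option autoImplicit false
set_option linter.unusedSectionVars false
open MeasureTheory Set Filter Topology
open scoped ENNReal NNReal ComplexConjugate

noncomputable section

namespace Crest.Agent.N250.WS

open Crest.Agent.N222

variable {X : Type} [TopologicalSpace X] [MeasurableSpace X] {G : Geo X}

namespace Geo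

theorem sC_ne_top_of_le {f : G.SmC} {C : ℝ} (h : ∀ p, ‖f.1 p‖ ≤ C) : G.sC f ≠ ⊤ :=
  ne_top_of_le_ne_top (ENNReal.ofReal_ne_top (r := C)) (iSup_le fun p => by
    rw [← ofReal_norm_eq_enorm]; exact ENNReal.ofReal_le_ofReal (h p))


theorem rho_pow_apply (j : ℕ) (f : G.SmC) (p : X) :
    ‖(G.oR G.ρ ^ j * f).1 p‖ = G.ρ.1 p ^ j * ‖f.1 p‖ := by
  change ‖((G.ρ.1 p : ℝ) : ℂ) ^ j * f.1 p‖ = _
  rw [norm_mul, norm_pow, Complex.norm_real, Real.norm_of_nonneg (G.ρ_pos p).le]


/-- symbols of order zero have finite levels -/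
theorem Sy.Sc_ne_top {s : G.R} (h : G.Sy 0 s) (j : ℕ) : G.Sc j (G.oR s) ≠ ⊤ := by
  refine esumW_ne_top j fun l hl => ?_
  obtain ⟨C, hC⟩ := h l
  refine sC_ne_top_of_le (C := C) fun p => ?_
  rw [rho_pow_apply, Dw_oR, oR_apply, Complex.norm_real, Real.norm_eq_abs]
  have h0 := G.ρ_pos p
  refine (mul_le_mul_of_nonneg_left (hC p) (by positivity)).trans (le_of_eq ?_)
  rw [zero_sub, hl, zpow_neg, zpow_natCast]
  field_simp

/-- symbols of order zero are in `AA` -/
theorem Sy.NN_ne_top {s : G.R} (h : G.Sy 0 s) : ∀ᶠ ε in admF, G.NN ε (G.oR s) ≠ ⊤ :=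
  G.NN_ne_top_of_Sc h.Sc_ne_top

theorem D_eq_zero_of_notMem {f : G.R} {p : X} (hp : p ∉ tsupport f.1) (a : Fin 3) :
    (G.S.D a f).1 p = 0 :=
  Imm.D_eq_zero_of_notMem hp a

theorem tsupport_DC (f : G.SmC) (a : Fin 3) : tsupport (G.SC.D a f).1 ⊆ tsupport f.1 := by
  refine closure_minimal (fun p hp => ?_) (isClosed_tsupport _)
  by_contra h
  have h1 : p ∉ tsupport (G.re f).1 := fun h' => h
    (closure_mono (fun q (hq : _ ≠ _) (e : f.1 q = 0) => hq (by simp [e])) h')
  have h2 : p ∉ tsupport (G.im f).1 := fun h' => h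
    (closure_mono (fun q (hq : _ ≠ _) (e : f.1 q = 0) => hq (by simp [e])) h')
  exact hp (by rw [aa_D_apply, D_eq_zero_of_notMem h1, D_eq_zero_of_notMem h2]; simp)

theorem tsupport_DwC (f : G.SmC) (l : List (Fin 3)) : tsupport (G.SC.Dw l f).1 ⊆ tsupport f.1 := by
  induction l with
  | nil => exact subset_rfl
  | cons a l ih => exact (tsupport_DC _ a).trans ih

/-- compactly supported functions have finite levels -/
theorem Sc_ne_top_of_cs {f : G.SmC} (h : HasCompactSupport f.1) (j : ℕ) : G.Sc j f ≠ ⊤ := by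
  refine esumW_ne_top j fun l _ => ?_
  have h1 : HasCompactSupport (G.SC.Dw l f).1 :=
    h.of_isClosed_subset (isClosed_tsupport _) (tsupport_DwC f l)
  have h2 : HasCompactSupport (G.oR G.ρ ^ j * G.SC.Dw l f).1 := h1.mul_left
  obtain ⟨C, hC⟩ := (G.contC _).bounded_above_of_compact_support h2
  exact sC_ne_top_of_le hC

theorem NN_ne_top_of_cs {f : G.SmC} (h : HasCompactSupport f.1) : ∀ᶠ ε in admF, G.NN ε f ≠ ⊤ :=
  G.NN_ne_top_of_Sc (Sc_ne_top_of_cs h)

end Geo

variable [BorelSpace X]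

namespace Scale

variable (σ : Scale G)

/-- complex conjugation -/
def cj : σ.AA →+* σ.AA where
  toFun f := σ.el (G.cj (σ.val f)) (by rw [(G.lv_NN σ.ε).cj]; exact σ.NN_val f)
  map_one' := AA_ext (by simp)
  map_mul' f g := AA_ext (by simp)
  map_zero' := AA_ext (by simp)
  map_add' f g := AA_ext (by simp)

@[simp] theorem val_cj (f : σ.AA) : σ.val (σ.cj f) = G.cj (σ.val f) := rfl

@[simp] theorem cj_cj (f : σ.AA) : σ.cj (σ.cj f) = f := AA_ext (G.cj_cj _)

theorem cj_smul (c : ℂ) (f : σ.AA) : σ.cj (c • f) = conj c • σ.cj f :=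
  AA_ext (by rw [val_cj, map_smul σ.val, map_smul σ.val, val_cj, G.cj_smul])

@[simp] theorem norm_cj (f : σ.AA) : ‖σ.cj f‖ = ‖f‖ := by
  rw [norm_def, norm_def, val_cj, (G.lv_NN σ.ε).cj]

/-- conjugation as a continuous antilinear map -/
def cjL : σ.AA →L⋆[ℂ] σ.AA :=
  LinearMap.mkContinuous
    { toFun := σ.cj, map_add' := σ.cj.map_add, map_smul' := σ.cj_smul } 1 fun f => by simp

@[simp] theorem cjL_apply (f : σ.AA) : σ.cjL f = σ.cj f := rfl




variable {σ}






end Scale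

end Crest.Agent.N250.WS

end
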