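import Crest.Agent.N250.Wt.Gd
import Crest.Agent.N250.Wt.AA3

/-!
# Row 250 (helper86): the complex Green operator on a `Geo` and its jets in the algebra `AA`
-/

set_option autoImplicit false
set_option linter.unusedSectionVars false
open MeasureTheory Set Filter Topology
open scoped ContDiff ENNReal NNReal ComplexConjugate

noncomputable section

namespace Crest.Agent.N250

open Crest.Agent.N222

namespace WS

variable {X : Type} [TopologicalSpace X] [MeasurableSpace X] {κ : Type} [Fintype κ]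

namespace Geo

variable (G : Geo X)

/-- coercive families -/
abbrev Fam (ψ : κ → G.R) : Prop := G.gd.Fam fun k => (ψ k).1

/-- the real pairing -/
def ipR (s u : G.R) : ℝ := ∫ p, s.1 p * u.1 p ∂G.ga


/-- the complex pairing -/
def ipC (s : G.R) (u : G.SmC) : ℂ := ∫ p, (s.1 p : ℂ) * u.1 p ∂G.ga

/-- what the linear theory delivers -/
structure GrnS (ψ : κ → G.R) : Prop where
  cs : ∀ k, HasCompactSupport (ψ k).1
  ex : ∀ (g : G.R) (y : κ → ℝ), G.gR g ≠ ⊤ → ∃ (u : G.R) (c : κ → ℝ), G.gR u ≠ ⊤ ∧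
    G.S.LL u = g + ∑ k, c k • ψ k ∧ ∀ k, G.ipR (ψ k) u = y k
  est : ∃ C : ℝ≥0, ∀ (u g : G.R) (c : κ → ℝ), G.gR u ≠ ⊤ → G.S.LL u = g + ∑ k, c k • ψ k →
    G.gR u + ‖c‖ₑ ≤ C * (G.gR g + ‖fun k => G.ipR (ψ k) u‖ₑ)

/-- `(u, c)` solves the bordered problem with data `(g, η)` -/
structure IsG (ψ : κ → G.R) (g : G.SmC) (η : κ → ℂ) (u : G.SmC) (c : κ → ℂ) : Prop where
  l2 : G.gC u ≠ ⊤
  eq : G.SC.LL u = g + ∑ k, c k • G.oR (ψ k)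
  ip : ∀ k, G.ipC (ψ k) u = η k

open Classical in
/-- the solution of the bordered problem -/
def Guc (ψ : κ → G.R) (g : G.SmC) (η : κ → ℂ) : G.SmC × (κ → ℂ) :=
  if h : ∃ q : G.SmC × (κ → ℂ), G.IsG ψ g η q.1 q.2 then h.choose else 0

/-- the Green operator -/
def Gu (ψ : κ → G.R) (g : G.SmC) (η : κ → ℂ) : G.SmC := (G.Guc ψ g η).1

/-- the multipliers -/
def Gc (ψ : κ → G.R) (g : G.SmC) (η : κ → ℂ) : κ → ℂ := (G.Guc ψ g η).2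

theorem ipC_oR (s u : G.R) : G.ipC s (G.oR u) = G.ipR s u := by
  rw [ipC, ipR, ← integral_complex_ofReal]
  simp

theorem ipC_smul (s : G.R) (c : ℂ) (u : G.SmC) : G.ipC s (c • u) = c * G.ipC s u := by
  rw [ipC, ipC, ← integral_const_mul]
  refine integral_congr_ae (Eventually.of_forall fun p => ?_)
  show (s.1 p : ℂ) * (c * u.1 p) = c * (s.1 p * u.1 p)
  ring

theorem ipC_cj (s : G.R) (u : G.SmC) : G.ipC s (G.cj u) = conj (G.ipC s u) := by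
  rw [ipC, ipC, ← integral_conj]
  simp

theorem ipC_zero (s : G.R) : G.ipC s 0 = 0 := by simpa using G.ipC_smul s 0 0


variable [BorelSpace X]

theorem intg_ipC {s : G.R} (hs : HasCompactSupport s.1) (u : G.SmC) :
    Integrable (fun p => (s.1 p : ℂ) * u.1 p) G.ga := by
  have := G.ga_finite
  exact ((G.contC (G.oR s)).mul (G.contC u)).integrable_of_hasCompactSupport
    (hs.comp_left (g := fun r : ℝ => (r : ℂ)) Complex.ofReal_zero).mul_right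

theorem ipC_add {s : G.R} (hs : HasCompactSupport s.1) (u v : G.SmC) :
    G.ipC s (u + v) = G.ipC s u + G.ipC s v := by
  rw [ipC, ipC, ipC, ← integral_add (G.intg_ipC hs u) (G.intg_ipC hs v)]
  exact integral_congr_ae (Eventually.of_forall fun p => mul_add _ _ _)


/-- the pairing as a linear form -/
def ipL {s : G.R} (hs : HasCompactSupport s.1) : G.SmC →ₗ[ℂ] ℂ :=
  ⟨⟨G.ipC s, G.ipC_add hs⟩, G.ipC_smul s⟩

@[simp] theorem ipL_apply {s : G.R} (hs : HasCompactSupport s.1) (u : G.SmC) :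
    G.ipL hs u = G.ipC s u := rfl

theorem ipC_sum {s : G.R} (hs : HasCompactSupport s.1) {ι : Type} (t : Finset ι) (u : ι → G.SmC) :
    G.ipC s (∑ i ∈ t, u i) = ∑ i ∈ t, G.ipC s (u i) := map_sum (G.ipL hs) u t

theorem ipC_eq {s : G.R} (hs : HasCompactSupport s.1) (u : G.SmC) :
    G.ipC s u = G.ipR s (G.re u) + Complex.I * G.ipR s (G.im u) := by
  conv_lhs => rw [← G.re_add_im u, G.ipC_add hs, ipC_smul, ipC_oR, ipC_oR]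

theorem re_ipC {s : G.R} (hs : HasCompactSupport s.1) (u : G.SmC) :
    (G.ipC s u).re = G.ipR s (G.re u) := by simp [G.ipC_eq hs]

theorem im_ipC {s : G.R} (hs : HasCompactSupport s.1) (u : G.SmC) :
    (G.ipC s u).im = G.ipR s (G.im u) := by simp [G.ipC_eq hs]

theorem re_smul_oR (c : ℂ) (s : G.R) : G.re (c • G.oR s) = c.re • s := G.extR fun p => by
  show (c * (s.1 p : ℂ)).re = c.re * s.1 p
  simp

theorem im_smul_oR (c : ℂ) (s : G.R) : G.im (c • G.oR s) = c.im • s := G.extR fun p => by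
  show (c * (s.1 p : ℂ)).im = c.im * s.1 p
  simp

theorem gC_oR (u : G.R) : G.gC (G.oR u) = G.gR u := G.nm_g.oR u

theorem gC_add_ne {u v : G.SmC} (hu : G.gC u ≠ ⊤) (hv : G.gC v ≠ ⊤) : G.gC (u + v) ≠ ⊤ :=
  ne_top_of_le_ne_top (ENNReal.add_ne_top.2 ⟨hu, hv⟩) (G.nm_g.add u v)

theorem gC_smul_ne (c : ℂ) {u : G.SmC} (hu : G.gC u ≠ ⊤) : G.gC (c • u) ≠ ⊤ := by
  rw [G.nm_g.smul]; exact ENNReal.mul_ne_top enorm_ne_top hu

theorem gC_sub_ne {u v : G.SmC} (hu : G.gC u ≠ ⊤) (hv : G.gC v ≠ ⊤) : G.gC (u - v) ≠ ⊤ :=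
  ne_top_of_le_ne_top (ENNReal.add_ne_top.2 ⟨hu, hv⟩) (G.nm_g.sub u v)

theorem gR_re_ne {u : G.SmC} (hu : G.gC u ≠ ⊤) : G.gR (G.re u) ≠ ⊤ :=
  ne_top_of_le_ne_top hu (G.nm_g.re_le u)

theorem gR_im_ne {u : G.SmC} (hu : G.gC u ≠ ⊤) : G.gR (G.im u) ≠ ⊤ :=
  ne_top_of_le_ne_top hu (G.nm_g.im_le u)

theorem gC_ne_of_le {u : G.SmC} {C : ℝ} (h : ∀ p, ‖u.1 p‖ ≤ C) : G.gC u ≠ ⊤ := by
  have := G.ga_finite
  exact (MemLp.of_bound (G.contC u).aestronglyMeasurable C (Eventually.of_forall h)).2.ne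

theorem gC_ne_of_cs {u : G.SmC} (h : HasCompactSupport u.1) : G.gC u ≠ ⊤ := by
  obtain ⟨C, hC⟩ := (G.contC u).bounded_above_of_compact_support h
  exact G.gC_ne_of_le hC

theorem eq_zero_of_gC [T2Space X] [SecondCountableTopology X] {u : G.SmC} (h : G.gC u = 0) :
    u = 0 := by
  have : G.ga.IsOpenPosMeasure := inferInstanceAs G.gd.nu.IsOpenPosMeasure
  rw [gC, eLpNorm_eq_zero_iff (G.contC u).aestronglyMeasurable two_ne_zero] at h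
  exact Subtype.ext (((G.contC u).ae_eq_iff_eq G.ga continuous_zero).1 h)

variable {G} {ψ : κ → G.R} {g g' u u' : G.SmC} {η η' c c' : κ → ℂ}

namespace IsG

theorem add (hψ : G.GrnS ψ) (h : G.IsG ψ g η u c) (h' : G.IsG ψ g' η' u' c') :
    G.IsG ψ (g + g') (η + η') (u + u') (c + c') where
  l2 := G.gC_add_ne h.l2 h'.l2
  eq := by
    simp only [Mov.LL_add G.dsC, h.eq, h'.eq, Pi.add_apply, add_smul, Finset.sum_add_distrib]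
    ring
  ip k := by rw [G.ipC_add (hψ.cs k), h.ip, h'.ip, Pi.add_apply]

theorem smul (a : ℂ) (h : G.IsG ψ g η u c) : G.IsG ψ (a • g) (a • η) (a • u) (a • c) where
  l2 := G.gC_smul_ne a h.l2
  eq := by simp only [LL_smul, h.eq, smul_add, Finset.smul_sum, Pi.smul_apply, smul_assoc]
  ip k := by rw [ipC_smul, h.ip, Pi.smul_apply, smul_eq_mul]

theorem sub (hψ : G.GrnS ψ) (h : G.IsG ψ g η u c) (h' : G.IsG ψ g' η' u' c') :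
    G.IsG ψ (g - g') (η - η') (u - u') (c - c') := by
  simpa only [neg_smul, one_smul, ← sub_eq_add_neg] using h.add hψ (h'.smul (-1))

theorem cj (h : G.IsG ψ g η u c) : G.IsG ψ (G.cj g) (star η) (G.cj u) (star c) where
  l2 := by rw [G.nm_g.cj]; exact h.l2
  eq := by
    rw [← cj_LL, h.eq, map_add, map_sum]
    simp only [cj_smul, cj_oR]
    rfl
  ip k := by rw [ipC_cj, h.ip]; rfl

theorem re_eq (h : G.IsG ψ g η u c) : G.S.LL (G.re u) = G.re g + ∑ k, (c k).re • ψ k := by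
  rw [← re_LL, h.eq, re_add, re_sum]; simp only [re_smul_oR]

theorem im_eq (h : G.IsG ψ g η u c) : G.S.LL (G.im u) = G.im g + ∑ k, (c k).im • ψ k := by
  rw [← im_LL, h.eq, im_add, im_sum]; simp only [im_smul_oR]

end IsG

theorem enorm_pi_re (c : κ → ℂ) : ‖fun k => (c k).re‖ₑ ≤ ‖c‖ₑ := by
  rw [enorm_le_iff_norm_le, pi_norm_le_iff_of_nonneg (norm_nonneg _)]
  exact fun k => (Complex.abs_re_le_norm _).trans (norm_le_pi_norm c k)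

theorem enorm_pi_im (c : κ → ℂ) : ‖fun k => (c k).im‖ₑ ≤ ‖c‖ₑ := by
  rw [enorm_le_iff_norm_le, pi_norm_le_iff_of_nonneg (norm_nonneg _)]
  exact fun k => (Complex.abs_im_le_norm _).trans (norm_le_pi_norm c k)

theorem enorm_pi_le (c : κ → ℂ) : ‖c‖ₑ ≤ ‖fun k => (c k).re‖ₑ + ‖fun k => (c k).im‖ₑ := by
  simp only [← ofReal_norm]
  rw [← ENNReal.ofReal_add (norm_nonneg _) (norm_nonneg _)]
  refine ENNReal.ofReal_le_ofReal ((pi_norm_le_iff_of_nonneg (by positivity)).2 fun k => ?_)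
  exact (Complex.norm_le_abs_re_add_abs_im _).trans
    (add_le_add (norm_le_pi_norm (fun k => (c k).re) k) (norm_le_pi_norm (fun k => (c k).im) k))

namespace GrnS

variable (hψ : G.GrnS ψ)
include hψ

/-- the a priori estimate -/
theorem estC : ∃ C : ℝ≥0, ∀ g η u c, G.IsG ψ g η u c → G.gC u + ‖c‖ₑ ≤ C * (G.gC g + ‖η‖ₑ) := by
  obtain ⟨C, hC⟩ := hψ.est
  refine ⟨2 * C, fun g η u c h => ?_⟩
  have h1 := hC _ _ _ (G.gR_re_ne h.l2) h.re_eq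
  have h2 := hC _ _ _ (G.gR_im_ne h.l2) h.im_eq
  simp only [← G.re_ipC (hψ.cs _), ← G.im_ipC (hψ.cs _), h.ip] at h1 h2
  have h3 := h1.trans (mul_le_mul_right (add_le_add (G.nm_g.re_le g) (enorm_pi_re η)) _)
  have h4 := h2.trans (mul_le_mul_right (add_le_add (G.nm_g.im_le g) (enorm_pi_im η)) _)
  calc _ ≤ (G.gR (G.re u) + G.gR (G.im u)) + (‖fun k => (c k).re‖ₑ + ‖fun k => (c k).im‖ₑ) :=
        add_le_add (G.nm_g.le_re_im u) (enorm_pi_le c)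
    _ = (G.gR (G.re u) + ‖fun k => (c k).re‖ₑ) + (G.gR (G.im u) + ‖fun k => (c k).im‖ₑ) := by ring
    _ ≤ _ := (add_le_add h3 h4).trans_eq (by push_cast; ring)

theorem exC (hg : G.gC g ≠ ⊤) (η : κ → ℂ) : ∃ u c, G.IsG ψ g η u c := by
  obtain ⟨u, c, h1, h2, h3⟩ := hψ.ex (G.re g) (fun k => (η k).re) (G.gR_re_ne hg)
  obtain ⟨v, d, k1, k2, k3⟩ := hψ.ex (G.im g) (fun k => (η k).im) (G.gR_im_ne hg)
  refine ⟨G.oR u + Complex.I • G.oR v, fun k => c k + Complex.I * d k,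
    G.gC_add_ne (by rwa [gC_oR]) (G.gC_smul_ne _ (by rwa [gC_oR])), ?_, fun k => ?_⟩
  · refine G.ext_ri ?_ ?_
    · simp [h2, re_sum, re_smul_oR]
    · simp [k2, im_sum, im_smul_oR]
  · rw [G.ipC_add (hψ.cs k), ipC_smul, ipC_oR, ipC_oR, h3, k3, mul_comm, Complex.re_add_im]

theorem isG (hg : G.gC g ≠ ⊤) (η : κ → ℂ) : G.IsG ψ g η (G.Gu ψ g η) (G.Gc ψ g η) := by
  obtain ⟨u, c, h⟩ := hψ.exC hg η
  have h' : ∃ q : G.SmC × (κ → ℂ), G.IsG ψ g η q.1 q.2 := ⟨(u, c), h⟩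
  simp only [Gu, Gc, Guc, dif_pos h']
  exact h'.choose_spec

theorem est_G : ∃ C : ℝ≥0, ∀ g η, G.gC (G.Gu ψ g η) + ‖G.Gc ψ g η‖ₑ ≤ C * (G.gC g + ‖η‖ₑ) := by
  obtain ⟨C, hC⟩ := hψ.estC
  refine ⟨C, fun g η => ?_⟩
  by_cases h : ∃ q : G.SmC × (κ → ℂ), G.IsG ψ g η q.1 q.2
  · simp only [Gu, Gc, Guc, dif_pos h]
    exact hC _ _ _ _ h.choose_spec
  · simp [Gu, Gc, Guc, dif_neg h, G.nm_g.zero]

variable [T2Space X] [SecondCountableTopology X]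

theorem uniq0 (h : G.IsG ψ 0 0 u c) : u = 0 ∧ c = 0 := by
  obtain ⟨C, hC⟩ := hψ.estC
  have := hC _ _ _ _ h
  simp only [G.nm_g.zero, enorm_zero, add_zero, mul_zero, nonpos_iff_eq_zero, add_eq_zero,
    enorm_eq_zero] at this
  exact ⟨G.eq_zero_of_gC this.1, this.2⟩

theorem uniq (h : G.IsG ψ g η u c) (h' : G.IsG ψ g η u' c') : u = u' ∧ c = c' := by
  have := h.sub hψ h'
  rw [sub_self, sub_self] at this
  exact (hψ.uniq0 this).imp sub_eq_zero.1 sub_eq_zero.1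

theorem Guc_eq (h : G.IsG ψ g η u c) : G.Gu ψ g η = u ∧ G.Gc ψ g η = c := by
  have h' : ∃ q : G.SmC × (κ → ℂ), G.IsG ψ g η q.1 q.2 := ⟨(u, c), h⟩
  simp only [Gu, Gc, Guc, dif_pos h']
  exact hψ.uniq h'.choose_spec h

theorem Gu_eq (h : G.IsG ψ g η u c) : G.Gu ψ g η = u := (hψ.Guc_eq h).1
theorem Gc_eq (h : G.IsG ψ g η u c) : G.Gc ψ g η = c := (hψ.Guc_eq h).2



theorem Gu_add (hg : G.gC g ≠ ⊤) (hg' : G.gC g' ≠ ⊤) (η η' : κ → ℂ) :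
    G.Gu ψ (g + g') (η + η') = G.Gu ψ g η + G.Gu ψ g' η' :=
  hψ.Gu_eq ((hψ.isG hg η).add hψ (hψ.isG hg' η'))

theorem Gc_add (hg : G.gC g ≠ ⊤) (hg' : G.gC g' ≠ ⊤) (η η' : κ → ℂ) :
    G.Gc ψ (g + g') (η + η') = G.Gc ψ g η + G.Gc ψ g' η' :=
  hψ.Gc_eq ((hψ.isG hg η).add hψ (hψ.isG hg' η'))

theorem Gu_smul (a : ℂ) (hg : G.gC g ≠ ⊤) (η : κ → ℂ) :
    G.Gu ψ (a • g) (a • η) = a • G.Gu ψ g η := hψ.Gu_eq ((hψ.isG hg η).smul a)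

theorem Gc_smul (a : ℂ) (hg : G.gC g ≠ ⊤) (η : κ → ℂ) :
    G.Gc ψ (a • g) (a • η) = a • G.Gc ψ g η := hψ.Gc_eq ((hψ.isG hg η).smul a)

theorem Gu_cj (hg : G.gC g ≠ ⊤) (η : κ → ℂ) : G.Gu ψ (G.cj g) (star η) = G.cj (G.Gu ψ g η) :=
  hψ.Gu_eq (hψ.isG hg η).cj

theorem Gc_cj (hg : G.gC g ≠ ⊤) (η : κ → ℂ) : G.Gc ψ (G.cj g) (star η) = star (G.Gc ψ g η) :=
  hψ.Gc_eq (hψ.isG hg η).cj

end GrnS

end Geo

namespace Scale

variable [BorelSpace X] {G : Geo X} (σ : Scale G) (ψ : κ → G.R)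

/-- the function `w = G (f / ρ, η)` -/
def wG (ξ : σ.AA × (κ → ℂ)) : G.SmC := G.Gu ψ (G.oR G.ι * σ.val ξ.1) ξ.2

/-- its multipliers -/
def cG (ξ : σ.AA × (κ → ℂ)) : κ → ℂ := G.Gc ψ (G.oR G.ι * σ.val ξ.1) ξ.2

theorem gC_le : ∃ C : ℝ≥0, ∀ (σ : Scale G) (f : σ.AA), G.gC (G.oR G.ι * σ.val f) ≤ C * ‖f‖ₑ := by
  obtain ⟨C, hC⟩ := G.gC_le_nC
  refine ⟨C, fun σ f => (hC _).trans (mul_le_mul_right ?_ _)⟩
  refine (G.nm_n.mul_le (C := 1) (fun p => ?_) _).trans (by simpa using nC_le f)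
  simpa [abs_of_pos (G.ι_pos p)] using G.ι_le p

theorem gC_ne (f : σ.AA) : G.gC (G.oR G.ι * σ.val f) ≠ ⊤ := by
  obtain ⟨C, hC⟩ := gC_le (G := G)
  exact ne_top_of_le_ne_top (ENNReal.mul_ne_top ENNReal.coe_ne_top enorm_ne_top) (hC σ f)

variable {ψ}

theorem isG (hψ : G.GrnS ψ) (ξ : σ.AA × (κ → ℂ)) :
    G.IsG ψ (G.oR G.ι * σ.val ξ.1) ξ.2 (σ.wG ψ ξ) (σ.cG ψ ξ) := hψ.isG (σ.gC_ne _) _

theorem ρ_LL_wG (hψ : G.GrnS ψ) (ξ : σ.AA × (κ → ℂ)) : G.oR G.ρ * G.SC.LL (σ.wG ψ ξ) =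
    σ.val ξ.1 + ∑ k, σ.cG ψ ξ k • G.oR (G.ρ * ψ k) := by
  rw [(σ.isG hψ ξ).eq, mul_add, ← mul_assoc, ← map_mul, G.ρι, map_one, one_mul, Finset.mul_sum]
  simp only [map_mul, mul_smul_comm]

theorem est_wG (hψ : G.GrnS ψ) : ∃ C : ℝ≥0, ∀ (σ : Scale G) (ξ : σ.AA × (κ → ℂ)),
    G.gC (σ.wG ψ ξ) + ‖σ.cG ψ ξ‖ₑ ≤ C * ‖ξ‖ₑ := by
  obtain ⟨C, hC⟩ := hψ.est_G
  obtain ⟨C', hC'⟩ := gC_le (G := G)
  refine ⟨C * (C' + 1), fun σ ξ => (hC _ _).trans ?_⟩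
  have h1 : ‖ξ.1‖ₑ ≤ ‖ξ‖ₑ := enorm_le_iff_norm_le.2 (norm_fst_le ξ)
  have h2 : ‖ξ.2‖ₑ ≤ ‖ξ‖ₑ := enorm_le_iff_norm_le.2 (norm_snd_le ξ)
  push_cast
  rw [mul_assoc, add_mul, one_mul]
  gcongr
  exact (hC' σ _).trans (by gcongr)

variable [T2Space X] [SecondCountableTopology X]

/-- `wG` as a linear map -/
def wL (hψ : G.GrnS ψ) : σ.AA × (κ → ℂ) →ₗ[ℂ] G.SmC where
  toFun := σ.wG ψ
  map_add' ξ ξ' := by
    simp only [wG, Prod.fst_add, Prod.snd_add, map_add, mul_add,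
      hψ.Gu_add (σ.gC_ne _) (σ.gC_ne _)]
  map_smul' a ξ := by
    simp only [wG, Prod.smul_fst, Prod.smul_snd, map_smul, mul_smul_comm,
      hψ.Gu_smul a (σ.gC_ne _), RingHom.id_apply]

@[simp] theorem wL_apply (hψ : G.GrnS ψ) (ξ : σ.AA × (κ → ℂ)) : σ.wL hψ ξ = σ.wG ψ ξ := rfl

/-- `cG` as a continuous linear map -/
def cL (hψ : G.GrnS ψ) : σ.AA × (κ → ℂ) →L[ℂ] (κ → ℂ) :=
  LinearMap.mkContinuous
    { toFun := σ.cG ψ
      map_add' := fun ξ ξ' => by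
        simp only [cG, Prod.fst_add, Prod.snd_add, map_add, mul_add,
          hψ.Gc_add (σ.gC_ne _) (σ.gC_ne _)]
      map_smul' := fun a ξ => by
        simp only [cG, Prod.smul_fst, Prod.smul_snd, map_smul, mul_smul_comm,
          hψ.Gc_smul a (σ.gC_ne _), RingHom.id_apply] }
    (est_wG hψ).choose fun ξ =>
      norm_le_of_enorm (le_add_self.trans ((est_wG hψ).choose_spec σ ξ))

@[simp] theorem cL_apply (hψ : G.GrnS ψ) (ξ : σ.AA × (κ → ℂ)) : σ.cL hψ ξ = σ.cG ψ ξ := rfl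

theorem wG_cj (hψ : G.GrnS ψ) (ξ : σ.AA × (κ → ℂ)) :
    σ.wG ψ (σ.cj ξ.1, star ξ.2) = G.cj (σ.wG ψ ξ) := by
  rw [wG, wG, ← hψ.Gu_cj (σ.gC_ne _), map_mul, G.cj_oR, val_cj]

theorem cG_cj (hψ : G.GrnS ψ) (ξ : σ.AA × (κ → ℂ)) :
    σ.cG ψ (σ.cj ξ.1, star ξ.2) = star (σ.cG ψ ξ) := by
  rw [cG, cG, ← hψ.Gc_cj (σ.gC_ne _), map_mul, G.cj_oR, val_cj]


/-- the jets of `w` as bounded operators -/
structure Jets (ψ : κ → G.R) where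
  J0 : σ.AA × (κ → ℂ) →L[ℂ] σ.AA
  J1 : Fin 3 → σ.AA × (κ → ℂ) →L[ℂ] σ.AA
  J2 : Fin 3 → Fin 3 → σ.AA × (κ → ℂ) →L[ℂ] σ.AA
  val0 : ∀ ξ, σ.val (J0 ξ) = G.oR (G.ζ * G.ι) * σ.wG ψ ξ
  val1 : ∀ a ξ, σ.val (J1 a ξ) = G.oR G.ζ * G.SC.D a (σ.wG ψ ξ)
  val2 : ∀ a b ξ, σ.val (J2 a b ξ) = G.oR (G.ζ * G.ρ) * G.SC.D a (G.SC.D b (σ.wG ψ ξ))

end Scale

namespace Geo

variable [BorelSpace X] [T2Space X] [SecondCountableTopology X] {G : Geo X} {ψ : κ → G.R}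

theorem GrnS.jets_le (hψ : G.GrnS ψ) (hM : G.MainS) : ∃ K : ℝ≥0, ∀ᶠ ε in admF,
    ∀ σ : Scale G, σ.ε = ε → ∀ ξ, G.jets (G.NN ε) (σ.wG ψ ξ) ≤ K * ‖ξ‖ₑ := by
  obtain ⟨K, hK⟩ := G.NN_jets_le hM
  obtain ⟨C, hC⟩ := Scale.est_wG hψ
  have h1 : ∀ k, ∃ B : ℝ≥0, ∀ᶠ ε in admF, G.NN ε (G.oR (G.ρ * ψ k)) ≤ B := fun k => by
    have hc : HasCompactSupport (G.oR (G.ρ * ψ k)).1 :=
      ((hψ.cs k).mul_left (f := G.ρ.1)).comp_left (g := fun r : ℝ => (r : ℂ)) Complex.ofReal_zero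
    obtain ⟨B, hB⟩ := G.NN_le_of_Sc fun j => (G.Sc j (G.oR (G.ρ * ψ k))).toNNReal
    refine ⟨B, hB.mono fun ε hε => ?_⟩
    have := hε (G.oR (G.ρ * ψ k)) 1 fun j => by
      rw [ENNReal.coe_toNNReal (G.Sc_ne_top_of_cs hc j), mul_one]
    rwa [mul_one] at this
  choose B hB using h1
  refine ⟨K * (1 + C * ∑ k, B k + C), ?_⟩
  filter_upwards [hK, eventually_all.2 hB] with ε h1 h2 σ hσ ξ
  subst hσ
  refine (h1 _).trans ?_
  have a1 : ‖ξ.1‖ₑ ≤ ‖ξ‖ₑ := enorm_le_iff_norm_le.2 (norm_fst_le ξ)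
  have a2 : G.gC (σ.wG ψ ξ) ≤ C * ‖ξ‖ₑ := le_self_add.trans (hC σ ξ)
  have a3 : ∀ k, ‖σ.cG ψ ξ k‖ₑ ≤ C * ‖ξ‖ₑ := fun k =>
    (enorm_le_iff_norm_le.2 (norm_le_pi_norm _ k)).trans (le_add_self.trans (hC σ ξ))
  have a4 : G.NN σ.ε (G.oR G.ρ * G.SC.LL (σ.wG ψ ξ)) ≤ ‖ξ‖ₑ + ∑ k, C * ‖ξ‖ₑ * B k := by
    rw [σ.ρ_LL_wG hψ]
    refine ((G.lv_NN _).add _ _).trans (add_le_add ((Scale.NN_le_enorm _).trans a1) ?_)
    refine ((G.lv_NN _).sum _ _).trans (Finset.sum_le_sum fun k _ => ?_)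
    rw [(G.lv_NN _).smul]
    exact mul_le_mul' (a3 k) (h2 k)
  rw [← Finset.mul_sum] at a4
  push_cast
  rw [mul_assoc]
  exact mul_le_mul_right ((add_le_add a4 a2).trans_eq (by ring)) _

theorem GrnS.exists_jets (hψ : G.GrnS ψ) (hM : G.MainS) : ∃ K : ℝ≥0, ∀ᶠ ε in admF,
    ∀ σ : Scale G, σ.ε = ε → ∃ J : σ.Jets ψ, ‖J.J0‖ ≤ σ.K * K ∧ (∀ a, ‖J.J1 a‖ ≤ σ.K * K) ∧
      ∀ a b, ‖J.J2 a b‖ ≤ σ.K * K := by
  obtain ⟨K, hK⟩ := hψ.jets_le hM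
  refine ⟨K, hK.mono fun ε h σ hσ => ?_⟩
  have h := h σ hσ
  subst hσ
  obtain ⟨J0, a0, b0⟩ := σ.exists_clm ((LinearMap.mulLeft ℂ (G.oR (G.ζ * G.ι))).comp (σ.wL hψ)) K
    fun ξ => le_trans (le_self_add.trans le_self_add) (h ξ)
  have h1 := fun a => σ.exists_clm
    ((LinearMap.mulLeft ℂ (G.oR G.ζ)).comp ((G.DL a).comp (σ.wL hψ))) K fun ξ =>
      le_trans ((Finset.single_le_sum
        (f := fun a => G.NN σ.ε (G.oR G.ζ * G.SC.D a (σ.wG ψ ξ))) (fun _ _ => zero_le)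
        (Finset.mem_univ a)).trans (le_add_self.trans le_self_add)) (h ξ)
  have h2 := fun a b => σ.exists_clm
    ((LinearMap.mulLeft ℂ (G.oR (G.ζ * G.ρ))).comp ((G.DL a).comp ((G.DL b).comp (σ.wL hψ)))) K
    fun ξ => le_trans (((Finset.single_le_sum
        (f := fun b => G.NN σ.ε (G.oR (G.ζ * G.ρ) * G.SC.D a (G.SC.D b (σ.wG ψ ξ))))
        (fun _ _ => zero_le) (Finset.mem_univ b)).trans (Finset.single_le_sum
        (f := fun a => ∑ b, G.NN σ.ε (G.oR (G.ζ * G.ρ) * G.SC.D a (G.SC.D b (σ.wG ψ ξ))))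
        (fun _ _ => zero_le) (Finset.mem_univ a))).trans le_add_self) (h ξ)
  choose J1 a1 b1 using h1
  choose J2 a2 b2 using h2
  exact ⟨⟨J0, J1, J2, a0, a1, a2⟩, b0, b1, b2⟩

theorem GrnS.nonempty_jets (hψ : G.GrnS ψ) (hM : G.MainS) : ∀ᶠ ε in admF,
    ∀ σ : Scale G, σ.ε = ε → Nonempty (σ.Jets ψ) := by
  obtain ⟨K, hK⟩ := hψ.exists_jets hM
  exact hK.mono fun ε h σ hσ => ⟨(h σ hσ).choose⟩

end Geo

end WS

end Crest.Agent.N250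

end
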