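import Crest.Agent.N250.Wt.Defs

-- ▼ part N250/Wt/AA0
section

/-!
# Row 250, Floer norms (helper76), part 0: admissible weights, the filter `admF`, tame sums
-/

set_option autoImplicit false
open Set Filter Topology
open scoped ENNReal NNReal

noncomputable section

namespace Crest.Agent.N250.WS

/-- a recursively defined admissible weight -/
def admSeq (c : ℕ → ℝ≥0) : ℕ → ℝ≥0
  | 0 => 1
  | k + 1 => if k < 11 then 1 else admSeq c k ^ 2 / ((c (k + 1) + 1) * 2 ^ k)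

theorem exists_adm (c : ℕ → ℝ≥0) : ∃ ε, Adm c ε := by
  have one : ∀ k ≤ 11, admSeq c k = 1 := fun k hk => by
    cases k with
    | zero => rfl
    | succ k => rw [admSeq, if_pos (by omega)]
  have h : ∀ k, 0 < admSeq c k ∧ admSeq c k ≤ 1 := fun k => by
    induction k with
    | zero => exact ⟨one_pos, le_rfl⟩
    | succ k ih =>
      rw [admSeq]
      split_ifs
      · exact ⟨one_pos, le_rfl⟩
      · have := ih.1
        refine ⟨by positivity, div_le_one_of_le₀ ((pow_le_one₀ zero_le ih.2).trans ?_) zero_le⟩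
        exact one_le_mul_of_one_le_of_one_le le_add_self (one_le_pow₀ one_le_two)
  refine ⟨admSeq c, fun k => (h k).1, one, fun k => ?_, fun k hk => ?_⟩
  · rcases Nat.lt_or_ge k 11 with hk | hk
    · rw [one k hk.le, one (k + 1) hk]
    · rw [admSeq, if_neg (by omega)]
      refine (div_le_self zero_le
        (one_le_mul_of_one_le_of_one_le le_add_self (one_le_pow₀ one_le_two))).trans ?_
      rw [sq]; exact mul_le_of_le_one_left zero_le (h k).2
  · rw [admSeq, if_neg (by omega), mul_assoc, div_mul_eq_mul_div, div_le_iff₀ (by positivity)]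
    gcongr
    exact le_self_add

namespace Adm

variable {c c' ε : ℕ → ℝ≥0}

theorem mono (h : Adm c ε) (hc : ∀ k, c' k ≤ c k) : Adm c' ε :=
  ⟨h.pos, h.one, h.anti, fun k hk => le_trans (by gcongr; exact hc _) (h.le k hk)⟩

theorem antitone (h : Adm c ε) : Antitone ε := antitone_nat_of_succ_le h.anti

theorem le_one (h : Adm c ε) (k : ℕ) : ε k ≤ 1 := h.one 0 (by omega) ▸ h.antitone (Nat.zero_le k)

end Adm

/-- "for all sufficiently fast decaying weights" -/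
def admF : Filter (ℕ → ℝ≥0) where
  sets := {s | ∃ c, ∀ ε, Adm c ε → ε ∈ s}
  univ_sets := ⟨0, fun _ _ => trivial⟩
  sets_of_superset := fun ⟨c, h⟩ hs => ⟨c, fun ε hε => hs (h ε hε)⟩
  inter_sets := fun ⟨c, h⟩ ⟨c', h'⟩ => ⟨c ⊔ c', fun ε hε =>
    ⟨h ε (hε.mono fun _ => le_sup_left), h' ε (hε.mono fun _ => le_sup_right)⟩⟩


theorem adm_ev (c : ℕ → ℝ≥0) : ∀ᶠ ε in admF, Adm c ε := ⟨c, fun _ h => h⟩

instance admF_neBot : admF.NeBot := by
  refine forall_mem_nonempty_iff_neBot.1 fun s ⟨c, h⟩ => ?_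
  obtain ⟨ε, hε⟩ := exists_adm c
  exact ⟨ε, h ε hε⟩

section Sums

variable {c ε : ℕ → ℝ≥0}

theorem term_le (ε : ℕ → ℝ≥0) (a : ℕ → ℝ≥0∞) (k : ℕ) :
    (ε k : ℝ≥0∞) * a k ≤ ∑' j, (ε j : ℝ≥0∞) * a j :=
  ENNReal.le_tsum (f := fun j => (ε j : ℝ≥0∞) * a j) k

theorem Adm.low_le (h : Adm c ε) (a : ℕ → ℝ≥0∞) (k : ℕ) :
    (ε k : ℝ≥0∞) * ∑ j ∈ Finset.range (k + 1), a j ≤ ∑' j, (ε j : ℝ≥0∞) * a j := by
  rw [Finset.mul_sum]
  refine le_trans (Finset.sum_le_sum fun j hj => ?_) (ENNReal.sum_le_tsum _)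
  have : ε k ≤ ε j := h.antitone (Nat.lt_succ_iff.1 (Finset.mem_range.1 hj))
  gcongr

theorem Adm.low12 (h : Adm c ε) (a : ℕ → ℝ≥0∞) {k : ℕ} (hk : k ≤ 12) :
    ∑ j ∈ Finset.range k, a j ≤ ∑' j, (ε j : ℝ≥0∞) * a j := by
  have := h.low_le a 11
  rw [h.one 11 le_rfl, ENNReal.coe_one, one_mul] at this
  exact (Finset.sum_le_sum_of_subset (Finset.range_mono hk)).trans this

theorem Adm.le' (h : Adm c ε) {k : ℕ} (hk : 11 ≤ k) :
    (ε (k + 1) : ℝ≥0∞) * c (k + 1) ≤ 2⁻¹ ^ k * (ε k * ε k) := by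
  have h1 : (ε (k + 1) : ℝ≥0∞) * c (k + 1) * 2 ^ k ≤ ε k * ε k := by
    have := h.le k hk
    rw [sq] at this
    exact_mod_cast this
  have h2 : (2 : ℝ≥0∞) ^ k * 2⁻¹ ^ k = 1 := by
    rw [← mul_pow, ENNReal.mul_inv_cancel (by norm_num) (by norm_num), one_pow]
  calc (ε (k + 1) : ℝ≥0∞) * c (k + 1) = ε (k + 1) * c (k + 1) * 2 ^ k * 2⁻¹ ^ k := by
        rw [mul_assoc _ (2 ^ k), h2, mul_one]
    _ ≤ ε k * ε k * 2⁻¹ ^ k := by gcongr
    _ = _ := mul_comm _ _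

/-- summation of error terms -/
theorem sum_err (c : ℕ → ℝ≥0) (t : ℕ → ℝ≥0∞) (A : ℝ≥0∞) (h1 : ∀ k ≤ 11, t k ≤ c k * A)
    (h2 : ∀ k, 11 ≤ k → t (k + 1) ≤ 2⁻¹ ^ k * A) :
    ∑' k, t k ≤ ((∑ k ∈ Finset.range 12, c k + 2 : ℝ≥0) : ℝ≥0∞) * A := by
  rw [← ENNReal.summable.sum_add_tsum_nat_add' (k := 12)]
  push_cast
  rw [add_mul, Finset.sum_mul]
  refine add_le_add (Finset.sum_le_sum fun k hk => h1 k (by simpa [Nat.lt_succ_iff] using hk)) ?_
  calc ∑' k, t (k + 12) ≤ ∑' k : ℕ, 2⁻¹ ^ k * A := by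
        refine ENNReal.tsum_le_tsum fun k => (h2 (k + 11) (by omega)).trans ?_
        gcongr ?_ * _
        exact pow_le_pow_right_of_le_one' (by norm_num) (by omega)
    _ = 2 * A := by rw [ENNReal.tsum_mul_right, ENNReal.tsum_geometric]; norm_num

/-- **tame sums** -/
theorem Adm.tame (h : Adm c ε) (C₀ : ℝ≥0) (a b : ℕ → ℝ≥0∞) (B : ℝ≥0∞)
    (hb : ∀ k, b k ≤ C₀ * a k + c k * (∑ j ∈ Finset.range k, a j + B)) :
    ∑' k, (ε k : ℝ≥0∞) * b k ≤ ((C₀ + (∑ k ∈ Finset.range 12, c k + 2) : ℝ≥0) : ℝ≥0∞) *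
      (∑' k, (ε k : ℝ≥0∞) * a k + B) := by
  set A := ∑' k, (ε k : ℝ≥0∞) * a k with hA
  have e1 : ∑' k, (ε k : ℝ≥0∞) * b k ≤
      C₀ * A + ∑' k, (ε k : ℝ≥0∞) * (c k * (∑ j ∈ Finset.range k, a j + B)) := by
    rw [hA, ← ENNReal.tsum_mul_left, ← ENNReal.tsum_add]
    refine ENNReal.tsum_le_tsum fun k => ?_
    rw [mul_left_comm, ← mul_add]
    gcongr
    exact hb k
  refine e1.trans ?_
  rw [ENNReal.coe_add, add_mul]
  refine add_le_add (by gcongr; exact le_self_add) (sum_err c _ _ (fun k hk => ?_) fun k hk => ?_)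
  · rw [h.one k hk, ENNReal.coe_one, one_mul]
    gcongr
    exact h.low12 a (by omega)
  · rw [← mul_assoc]
    refine (mul_le_mul_left (h.le' hk) _).trans ?_
    have e : (ε k : ℝ≥0∞) ≤ 1 := by exact_mod_cast h.le_one k
    rw [mul_assoc, mul_assoc]
    gcongr
    refine (mul_le_of_le_one_left' e).trans ?_
    rw [mul_add]
    exact add_le_add (h.low_le a k) (mul_le_of_le_one_left' e)

/-- tame sums, filter form -/
theorem tame (C₀ : ℝ≥0) (c : ℕ → ℝ≥0) : ∃ K : ℝ≥0, ∀ᶠ ε in admF, ∀ (a b : ℕ → ℝ≥0∞) (B : ℝ≥0∞),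
    (∀ k, b k ≤ C₀ * a k + c k * (∑ j ∈ Finset.range k, a j + B)) →
    ∑' k, (ε k : ℝ≥0∞) * b k ≤ K * (∑' k, (ε k : ℝ≥0∞) * a k + B) :=
  ⟨_, (adm_ev c).mono fun _ h a b B hb => h.tame C₀ a b B hb⟩

/-- products -/
theorem Adm.prod (h : Adm c ε) (a b p : ℕ → ℝ≥0∞)
    (h1 : ∀ k ≤ 11, p k ≤ c k * ((∑ j ∈ Finset.range 12, a j) * ∑ j ∈ Finset.range 12, b j))
    (h2 : ∀ k, 12 ≤ k → p k ≤ a k * b 5 + a 5 * b k
      + c k * ((∑ j ∈ Finset.range k, a j) * ∑ j ∈ Finset.range k, b j)) :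
    ∑' k, (ε k : ℝ≥0∞) * p k ≤ ((2 + (∑ k ∈ Finset.range 12, c k + 2) : ℝ≥0) : ℝ≥0∞) *
      (∑' k, (ε k : ℝ≥0∞) * a k) * ∑' k, (ε k : ℝ≥0∞) * b k := by
  set A := ∑' k, (ε k : ℝ≥0∞) * a k with hA
  set B := ∑' k, (ε k : ℝ≥0∞) * b k with hB
  let t : ℕ → ℝ≥0∞ := fun k => (ε k : ℝ≥0∞) *
    (c k * ((∑ j ∈ Finset.range (max k 12), a j) * ∑ j ∈ Finset.range (max k 12), b j))
  have a5 : a 5 ≤ A := by simpa [h.one 5 (by omega)] using term_le ε a 5
  have b5 : b 5 ≤ B := by simpa [h.one 5 (by omega)] using term_le ε b 5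
  have e1 : ∑' k, (ε k : ℝ≥0∞) * p k ≤ A * B + A * B + ∑' k, t k := by
    have x1 : A * B = ∑' k, (ε k : ℝ≥0∞) * a k * B := by rw [ENNReal.tsum_mul_right]
    have x2 : A * B = ∑' k, A * ((ε k : ℝ≥0∞) * b k) := by rw [ENNReal.tsum_mul_left]
    rw [show A * B + A * B = (∑' k, (ε k : ℝ≥0∞) * a k * B) + ∑' k, A * ((ε k : ℝ≥0∞) * b k) from
      congrArg₂ _ x1 x2, ← ENNReal.tsum_add, ← ENNReal.tsum_add]
    refine ENNReal.tsum_le_tsum fun k => ?_
    rcases Nat.lt_or_ge k 12 with hk | hk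
    · refine le_trans ?_ le_add_self
      simp only [t, max_eq_right hk.le]
      gcongr
      exact h1 k (by omega)
    · simp only [t, max_eq_left hk]
      rw [mul_assoc, mul_left_comm A, ← mul_add, ← mul_add]
      gcongr
      refine (h2 k hk).trans ?_
      gcongr
  refine e1.trans ?_
  rw [ENNReal.coe_add, mul_assoc, add_mul, ← two_mul]
  refine add_le_add le_rfl (sum_err c _ _ (fun k hk => ?_) fun k hk => ?_)
  · simp only [t, max_eq_right (show k ≤ 12 by omega)]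
    rw [h.one k hk, ENNReal.coe_one, one_mul]
    gcongr
    exacts [h.low12 a le_rfl, h.low12 b le_rfl]
  · simp only [t, max_eq_left (show 12 ≤ k + 1 by omega)]
    rw [← mul_assoc]
    refine (mul_le_mul_left (h.le' hk) _).trans ?_
    rw [mul_assoc, mul_mul_mul_comm]
    gcongr
    exacts [h.low_le a k, h.low_le b k]

end Sums

end Crest.Agent.N250.WS

end
private theorem rz_e427e2b212 : type_of% @_root_.Crest.Agent.N250.WS.admSeq.eq_def := @_root_.Crest.Agent.N250.WS.admSeq.eq_def -- L16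
private theorem rz_addae4823e : type_of% @_root_.Crest.Agent.N250.WS.admSeq.eq_1 := @_root_.Crest.Agent.N250.WS.admSeq.eq_1 -- L16
end

-- ▼ part N250/Wt/AA1

/-!
# Row 250, Floer norms (helper76), part 1: the levels and `NN` are extended seminorms
-/

set_option autoImplicit false
set_option linter.unusedSectionVars false
open MeasureTheory Set Filter Topology
open scoped ENNReal NNReal

noncomputable section

namespace Crest.Agent.N250.WS

open Crest.Agent.N222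

/-- extended seminorms -/
structure IsSn {V : Type} [AddCommGroup V] [Module ℂ V] (N : V → ℝ≥0∞) : Prop where
  add : ∀ f g, N (f + g) ≤ N f + N g
  smul : ∀ (c : ℂ) f, N (c • f) ≤ ‖c‖ₑ * N f

namespace IsSn

variable {V W : Type} [AddCommGroup V] [Module ℂ V] [AddCommGroup W] [Module ℂ W]
  {N N' : V → ℝ≥0∞}

theorem zero (h : IsSn N) : N 0 = 0 := by simpa using h.smul 0 0

theorem neg (h : IsSn N) (f : V) : N (-f) = N f := by
  have : ∀ f, N (-f) ≤ N f := fun f => by simpa using h.smul (-1) f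
  exact le_antisymm (this f) (by simpa using this (-f))

theorem sub (h : IsSn N) (f g : V) : N (f - g) ≤ N f + N g := by
  rw [sub_eq_add_neg, ← h.neg g]; exact h.add _ _


theorem tri (h : IsSn N) (f g k : V) : N (f - k) ≤ N (f - g) + N (g - k) := by
  rw [← sub_add_sub_cancel f g k]; exact h.add _ _

theorem sum (h : IsSn N) {κ : Type*} (s : Finset κ) (f : κ → V) :
    N (∑ i ∈ s, f i) ≤ ∑ i ∈ s, N (f i) :=
  Finset.le_sum_of_subadditive N h.zero.le h.add s f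

theorem comp (h : IsSn N) (A : W →ₗ[ℂ] V) : IsSn fun w => N (A w) :=
  ⟨fun f g => by rw [map_add]; exact h.add _ _, fun c f => by rw [map_smul]; exact h.smul _ _⟩

theorem plus (h : IsSn N) (h' : IsSn N') : IsSn fun f => N f + N' f :=
  ⟨fun f g => (add_le_add (h.add f g) (h'.add f g)).trans (add_add_add_comm _ _ _ _).le,
    fun c f => (add_le_add (h.smul c f) (h'.smul c f)).trans (mul_add _ _ _).ge⟩

theorem cmul (h : IsSn N) (k : ℝ≥0∞) : IsSn fun f => k * N f :=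
  ⟨fun f g => by rw [← mul_add]; gcongr; exact h.add f g,
    fun c f => by rw [mul_left_comm]; gcongr; exact h.smul c f⟩

theorem tsum {κ : Type*} {N : κ → V → ℝ≥0∞} (h : ∀ i, IsSn (N i)) : IsSn fun f => ∑' i, N i f :=
  ⟨fun f g => by rw [← ENNReal.tsum_add]; exact ENNReal.tsum_le_tsum fun i => (h i).add f g,
    fun c f => by rw [← ENNReal.tsum_mul_left]; exact ENNReal.tsum_le_tsum fun i => (h i).smul c f⟩

theorem fsum {κ : Type*} (s : Finset κ) {N : κ → V → ℝ≥0∞} (h : ∀ i, IsSn (N i)) :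
    IsSn fun f => ∑ i ∈ s, N i f :=
  ⟨fun f g => by rw [← Finset.sum_add_distrib]; exact Finset.sum_le_sum fun i _ => (h i).add f g,
    fun c f => by rw [Finset.mul_sum]; exact Finset.sum_le_sum fun i _ => (h i).smul c f⟩

theorem sumW {ι : Type} [Fintype ι] (k : ℕ) {N : List ι → V → ℝ≥0∞} (h : ∀ l, IsSn (N l)) :
    IsSn fun f => sumW k fun l => N l f := by
  induction k generalizing N with
  | zero => exact h []
  | succ k ih => exact fsum _ fun a => ih fun l => h (a :: l)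

theorem ite (p : Prop) [Decidable p] (h : IsSn N) : IsSn fun f => if p then N f else 0 := by
  split_ifs
  · exact h
  · exact ⟨fun _ _ => zero_le, fun _ _ => zero_le⟩

end IsSn

section SumW

variable {ι : Type} [Fintype ι]

theorem esumW_le (k : ℕ) {F G : List ι → ℝ≥0∞} (h : ∀ w, w.length = k → F w ≤ G w) :
    sumW k F ≤ sumW k G := by
  induction k generalizing F G with
  | zero => exact h [] rfl
  | succ k ih => exact Finset.sum_le_sum fun a _ => ih fun w hw => h _ (by simp [hw])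

theorem le_esumW (F : List ι → ℝ≥0∞) (w : List ι) : F w ≤ sumW w.length F := by
  induction w generalizing F with
  | nil => exact le_rfl
  | cons a w ih =>
    exact (ih fun w => F (a :: w)).trans (Finset.single_le_sum
      (f := fun a => sumW w.length fun w => F (a :: w)) (fun _ _ => zero_le) (Finset.mem_univ a))

theorem esumW_mul (c : ℝ≥0∞) (k : ℕ) (F : List ι → ℝ≥0∞) :
    sumW k (fun w => c * F w) = c * sumW k F :=
  (map_sumW (AddMonoidHom.mulLeft c) k F).symm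

theorem esumW_ne_top (k : ℕ) {F : List ι → ℝ≥0∞} (h : ∀ w, w.length = k → F w ≠ ⊤) :
    sumW k F ≠ ⊤ := by
  induction k generalizing F with
  | zero => exact h [] rfl
  | succ k ih => exact ENNReal.sum_ne_top.2 fun a _ => ih fun w hw => h _ (by simp [hw])

theorem esumW_tendsto {α : Type*} {l : Filter α} (k : ℕ) {F : α → List ι → ℝ≥0∞}
    (h : ∀ w, w.length = k → Tendsto (fun i => F i w) l (𝓝 0)) :
    Tendsto (fun i => sumW k (F i)) l (𝓝 0) := by
  induction k generalizing F with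
  | zero => exact h [] rfl
  | succ k ih =>
    have := tendsto_finset_sum (Finset.univ : Finset ι) fun a _ =>
      ih (F := fun i w => F i (a :: w)) fun w hw => h _ (by simp [hw])
    rwa [Finset.sum_const_zero] at this

end SumW

variable {X : Type} [TopologicalSpace X] [MeasurableSpace X]

namespace Geo

variable (G : Geo X)

theorem aa_Dr (a : Fin 3) (r : ℝ) (f : G.R) : G.S.D a (r • f) = r • G.S.D a f := by
  rw [Algebra.smul_def, Algebra.smul_def, G.hyp.mul, G.hyp.const]; ring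

theorem aa_D_apply (a : Fin 3) (f : G.SmC) (p : X) : (G.SC.D a f).1 p =
    ((G.S.D a (G.re f)).1 p : ℂ) + Complex.I * ((G.S.D a (G.im f)).1 p : ℂ) := rfl

/-- the derivative as a complex linear map -/
def DL (a : Fin 3) : G.SmC →ₗ[ℂ] G.SmC where
  toFun := G.SC.D a
  map_add' f g := by
    have e1 : G.re (f + g) = G.re f + G.re g := rfl
    have e2 : G.im (f + g) = G.im f + G.im g := rfl
    refine Subtype.ext (funext fun p => ?_)
    change _ = (G.SC.D a f).1 p + (G.SC.D a g).1 p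
    simp only [aa_D_apply, e1, e2, G.hyp.add, Subalgebra.coe_add, Pi.add_apply, Complex.ofReal_add]
    ring
  map_smul' c f := by
    have e1 : G.re (c • f) = c.re • G.re f - c.im • G.im f :=
      Subtype.ext (funext fun p => Complex.mul_re c (f.1 p))
    have e2 : G.im (c • f) = c.re • G.im f + c.im • G.re f :=
      Subtype.ext (funext fun p => Complex.mul_im c (f.1 p))
    refine Subtype.ext (funext fun p => ?_)
    change _ = c * (G.SC.D a f).1 p
    simp only [aa_D_apply, e1, e2, G.hyp.add, G.hyp.toIsDS.D_sub, aa_Dr, Subalgebra.coe_add,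
      Subalgebra.coe_sub, Subalgebra.coe_smul, Pi.add_apply, Pi.sub_apply, Pi.smul_apply,
      smul_eq_mul, Complex.ofReal_add, Complex.ofReal_sub, Complex.ofReal_mul]
    conv_rhs => rw [← Complex.re_add_im c]
    linear_combination (-(c.im : ℂ) * ((G.S.D a (G.im f)).1 p : ℂ)) * Complex.I_mul_I

/-- iterated derivatives as complex linear maps -/
def DwL : List (Fin 3) → G.SmC →ₗ[ℂ] G.SmC
  | [] => LinearMap.id
  | a :: l => (G.DL a).comp (DwL l)

@[simp] theorem DL_apply (a : Fin 3) (f : G.SmC) : G.DL a f = G.SC.D a f := rfl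

@[simp] theorem DwL_apply (l : List (Fin 3)) (f : G.SmC) : G.DwL l f = G.SC.Dw l f := by
  induction l with
  | nil => rfl
  | cons a l ih => rw [DwL, LinearMap.comp_apply, ih]; rfl

/-- `ρ^|l| D^l` as a linear map -/
def jL (j : ℕ) (l : List (Fin 3)) : G.SmC →ₗ[ℂ] G.SmC :=
  (LinearMap.mulLeft ℂ (G.oR G.ρ ^ j)).comp (G.DwL l)

@[simp] theorem jL_apply (j : ℕ) (l : List (Fin 3)) (f : G.SmC) :
    G.jL j l f = G.oR G.ρ ^ j * G.SC.Dw l f := by
  rw [jL, LinearMap.comp_apply, DwL_apply]; rfl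

theorem le_sC (f : G.SmC) (p : X) : ‖f.1 p‖ₑ ≤ G.sC f := le_iSup (fun p => ‖f.1 p‖ₑ) p

theorem sn_sC : IsSn G.sC :=
  ⟨fun f g => iSup_le fun p => (enorm_add_le _ _).trans (add_le_add (G.le_sC f p) (G.le_sC g p)),
    fun c f => iSup_le fun p => (enorm_smul_le (r := c) (x := f.1 p)).trans
      (by gcongr; exact G.le_sC f p)⟩


theorem sn_Sc (j : ℕ) : IsSn (G.Sc j) := by
  have := IsSn.sumW j fun l => G.sn_sC.comp (G.jL j l)
  simp only [jL_apply] at this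
  exact this

theorem le_Sc (l : List (Fin 3)) (f : G.SmC) :
    G.sC (G.oR G.ρ ^ l.length * G.SC.Dw l f) ≤ G.Sc l.length f :=
  le_esumW (fun w => G.sC (G.oR G.ρ ^ l.length * G.SC.Dw w f)) l


theorem Ac_le_lev (k : ℕ) (f : G.SmC) : G.Ac k f ≤ G.lev k f := le_self_add

theorem Sc_le_lev (k : ℕ) (f : G.SmC) : G.Sc k f ≤ G.lev (k + 5) f := by
  rw [lev, if_pos (by omega), Nat.add_sub_cancel]; exact le_add_self

theorem Sc_zero (f : G.SmC) : G.Sc 0 f = G.sC f := by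
  change G.sC (G.oR G.ρ ^ 0 * f) = _
  rw [pow_zero, one_mul]

theorem Ac_zero (f : G.SmC) : G.Ac 0 f = G.nC f := by
  change G.nC (G.oR G.ρ ^ 0 * f) = _
  rw [pow_zero, one_mul]

theorem lev_le_NN (ε : ℕ → ℝ≥0) (k : ℕ) (f : G.SmC) : (ε k : ℝ≥0∞) * G.lev k f ≤ G.NN ε f :=
  term_le ε (fun k => G.lev k f) k

theorem sC_le_NN {c ε : ℕ → ℝ≥0} (h : Adm c ε) (f : G.SmC) : G.sC f ≤ G.NN ε f := by
  have := G.lev_le_NN ε 5 f
  rw [h.one 5 (by omega), ENNReal.coe_one, one_mul] at this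
  exact (G.Sc_zero f ▸ G.Sc_le_lev 0 f).trans this

theorem nC_le_NN {c ε : ℕ → ℝ≥0} (h : Adm c ε) (f : G.SmC) : G.nC f ≤ G.NN ε f := by
  have := G.lev_le_NN ε 0 f
  rw [h.one 0 (by omega), ENNReal.coe_one, one_mul] at this
  exact (G.Ac_zero f ▸ G.Ac_le_lev 0 f).trans this

theorem jet_le (l : List (Fin 3)) (f : G.SmC) (p : X) :
    ‖(G.SC.Dw l f).1 p‖ₑ ≤ ‖(G.oR G.ρ ^ l.length * G.SC.Dw l f).1 p‖ₑ := by
  change _ ≤ ‖((G.ρ.1 p : ℝ) : ℂ) ^ l.length * (G.SC.Dw l f).1 p‖ₑ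
  rw [enorm_mul]
  refine le_mul_of_one_le_left' ?_
  rw [← ofReal_norm_eq_enorm, norm_pow, Complex.norm_real, ← ENNReal.ofReal_one]
  exact ENNReal.ofReal_le_ofReal (one_le_pow₀ ((G.one_le p).trans (le_abs_self _)))

instance : IsFiniteMeasure G.dm := isFiniteMeasure_withDensity_ofReal G.m_int.2

/-- the constant between `L²(dm)` and the sup norm -/
def cm : ℝ≥0 := (G.dm univ ^ (2 : ℝ≥0∞).toReal⁻¹).toNNReal

theorem nC_le_sC (f : G.SmC) : G.nC f ≤ G.cm * G.sC f := by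
  rw [cm, ENNReal.coe_toNNReal
    (ENNReal.rpow_ne_top_of_nonneg (by positivity) (measure_ne_top _ _)), mul_comm]
  exact eLpNorm_le_of_ae_enorm_bound (Eventually.of_forall (G.le_sC f))

theorem Ac_le_Sc (j : ℕ) (f : G.SmC) : G.Ac j f ≤ G.cm * G.Sc j f := by
  rw [Sc, ← esumW_mul]; exact esumW_le j fun _ _ => G.nC_le_sC _

theorem lev_le_Sc (k : ℕ) (f : G.SmC) : G.lev k f ≤ G.cm * G.Sc k f + G.Sc (k - 5) f := by
  refine add_le_add (G.Ac_le_Sc k f) ?_
  split_ifs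
  exacts [le_rfl, zero_le]

theorem lev_ne_top {f : G.SmC} (h : ∀ j, G.Sc j f ≠ ⊤) (k : ℕ) : G.lev k f ≠ ⊤ :=
  ne_top_of_le_ne_top (ENNReal.add_ne_top.2 ⟨ENNReal.mul_ne_top ENNReal.coe_ne_top (h _), h _⟩)
    (G.lev_le_Sc k f)

theorem Sc_one_ne_top (j : ℕ) : G.Sc j 1 ≠ ⊤ := by
  refine esumW_ne_top j fun w hw => ?_
  have z : ∀ w : List (Fin 3), w ≠ [] → G.SC.Dw w 1 = 0 := fun w hw => by
    induction w with
    | nil => exact absurd rfl hw
    | cons a w ih =>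
      rcases eq_or_ne w [] with rfl | h
      · have e1 : G.re 1 = 1 := rfl
        have e2 : G.im 1 = 0 := rfl
        change G.oR (G.S.D a (G.re 1)) + Complex.I • G.oR (G.S.D a (G.im 1)) = 0
        rw [e1, e2, G.hyp.toIsDS.D_one, G.hyp.toIsDS.D_zero, map_zero, smul_zero, add_zero]
      · rw [Mov.Dw, ih h]; exact (G.DL a).map_zero
  rcases eq_or_ne w [] with rfl | h
  · subst hw
    refine ne_top_of_le_ne_top ENNReal.one_ne_top (iSup_le fun p => ?_)
    simp [Mov.Dw]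
  · rw [z w h, mul_zero, G.sn_sC.zero]; exact ENNReal.zero_ne_top

/-! ### families with finite levels -/

/-- uniform level bounds give a uniform bound of the norm -/
theorem NN_le_of_lev (c : ℕ → ℝ≥0) : ∃ K : ℝ≥0, ∀ᶠ ε in admF, ∀ (f : G.SmC) (B : ℝ≥0∞),
    (∀ k, G.lev k f ≤ c k * B) → G.NN ε f ≤ K * B := by
  obtain ⟨K, h⟩ := tame 0 c
  refine ⟨K, h.mono fun ε h f B hf => ?_⟩
  simpa [NN] using h 0 (fun k => G.lev k f) B fun k => by simpa using hf k

/-- uniform sup bounds give a uniform bound of the norm -/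
theorem NN_le_of_Sc (c : ℕ → ℝ≥0) : ∃ K : ℝ≥0, ∀ᶠ ε in admF, ∀ (f : G.SmC) (B : ℝ≥0∞),
    (∀ k, G.Sc k f ≤ c k * B) → G.NN ε f ≤ K * B := by
  obtain ⟨K, h⟩ := G.NN_le_of_lev fun k => G.cm * c k + c (k - 5)
  refine ⟨K, h.mono fun ε h f B hf => h f B fun k => (G.lev_le_Sc k f).trans ?_⟩
  push_cast
  rw [add_mul, mul_assoc]
  gcongr <;> exact hf _

theorem NN_ne_top_of_lev {f : G.SmC} (h : ∀ k, G.lev k f ≠ ⊤) : ∀ᶠ ε in admF, G.NN ε f ≠ ⊤ := by
  obtain ⟨K, hK⟩ := G.NN_le_of_lev fun k => (G.lev k f).toNNReal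
  refine hK.mono fun ε hε => ne_top_of_le_ne_top (b := K * 1) (by simp) (hε f 1 fun k => ?_)
  rw [ENNReal.coe_toNNReal (h k), mul_one]

theorem NN_ne_top_of_Sc {f : G.SmC} (h : ∀ k, G.Sc k f ≠ ⊤) : ∀ᶠ ε in admF, G.NN ε f ≠ ⊤ :=
  G.NN_ne_top_of_lev (G.lev_ne_top h)

/-- tame level bounds give a bound of the norm -/
theorem NN_tame (C₀ : ℝ≥0) (c : ℕ → ℝ≥0) : ∃ K : ℝ≥0, ∀ᶠ ε in admF,
    ∀ (f g : G.SmC) (B : ℝ≥0∞),
      (∀ k, G.lev k g ≤ C₀ * G.lev k f + c k * (G.low k f + B)) → G.NN ε g ≤ K * (G.NN ε f + B) := by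
  obtain ⟨K, h⟩ := tame C₀ c
  exact ⟨K, h.mono fun ε h f g B hf => h (fun k => G.lev k f) (fun k => G.lev k g) B hf⟩

theorem jets_NN (ε : ℕ → ℝ≥0) (u : G.SmC) :
    G.jets (G.NN ε) u = ∑' k, (ε k : ℝ≥0∞) * G.jets (G.lev k) u := by
  simp only [jets, NN, mul_add, Finset.mul_sum, ENNReal.tsum_add]
  rw [Summable.tsum_finsetSum fun _ _ => ENNReal.summable,
    Summable.tsum_finsetSum fun _ _ => ENNReal.summable]
  simp only [Summable.tsum_finsetSum fun _ _ => ENNReal.summable]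

/-- **the main estimate in the Floer norm** -/
theorem NN_jets_le (h : G.MainS) : ∃ K : ℝ≥0, ∀ᶠ ε in admF, ∀ u,
    G.jets (G.NN ε) u ≤ K * (G.NN ε (G.oR G.ρ * G.SC.LL u) + G.gC u) := by
  obtain ⟨C₀, h⟩ := h
  choose c hc using h
  obtain ⟨K, hK⟩ := tame C₀ c
  refine ⟨K, hK.mono fun ε hε u => ?_⟩
  rw [jets_NN]
  exact hε (fun k => G.lev k (G.oR G.ρ * G.SC.LL u)) _ _ fun k => hc k u

theorem NN_mul (h : G.MulS) : ∃ K : ℝ≥0, 1 ≤ K ∧ ∀ᶠ ε in admF, ∀ f g,
    G.NN ε (f * g) ≤ K * G.NN ε f * G.NN ε g := by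
  choose c hc using h
  refine ⟨_, ?_, (adm_ev c).mono fun ε hε f g => hε.prod (fun k => G.lev k f) (fun k => G.lev k g)
    (fun k => G.lev k (f * g)) (fun k => (hc k f g).1) fun k => (hc k f g).2⟩
  exact le_trans one_le_two le_self_add

/-- **scales exist** for all admissible weights, with one constant -/
theorem exists_scale (h : G.MulS) : ∃ K : ℝ≥0, ∀ᶠ ε in admF, ∃ σ : Scale G, σ.ε = ε ∧ σ.K = K := by
  obtain ⟨K, h1, hK⟩ := G.NN_mul h
  refine ⟨K, ?_⟩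
  filter_upwards [hK, adm_ev 1, G.NN_ne_top_of_Sc G.Sc_one_ne_top] with ε a b c
  exact ⟨⟨ε, K, b, h1, a, c⟩, rfl, rfl⟩

/-- a scale with any eventually true property of the weights -/
theorem exists_scale' (h : G.MulS) {P : (ℕ → ℝ≥0) → Prop} (hP : ∀ᶠ ε in admF, P ε) :
    ∃ σ : Scale G, P σ.ε := by
  obtain ⟨K, hK⟩ := G.exists_scale h
  obtain ⟨ε, ⟨σ, rfl, -⟩, h2⟩ := (hK.and hP).exists
  exact ⟨σ, h2⟩

variable [BorelSpace X]

theorem aesmC (f : G.SmC) (μ : Measure X) : AEStronglyMeasurable f.1 μ :=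
  (Imm.Sm.continuous f.2).aestronglyMeasurable

theorem sn_Lp (μ : Measure X) : IsSn fun f : G.SmC => eLpNorm f.1 2 μ :=
  ⟨fun f g => eLpNorm_add_le (G.aesmC f μ) (G.aesmC g μ) one_le_two,
    fun c f => eLpNorm_const_smul_le (c := c) (f := f.1)⟩

theorem sn_nC : IsSn G.nC := G.sn_Lp _


theorem sn_Ac (j : ℕ) : IsSn (G.Ac j) := by
  have := IsSn.sumW j fun l => G.sn_nC.comp (G.jL j l)
  simp only [jL_apply] at this
  exact this

theorem sn_lev (k : ℕ) : IsSn (G.lev k) := (G.sn_Ac k).plus ((G.sn_Sc (k - 5)).ite _)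


theorem sn_NN (ε : ℕ → ℝ≥0) : IsSn (G.NN ε) := IsSn.tsum fun k => (G.sn_lev k).cmul _

end Geo

end Crest.Agent.N250.WS

end
private theorem rz_0ee10aa5d8 : type_of% @_root_.Crest.Agent.N250.WS.Geo.DwL.eq_def := @_root_.Crest.Agent.N250.WS.Geo.DwL.eq_def -- L154
private theorem rz_aefdf261f0 : type_of% @_root_.Crest.Agent.N250.WS.Geo.DwL.eq_1 := @_root_.Crest.Agent.N250.WS.Geo.DwL.eq_1 -- L154
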