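import Crest.Agent.N250.Wt.Defs

/-!
# Row 250, weighted theory (helper54): evaluation, symbol calculus, elementary norm lemmas
-/

set_option autoImplicit false
set_option linter.unusedSectionVars false
open MeasureTheory Set Filter Topology
open scoped ContDiff ENNReal NNReal

noncomputable section

namespace Crest.Agent.N250

open Crest.Agent.N222

namespace Mov

variable {R : Type} [CommRing R] [Algebra ℝ R] {ι : Type} [Fintype ι] [DecidableEq ι]
  {S : Mov R ι}

theorem Dw_append (l l' : List ι) (f : R) : S.Dw (l ++ l') f = S.Dw l (S.Dw l' f) := by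
  induction l with
  | nil => rfl
  | cons a l ih => simp only [List.cons_append, Dw, ih]

theorem Dw_snoc (l : List ι) (a : ι) (f : R) : S.Dw (l ++ [a]) f = S.Dw l (S.D a f) :=
  Dw_append l [a] f

namespace IsHyp

variable (H : S.IsHyp)
include H

theorem Dw_add (l : List ι) (f g : R) : S.Dw l (f + g) = S.Dw l f + S.Dw l g := by
  induction l with
  | nil => rfl
  | cons a l ih => simp only [Dw, ih, H.add]

theorem Dw_zero (l : List ι) : S.Dw l 0 = 0 := by
  induction l with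
  | nil => rfl
  | cons a l ih => simp only [Dw, ih, H.toIsDS.D_zero]




theorem D_cmul (c : ℝ) (a : ι) (f : R) :
    S.D a (algebraMap ℝ R c * f) = algebraMap ℝ R c * S.D a f := by
  rw [H.mul, H.const]; ring

theorem Dw_cmul (c : ℝ) (l : List ι) (f : R) :
    S.Dw l (algebraMap ℝ R c * f) = algebraMap ℝ R c * S.Dw l f := by
  induction l with
  | nil => rfl
  | cons a l ih => simp only [Dw, ih, H.D_cmul]

theorem D_natCast (a : ι) (i : ℕ) : S.D a (i : R) = 0 := by
  simpa using H.const a (i : ℝ)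

/-- the drift and a derivative, on a shrinker -/
theorem dr_D (hs : S.xn = 2 * S.h) (f : R) (a : ι) : S.dr (S.D a f) = S.D a (S.dr f) - S.D a f
    - 2 * S.n a * S.gam S.h f + 2 * S.h * ∑ c, S.B a c * S.D c f := by
  have e1 : S.D a (S.dr f) = ∑ b, S.x b * S.D a (S.D b f) + S.D a f := by
    simp only [dr, H.toIsDS.D_sum, H.mul, Finset.sum_add_distrib]
    congr 1
    exact H.tan f a
  have e2 : ∀ c, ∑ b, S.x b * S.B b c = 2 * S.D c S.h := fun c => by
    have := H.D_xn c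
    rw [hs, show (2 : R) * S.h = S.h + S.h by ring, H.add] at this
    rw [two_mul, this]
    exact Finset.sum_congr rfl fun b _ => by rw [H.B_symm b c, mul_comm]
  have e3 : ∑ b, S.x b * ∑ c, S.B b c * S.D c f = 2 * S.gam S.h f := by
    simp only [Finset.mul_sum, Pre.gam, ← mul_assoc]
    rw [Finset.sum_comm]
    simp only [← Finset.sum_mul, e2]
  have e4 : ∑ b, S.x b * S.n b = 2 * S.h := hs
  have e5 : ∑ b, S.x b * S.D a (S.D b f) = ∑ b, S.x b * S.D b (S.D a f)
      + S.n a * ∑ b, S.x b * ∑ c, S.B b c * S.D c f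
      - (∑ b, S.x b * S.n b) * ∑ c, S.B a c * S.D c f := by
    rw [Finset.mul_sum, Finset.sum_mul, ← Finset.sum_add_distrib, ← Finset.sum_sub_distrib]
    exact Finset.sum_congr rfl fun b _ => by rw [H.DD_comm f a b]; ring
  rw [e1, e5, e3, e4, dr]; ring

/-- the commutator of the level operators and a derivative -/
theorem Mi_D (hs : S.xn = 2 * S.h) (i : ℕ) (f : R) (a : ι) : S.Mi (i + 1) (S.D a f) =
    S.D a (S.Mi i f) - 2 * ∑ b, S.B2 a b * S.D b f
      - 2 * S.n a * ∑ b, ∑ c, S.B b c * S.D b (S.D c f) := by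
  have e0 : algebraMap ℝ R (1 / 2) * 2 = 1 := by
    rw [← map_ofNat (algebraMap ℝ R) 2, ← map_mul]; norm_num
  have e1 : S.D a (((i : R) - 1) * f) = ((i : R) - 1) * S.D a f := by
    rw [H.mul, H.toIsDS.D_sub, H.D_natCast, H.toIsDS.D_one]; ring
  simp only [Mi, Pi, H.toIsDS.D_sub, H.D_cmul, H.add, e1, H.lap_D, H.dr_D hs]
  push_cast
  linear_combination (S.n a * S.gam S.h f - S.h * ∑ c, S.B a c * S.D c f) * e0

end IsHyp

end Mov

namespace WS

variable {X : Type} [TopologicalSpace X] [MeasurableSpace X]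

namespace Geo

variable (G : Geo X)

/-- evaluation -/
def ev (p : X) : G.R →ₐ[ℝ] ℝ := (Pi.evalAlgHom ℝ _ p).comp (SmR G.M.ch).val

variable {G}

theorem ev_apply (p : X) (f : G.R) : G.ev p f = f.1 p := rfl

theorem val_eq (f : G.R) : f.1 = fun p => G.ev p f := rfl


theorem cont (f : G.R) : Continuous f.1 := Imm.Sm.continuous f.2

variable (G)

theorem ρ_pos (p : X) : 0 < G.ρ.1 p := one_pos.trans_le (G.one_le p)

theorem ι_eq (p : X) : G.ι.1 p = (G.ρ.1 p)⁻¹ :=
  eq_inv_of_mul_eq_one_right (congrArg (G.ev p) G.ρι)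

theorem ι_pos (p : X) : 0 < G.ι.1 p := by rw [G.ι_eq]; exact inv_pos.2 (G.ρ_pos p)

theorem ι_le (p : X) : G.ι.1 p ≤ 1 := by rw [G.ι_eq]; exact inv_le_one_of_one_le₀ (G.one_le p)

theorem ρι_ev (p : X) : G.ρ.1 p * G.ι.1 p = 1 := congrArg (G.ev p) G.ρι

theorem zpow_mono (p : X) {k k' : ℤ} (h : k ≤ k') : G.ρ.1 p ^ k ≤ G.ρ.1 p ^ k' :=
  zpow_le_zpow_right₀ (G.one_le p) h

theorem x2_nonneg (p : X) : 0 ≤ G.S.x2.1 p := by
  rw [← ev_apply, Mov.x2, map_sum]
  exact Finset.sum_nonneg fun a _ => by rw [map_mul]; exact mul_self_nonneg _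

/-- pointwise bound of order `k` -/
def Bd (k : ℤ) (f : G.R) : Prop := ∃ C : ℝ, 0 ≤ C ∧ ∀ p, |f.1 p| ≤ C * G.ρ.1 p ^ k

variable {G} {k k' : ℤ} {f g : G.R}

theorem bd_of (h : ∃ C : ℝ, ∀ p, |f.1 p| ≤ C * G.ρ.1 p ^ k) : G.Bd k f := by
  obtain ⟨C, h⟩ := h
  exact ⟨|C|, abs_nonneg _, fun p => (h p).trans
    (mul_le_mul_of_nonneg_right (le_abs_self _) (zpow_pos (G.ρ_pos p) _).le)⟩

theorem Bd.add (hf : G.Bd k f) (hg : G.Bd k g) : G.Bd k (f + g) := by
  obtain ⟨C, h0, h⟩ := hf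
  obtain ⟨C', h0', h'⟩ := hg
  refine ⟨C + C', by positivity, fun p => ?_⟩
  rw [add_mul]
  exact (abs_add_le _ _).trans (add_le_add (h p) (h' p))

theorem Bd.mul (hf : G.Bd k f) (hg : G.Bd k' g) : G.Bd (k + k') (f * g) := by
  obtain ⟨C, h0, h⟩ := hf
  obtain ⟨C', h0', h'⟩ := hg
  refine ⟨C * C', by positivity, fun p => ?_⟩
  rw [zpow_add₀ (G.ρ_pos p).ne', mul_mul_mul_comm]
  exact (abs_mul _ _).trans_le (mul_le_mul (h p) (h' p) (abs_nonneg _) ((abs_nonneg _).trans (h p)))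

theorem Bd.mono (hf : G.Bd k f) (h : k ≤ k') : G.Bd k' f := by
  obtain ⟨C, h0, h1⟩ := hf
  exact ⟨C, h0, fun p => (h1 p).trans (mul_le_mul_of_nonneg_left (G.zpow_mono p h) h0)⟩

theorem Sy.bdw (hf : G.Sy k f) (l : List (Fin 3)) : G.Bd (k - l.length) (G.S.Dw l f) := bd_of (hf l)

theorem Sy.bd (hf : G.Sy k f) : G.Bd k f := by simpa [Mov.Dw] using hf.bdw []

theorem sy_of (h : ∀ l : List (Fin 3), G.Bd (k - l.length) (G.S.Dw l f)) : G.Sy k f :=
  fun l => (h l).imp fun _ h => h.2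

theorem Sy.D (hf : G.Sy k f) (a : Fin 3) : G.Sy (k - 1) (G.S.D a f) := sy_of fun l => by
  have := hf.bdw (l ++ [a])
  rw [Mov.Dw_snoc, List.length_append, List.length_singleton] at this
  exact this.mono (by push_cast; omega)

theorem sy_of_D (h0 : G.Bd k f) (h : ∀ a, G.Sy (k - 1) (G.S.D a f)) : G.Sy k f := sy_of fun l => by
  rcases List.eq_nil_or_concat l with rfl | ⟨l, a, rfl⟩
  · simpa [Mov.Dw] using h0
  · rw [List.concat_eq_append, Mov.Dw_snoc, List.length_append, List.length_singleton]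
    exact ((h a).bdw l).mono (by push_cast; omega)

theorem Sy.Dw (hf : G.Sy k f) (l : List (Fin 3)) : G.Sy (k - l.length) (G.S.Dw l f) := by
  induction l with
  | nil => simpa [Mov.Dw] using hf
  | cons a l ih =>
    have := ih.D a
    rw [List.length_cons, show k - ((l.length + 1 : ℕ) : ℤ) = k - l.length - 1 by push_cast; ring]
    exact this

theorem Sy.mono (hf : G.Sy k f) (h : k ≤ k') : G.Sy k' f :=
  sy_of fun l => (hf.bdw l).mono (by omega)

theorem Sy.cast (hf : G.Sy k f) (h : k = k') : G.Sy k' f := h ▸ hf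

theorem Sy.add (hf : G.Sy k f) (hg : G.Sy k g) : G.Sy k (f + g) :=
  sy_of fun l => by rw [G.hyp.Dw_add]; exact (hf.bdw l).add (hg.bdw l)

theorem sy_zero : G.Sy k 0 := sy_of fun l => by
  rw [G.hyp.Dw_zero]; exact ⟨0, le_rfl, fun p => by simp⟩

theorem sy_const (c : ℝ) : G.Sy 0 (algebraMap ℝ G.R c) :=
  sy_of_D ⟨|c|, abs_nonneg _, fun p => by simp [Algebra.algebraMap_eq_smul_one]⟩
    fun a => by rw [G.hyp.const]; exact sy_zero

theorem sy_one : G.Sy 0 1 := by simpa using sy_const (G := G) 1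

theorem Sy.mul (hf : G.Sy k f) (hg : G.Sy k' g) : G.Sy (k + k') (f * g) := by
  refine sy_of fun l => ?_
  induction l using List.reverseRecOn generalizing k k' f g with
  | nil => simpa [Mov.Dw] using hf.bd.mul hg.bd
  | append_singleton l a ih =>
    rw [Mov.Dw_snoc, G.hyp.mul, G.hyp.Dw_add, List.length_append, List.length_singleton]
    exact ((ih hf (hg.D a)).mono (by push_cast; omega)).add
      ((ih (hf.D a) hg).mono (by push_cast; omega))

theorem Sy.neg (hf : G.Sy k f) : G.Sy k (-f) := by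
  have e : -f = algebraMap ℝ G.R (-1) * f := by rw [map_neg, map_one]; ring
  rw [e]
  exact ((sy_const (G := G) (-1)).mul hf).cast (zero_add k)

theorem Sy.sub (hf : G.Sy k f) (hg : G.Sy k g) : G.Sy k (f - g) := by
  rw [sub_eq_add_neg]; exact hf.add hg.neg

theorem sy_sum {κ : Type*} (s : Finset κ) {f : κ → G.R} (h : ∀ i ∈ s, G.Sy k (f i)) :
    G.Sy k (∑ i ∈ s, f i) :=
  Finset.sum_induction f (G.Sy k) (fun _ _ => Sy.add) sy_zero h

theorem sy_natCast (i : ℕ) : G.Sy 0 (i : G.R) := by simpa using sy_const (G := G) i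

theorem sy_two : G.Sy 0 (2 : G.R) := sy_natCast 2

theorem Sy.pow (hf : G.Sy k f) (i : ℕ) : G.Sy (i * k) (f ^ i) := by
  induction i with
  | zero => simpa using sy_one
  | succ i ih => rw [pow_succ]; exact (ih.mul hf).cast (by push_cast; ring)

variable (G)

theorem sy_ρ : G.Sy 1 G.ρ := G.symρ
theorem sy_ι : G.Sy (-1) G.ι := G.symι
theorem sy_n (a : Fin 3) : G.Sy 0 (G.S.n a) := G.symn a
theorem sy_B (a b : Fin 3) : G.Sy (-1) (G.S.B a b) := (G.sy_n b).D a
theorem sy_h : G.Sy (-1) G.S.h := sy_sum _ fun a _ => G.sy_B a a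
theorem sy_B2 (a b : Fin 3) : G.Sy (-2) (G.S.B2 a b) :=
  sy_sum _ fun c _ => (G.sy_B a c).mul (G.sy_B c b)
theorem sy_a2 : G.Sy (-2) G.S.a2 :=
  sy_sum _ fun a _ => sy_sum _ fun b _ => (G.sy_B a b).mul (G.sy_B a b)
theorem sy_P (a b : Fin 3) : G.Sy 0 (G.S.P a b) := by
  rw [G.hyp.Pn]
  refine Sy.sub ?_ ((G.sy_n a).mul (G.sy_n b))
  split_ifs
  exacts [sy_one, sy_zero]
theorem sy_ρ_pow (i : ℕ) : G.Sy i (G.ρ ^ i) := (G.sy_ρ.pow i).cast (by ring)
theorem sy_ζ : G.Sy 0 G.ζ :=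
  sy_of_D ⟨1, zero_le_one, fun p => by simpa using G.ζ_le p⟩ fun a => Sy.mono (G.symDζ a) (by omega)

/-! ### norms -/

variable [BorelSpace X] {G}

theorem aesm (f : G.R) (μ : Measure X) : AEStronglyMeasurable f.1 μ :=
  (cont f).measurable.aestronglyMeasurable

theorem nR_add (f g : G.R) : G.nR (f + g) ≤ G.nR f + G.nR g :=
  eLpNorm_add_le (aesm f _) (aesm g _) one_le_two

theorem nR_zero : G.nR 0 = 0 := eLpNorm_zero




theorem nR_le {C : ℝ≥0} (h : ∀ p, |f.1 p| ≤ C * |g.1 p|) : G.nR f ≤ C * G.nR g :=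
  eLpNorm_le_nnreal_smul_eLpNorm_of_ae_le_mul (ae_of_all _ fun p => by
    rw [← NNReal.coe_le_coe]; simpa using h p) 2

theorem sR_add (f g : G.R) : G.sR (f + g) ≤ G.sR f + G.sR g :=
  iSup_le fun p => (enorm_add_le _ _).trans
    (add_le_add (le_iSup (fun p => ‖f.1 p‖ₑ) p) (le_iSup (fun p => ‖g.1 p‖ₑ) p))



theorem sR_le {C : ℝ≥0} (h : ∀ p, |f.1 p| ≤ C * |g.1 p|) : G.sR f ≤ C * G.sR g :=
  iSup_le fun p => by
    refine le_trans ?_ (mul_le_mul_right (le_iSup (fun p => ‖g.1 p‖ₑ) p) _)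
    rw [enorm_eq_nnnorm, enorm_eq_nnnorm, ← ENNReal.coe_mul, ENNReal.coe_le_coe,
      ← NNReal.coe_le_coe]
    simpa using h p

theorem Bd.abs_mul (hf : G.Bd 0 f) : ∃ C : ℝ≥0, ∀ (g : G.R) p, |(f * g).1 p| ≤ C * |g.1 p| := by
  obtain ⟨C, h0, h⟩ := hf
  refine ⟨⟨C, h0⟩, fun g p => (_root_.abs_mul _ _).trans_le ?_⟩
  exact mul_le_mul_of_nonneg_right ((h p).trans_eq (by rw [zpow_zero, mul_one]; rfl)) (abs_nonneg _)

theorem Bd.nR_mul (hf : G.Bd 0 f) : ∃ C : ℝ≥0, ∀ g, G.nR (f * g) ≤ C * G.nR g :=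
  hf.abs_mul.imp fun _ h g => nR_le (h g)

theorem Bd.sR_mul (hf : G.Bd 0 f) : ∃ C : ℝ≥0, ∀ g, G.sR (f * g) ≤ C * G.sR g :=
  hf.abs_mul.imp fun _ h g => sR_le (h g)

end Geo

end WS

theorem le_sumW' {ι : Type} [Fintype ι] (F : List ι → ℝ≥0∞) (w : List ι) :
    F w ≤ sumW w.length F := by
  induction w generalizing F with
  | nil => exact le_rfl
  | cons a w ih =>
    exact (ih fun w => F (a :: w)).trans
      (Finset.single_le_sum (f := fun a => sumW w.length fun w => F (a :: w))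
        (fun _ _ => zero_le) (Finset.mem_univ a))

theorem sumW_le' {ι : Type} [Fintype ι] (k : ℕ) {F G : List ι → ℝ≥0∞}
    (h : ∀ w, w.length = k → F w ≤ G w) : sumW k F ≤ sumW k G := by
  induction k generalizing F G with
  | zero => exact h [] rfl
  | succ k ih =>
    exact Finset.sum_le_sum fun a _ => ih fun w hw => h _ (by rw [List.length_cons, hw])

/-- uniform constants over the words of a given length -/
theorem sumW_bound {ι α : Type} [Fintype ι] (k : ℕ) {F : List ι → α → ℝ≥0∞} {B : α → ℝ≥0∞}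
    (h : ∀ w, w.length = k → ∃ C : ℝ≥0, ∀ u, F w u ≤ C * B u) :
    ∃ C : ℝ≥0, ∀ u, sumW k (fun w => F w u) ≤ C * B u := by
  induction k generalizing F with
  | zero => exact h [] rfl
  | succ k ih =>
    choose C hC using fun a => ih (F := fun w => F (a :: w))
      fun w hw => h _ (by rw [List.length_cons, hw])
    refine ⟨∑ a, C a, fun u => ?_⟩
    rw [ENNReal.ofNNReal_finsetSum, Finset.sum_mul]
    exact Finset.sum_le_sum fun a _ => hC a u

/-- words read from the other end -/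
theorem sumW_snoc {ι M : Type} [Fintype ι] [AddCommMonoid M] (k : ℕ) (F : List ι → M) :
    sumW (k + 1) F = sumW k fun w => ∑ a, F (w ++ [a]) := by
  induction k generalizing F with
  | zero => rfl
  | succ k ih => exact Finset.sum_congr rfl fun a _ => ih fun w => F (a :: w)

end Crest.Agent.N250

end
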