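import Crest.Agent.N250.Wt.Sup3
import Crest.Agent.N250.Wt.Base
import Crest.Agent.N250.Wt.Cx
import Crest.Agent.N250.Wt.Defs
import Crest.Agent.N250.FV.Hu2
import Crest.Agent.N250.G.Ev2
import Crest.Agent.N250.Wt.Cut

-- ▼ part N250/Wt/Sup
section

/-!
# Row 250 (helper84): the sup bounds `SupS`
-/

set_option autoImplicit false
open MeasureTheory Set Filter Topology
open scoped ContDiff ENNReal NNReal

noncomputable section

namespace Crest.Agent.N250.WS.Geo

open Crest.Agent.N222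

variable {X : Type} [TopologicalSpace X] [MeasurableSpace X] (G : Geo X)

namespace SupP

/-- `ρ^(j-1) D^l u` -/
def W (l : List (Fin 3)) (u : G.R) : G.R := G.ρ ^ l.length * G.ι * G.S.Dw l u

/-- the right hand side -/
def N (k : ℕ) (u : G.R) : ℝ≥0∞ := ∑ j ∈ Finset.range k, (G.U j u + G.T j u)

/-- growth at most `r` on the balls of radius `2 r` -/
def Good (k : ℕ) (F : G.R → G.R) : Prop := ∃ C : ℝ≥0, ∀ u r, 1 ≤ r →
  G.nS {p | G.S.x2.1 p ≤ 4 * r ^ 2} (F u) ≤ C * ENNReal.ofReal r * N G k u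

/-- supported in the zone -/
def Zo (c : G.R) : Prop := ∀ p, c.1 p ≠ 0 → p ∈ tsupport G.ζ.1

theorem D_e (j : ℕ) (a : Fin 3) : G.ρ * G.S.D a (G.ρ ^ j * G.ι) =
    ((j : G.R) - 1) * G.S.D a G.ρ * (G.ρ ^ j * G.ι) := by
  have e := G.ρι
  induction j with
  | zero =>
    have h := G.hyp.mul a G.ρ G.ι
    rw [e, G.hyp.toIsDS.D_one] at h
    rw [pow_zero, one_mul]
    push_cast
    linear_combination -h
  | succ j ih =>
    rw [pow_succ', mul_assoc, G.hyp.mul]
    push_cast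
    linear_combination G.ρ * ih

theorem dW (l : List (Fin 3)) (u : G.R) (a : Fin 3) : G.ρ * G.S.D a (W G l u) =
    W G (a :: l) u + ((l.length : G.R) - 1) * G.S.D a G.ρ * W G l u := by
  have := D_e G l.length a
  simp only [W, G.hyp.mul _ (G.ρ ^ l.length * G.ι), List.length_cons, Mov.Dw]
  linear_combination G.S.Dw l u * this

theorem drW (l : List (Fin 3)) (u : G.R) : G.ρ ^ 2 * G.S.dr (W G l u) =
    G.ρ ^ (l.length + 1) * G.S.Pi l.length (G.S.Dw l u) +
      ((l.length : G.R) - 1) * (G.ρ * (G.S.dr G.ρ - G.ρ)) * W G l u := by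
  have a := D_e G l.length 0
  have b := D_e G l.length 1
  have c := D_e G l.length 2
  have e := G.ρι
  simp only [W, Mov.Pi, Mov.dr, G.hyp.mul _ (G.ρ ^ l.length * G.ι), Fin.sum_univ_three]
  linear_combination G.ρ * G.S.Dw l u * (G.S.x 0 * a + G.S.x 1 * b + G.S.x 2 * c) +
    G.ρ ^ (l.length + 1) * (G.S.x 0 * G.S.D 0 (G.S.Dw l u) + G.S.x 1 * G.S.D 1 (G.S.Dw l u) +
      G.S.x 2 * G.S.D 2 (G.S.Dw l u) + ((l.length : G.R) - 1) * G.S.Dw l u) * e

variable {G} {k : ℕ} {l : List (Fin 3)} {F F' : G.R → G.R} {c s : G.R}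

theorem W_le (h : l.length < k) (u : G.R) : G.nR (W G l u) ≤ N G k u :=
  ((le_sumW' (fun w => G.nR (G.ρ ^ l.length * G.ι * G.S.Dw w u)) l).trans le_self_add).trans
    (Finset.single_le_sum (f := fun j => G.U j u + G.T j u) (fun _ _ => zero_le)
      (Finset.mem_range.2 h))

theorem T_le (h : l.length < k) (u : G.R) :
    G.nR (G.ρ ^ (l.length + 1) * G.S.Pi l.length (G.S.Dw l u)) ≤ N G k u :=
  ((le_sumW' (fun w => G.nR (G.ρ ^ (l.length + 1) * G.S.Pi l.length (G.S.Dw w u))) l).trans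
    le_add_self).trans (Finset.single_le_sum (f := fun j => G.U j u + G.T j u) (fun _ _ => zero_le)
      (Finset.mem_range.2 h))

theorem zo_D (h : tsupport s.1 ⊆ tsupport G.ζ.1) (a : Fin 3) : Zo G (G.S.D a s) := fun _ hp =>
  h (by_contra fun h' => hp (Imm.D_eq_zero_of_notMem h' a))

theorem Zo.mul (h : Zo G c) (f : G.R) : Zo G (f * c) := fun p hp =>
  h p fun h' => hp (mul_eq_zero_of_right _ h')

theorem bd_x {m : ℤ} (hc : G.Bd m c) (hz : Zo G c) (a : Fin 3) : G.Bd (1 + m) (G.S.x a * c) := by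
  obtain ⟨Z, hZ⟩ := G.zone
  obtain ⟨C, C0, hC⟩ := hc
  refine ⟨√Z * C, by positivity, fun p => ?_⟩
  have ρ0 := G.ρ_pos p
  show |(G.S.x a).1 p * c.1 p| ≤ _
  rcases eq_or_ne (c.1 p) 0 with h | h
  · rw [h, mul_zero, abs_zero]; positivity
  have h1 := (hZ p (hz p h)).1
  have h2 : (G.S.x a).1 p * (G.S.x a).1 p ≤ G.S.x2.1 p := by
    rw [x2_pt]
    exact Finset.single_le_sum (f := fun a => (G.S.x a).1 p * (G.S.x a).1 p)
      (fun _ _ => mul_self_nonneg _) (Finset.mem_univ a)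
  have h3 : |(G.S.x a).1 p| ≤ √Z * G.ρ.1 p := by
    refine abs_le_of_sq_le_sq ?_ (by positivity)
    have : Z * G.ρ.1 p ^ 2 ≤ √Z ^ 2 * G.ρ.1 p ^ 2 :=
      mul_le_mul_of_nonneg_right (Real.sq_sqrt' ▸ le_max_left _ _) (sq_nonneg _)
    have h4 : 1 + G.S.x2.1 p ≤ Z * G.ρ.1 p ^ 2 := h1
    nlinarith
  rw [abs_mul, zpow_add₀ ρ0.ne', zpow_one]
  calc _ ≤ √Z * G.ρ.1 p * (C * G.ρ.1 p ^ m) := mul_le_mul h3 (hC p) (abs_nonneg _) (by positivity)
    _ = _ := by ring

variable [BorelSpace X]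

theorem Good.add (h : Good G k F) (h' : Good G k F') : Good G k fun u => F u + F' u := by
  obtain ⟨C, h⟩ := h
  obtain ⟨C', h'⟩ := h'
  refine ⟨C + C', fun u r hr => (nS_add _ _ _).trans ((add_le_add (h u r hr) (h' u r hr)).trans_eq ?_)⟩
  rw [ENNReal.coe_add]; ring

theorem Good.mul (hc : G.Bd 0 c) (h : Good G k F) : Good G k fun u => c * F u := by
  obtain ⟨C, h⟩ := h
  obtain ⟨C', h'⟩ := hc.abs_mul
  refine ⟨C' * C, fun u r hr => (nS_le (isClosed_le (cont _) continuous_const).measurableSet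
    subset_rfl fun p _ => h' (F u) p).trans ((mul_le_mul_right (h u r hr) _).trans_eq ?_)⟩
  rw [ENNReal.coe_mul, ENNReal.ofReal_coe_nnreal]; ring

theorem good_z (hc : G.Bd (-2) c) (hz : Zo G c) (h : l.length < k) :
    Good G k fun u => c * W G l u := by
  obtain ⟨Z, hZ⟩ := G.zone
  obtain ⟨C, C0, hC⟩ := hc
  refine ⟨(C * √Z).toNNReal, fun u r hr => (nS_le_nR (g := W G l u) (c := C * √Z) _
    (by positivity) fun p => ?_).trans ?_⟩
  · have m0 := (G.m_pos p).le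
    show (c.1 p * (W G l u).1 p) ^ 2 ≤ _
    rcases eq_or_ne (c.1 p) 0 with h0 | h0
    · rw [h0, zero_mul, sq, zero_mul]; positivity
    have h1 := (hZ p (hz p h0)).2
    have h2 : c.1 p ^ 2 ≤ C ^ 2 * G.ι.1 p ^ 4 := by
      rw [← sq_abs]
      refine (pow_le_pow_left₀ (abs_nonneg _) (hC p) 2).trans_eq ?_
      rw [ι_eq, zpow_neg, zpow_ofNat]; ring
    have h3 : Z * G.m.1 p ≤ √Z ^ 2 * G.m.1 p :=
      mul_le_mul_of_nonneg_right (Real.sq_sqrt' ▸ le_max_left _ _) m0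
    calc _ = c.1 p ^ 2 * (W G l u).1 p ^ 2 := mul_pow _ _ _
      _ ≤ C ^ 2 * (√Z ^ 2 * G.m.1 p) * (W G l u).1 p ^ 2 := by
          gcongr; exact h2.trans (mul_le_mul_of_nonneg_left (h1.trans h3) (sq_nonneg _))
      _ = _ := by ring
  · refine mul_le_mul' ?_ (W_le h u)
    exact le_mul_of_one_le_right' (ENNReal.one_le_ofReal.2 hr)

variable [T2Space X] [SecondCountableTopology X] (hs : G.Sy 0 s) (hD : ∀ a, G.Sy (-3) (G.S.D a s))
  (hz : tsupport s.1 ⊆ tsupport G.ζ.1)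
include hs hD hz

theorem good_s (h : l.length < k) : Good G k fun u => s * W G l u := by
  obtain ⟨C, hC⟩ := G.rad_le
  obtain ⟨C₁, h₁⟩ := hs.bd.nR_mul
  have b1 : G.Bd (-1) (G.S.dr G.ρ - G.ρ) := by
    obtain ⟨C, hC⟩ := G.drρ
    exact bd_of ⟨C, fun p => by rw [zpow_neg_one, ← ι_eq]; exact hC p⟩
  have b2 : ∀ a, G.Bd (-2) (G.S.x a * G.S.D a s) := fun a => bd_x (hD a).bd (zo_D hz a) a
  have b3 : G.Bd 0 (G.ρ ^ 2 * G.S.dr s + s * (((l.length : G.R) - 1) *
      (G.ρ * (G.S.dr G.ρ - G.ρ)))) := by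
    refine Bd.add ?_ (hs.bd.mul (((sy_natCast _).sub sy_one).bd.mul (G.sy_ρ.bd.mul b1)))
    rw [Mov.dr, Fin.sum_univ_three]
    exact (G.sy_ρ_pow 2).bd.mul (((b2 0).add (b2 1)).add (b2 2))
  obtain ⟨C₂, h₂⟩ := b3.nR_mul
  refine ⟨C * (C₁ + C₁ + C₂), fun u r hr => (hC _ r hr fun p hp =>
    hz (subset_tsupport _ fun h0 => hp (mul_eq_zero_of_left h0 _))).trans ?_⟩
  have e : G.ρ ^ 2 * G.S.dr (s * W G l u) =
      s * (G.ρ ^ (l.length + 1) * G.S.Pi l.length (G.S.Dw l u)) + (G.ρ ^ 2 * G.S.dr s +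
        s * (((l.length : G.R) - 1) * (G.ρ * (G.S.dr G.ρ - G.ρ)))) * W G l u := by
    have := drW G l u
    simp only [Mov.dr, G.hyp.mul _ s, Fin.sum_univ_three] at this ⊢
    linear_combination s * this
  rw [e]
  calc _ ≤ C * ENNReal.ofReal r * (C₁ * N G k u + (C₁ * N G k u + C₂ * N G k u)) := by
        gcongr
        · exact (h₁ _).trans (mul_le_mul_right (W_le h u) _)
        · exact (nR_add _ _).trans (add_le_add ((h₁ _).trans (mul_le_mul_right (T_le h u) _))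
            ((h₂ _).trans (mul_le_mul_right (W_le h u) _)))
    _ = _ := by push_cast; ring

omit hs hD hz [BorelSpace X] [T2Space X] [SecondCountableTopology X] in
theorem d_sW (s : G.R) (l : List (Fin 3)) (a : Fin 3) (u : G.R) : G.ρ * G.S.D a (s * W G l u) =
    s * W G (a :: l) u + ((l.length : G.R) - 1) * G.S.D a G.ρ * (s * W G l u) +
      G.ρ * G.S.D a s * W G l u := by
  rw [G.hyp.mul]
  linear_combination s * dW G l u a

omit hs hD hz [BorelSpace X] [T2Space X] [SecondCountableTopology X] in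
theorem sy_J (l : List (Fin 3)) (a : Fin 3) : G.Sy 0 (((l.length : G.R) - 1) * G.S.D a G.ρ) :=
  ((sy_natCast _).sub sy_one).mul (G.sy_ρ.D a)

theorem good_d (a : Fin 3) (h : l.length + 1 < k) :
    Good G k fun u => G.ρ * G.S.D a (s * W G l u) := by
  simp only [d_sW]
  exact ((good_s hs hD hz (l := a :: l) h).add ((good_s hs hD hz (by omega)).mul (sy_J l a).bd)).add
    (good_z (G.sy_ρ.mul (hD a)).bd ((zo_D hz a).mul _) (by omega))

theorem good_dd (a : Fin 3) (h : l.length + 2 < k) :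
    Good G k fun u => G.ρ ^ 2 * G.S.D a (G.S.D a (s * W G l u)) := by
  have e : ∀ u, G.ρ ^ 2 * G.S.D a (G.S.D a (s * W G l u)) =
      G.ρ * G.S.D a (s * W G (a :: l) u) +
      G.ρ * G.S.D a (((l.length : G.R) - 1) * G.S.D a G.ρ) * (s * W G l u) +
      (((l.length : G.R) - 1) * G.S.D a G.ρ - G.S.D a G.ρ) * (G.ρ * G.S.D a (s * W G l u)) +
      (G.ρ * G.S.D a G.ρ * G.S.D a s + G.ρ ^ 2 * G.S.D a (G.S.D a s) +
        ((l.length : G.R) - 1) * G.S.D a G.ρ * G.ρ * G.S.D a s) * W G l u +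
      G.ρ * G.S.D a s * W G (a :: l) u := fun u => by
    have h1 := congrArg (G.S.D a) (d_sW s l a u)
    have h2 := dW G l u a
    rw [G.hyp.mul, G.hyp.add, G.hyp.add, G.hyp.mul _ _ (s * W G l u),
      G.hyp.mul _ (G.ρ * G.S.D a s), G.hyp.mul _ G.ρ] at h1
    linear_combination G.ρ * h1 + G.ρ * G.S.D a s * h2
  simp only [e]
  have z2 : Zo G (G.S.D a (G.S.D a s)) := zo_D ((Imm.tsupport_D_subset _ a).trans hz) a
  refine ((((good_d hs hD hz (l := a :: l) a h).add ((good_s hs hD hz (by omega)).mul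
    (G.sy_ρ.mul ((sy_J l a).D a)).bd)).add ((good_d hs hD hz a (by omega)).mul
      ((sy_J l a).sub (G.sy_ρ.D a)).bd)).add (good_z ?_ ?_ (by omega))).add
    (good_z (l := a :: l) (G.sy_ρ.mul (hD a)).bd ((zo_D hz a).mul _) (by simp; omega))
  · exact ((((G.sy_ρ.mul (G.sy_ρ.D a)).mul (hD a)).add ((G.sy_ρ_pow 2).mul ((hD a).D a))).add
      (((sy_J l a).mul G.sy_ρ).mul (hD a))).bd
  · intro p hp
    by_contra h0
    have a1 : (G.S.D a s).1 p = 0 := by_contra fun h => h0 (zo_D hz a p h)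
    have a2 : (G.S.D a (G.S.D a s)).1 p = 0 := by_contra fun h => h0 (z2 p h)
    refine hp ?_
    rw [← ev_apply] at a1 a2 ⊢
    simp only [map_add, map_mul, a1, a2, mul_zero, add_zero]

end SupP

open SupP in
/-- **the sup bounds** -/
theorem supS [BorelSpace X] [T2Space X] [SecondCountableTopology X] : G.SupS := by
  intro s hs hD hz l
  obtain ⟨Z, hZ⟩ := G.zone
  obtain ⟨Ch, Ch0, hh⟩ := G.sy_h.bd
  obtain ⟨z, hz'⟩ : ∃ z : ℝ≥0, Z ≤ (z : ℝ) ^ 2 :=
    ⟨⟨√Z, Real.sqrt_nonneg _⟩, Real.sq_sqrt' ▸ le_max_left _ _⟩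
  obtain ⟨C, hC⟩ := G.heat_loc (Ch ^ 2 * z ^ 2)
  obtain ⟨C₀, h₀⟩ := good_s hs hD hz (l := l) (k := l.length + 3) (by omega)
  choose C₁ h₁ using fun a => good_d hs hD hz (l := l) (k := l.length + 3) a (by omega)
  choose C₂ h₂ using fun a => good_dd hs hD hz (l := l) (k := l.length + 3) a (by omega)
  refine ⟨C * (2 * C₀ + ∑ a, 2 * z * C₁ a + ∑ a, 2 * z ^ 2 * C₂ a), fun u => iSup_le fun p₀ => ?_⟩
  have ev : s * G.ρ ^ l.length * G.ι * G.S.Dw l u = s * W G l u := by rw [W]; ring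
  rw [ev]
  show _ ≤ _ * N G (l.length + 3) u
  have t0 := G.x2_nonneg p₀
  obtain ⟨r, r0, hr⟩ : ∃ r : ℝ, 0 < r ∧ (2 * r) ^ 2 = 1 + G.S.x2.1 p₀ :=
    ⟨√(1 + G.S.x2.1 p₀) / 2, by positivity, by
      rw [mul_div_cancel₀ _ two_ne_zero, Real.sq_sqrt (by positivity)]⟩
  have r1 : 1 ≤ 2 * r := by nlinarith
  set v := s * W G l u with hv
  set B := {p | (G.uu (G.M.x p₀)).1 p ≤ r ^ 2} with hB
  have mB : MeasurableSet B := (G.cpt_uu _ _).measurableSet
  have geo : ∀ p ∈ B, G.S.x2.1 p ≤ 4 * (2 * r) ^ 2 ∧ r ^ 2 ≤ 1 + G.S.x2.1 p := fun p hp => by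
    have a : ‖G.M.x p - G.M.x p₀‖ ^ 2 ≤ r ^ 2 := hp
    have b := norm_sub_norm_le (G.M.x p) (G.M.x p₀)
    have c := norm_sub_norm_le (G.M.x p₀) (G.M.x p)
    rw [norm_sub_rev] at c
    rw [x2_normH] at hr ⊢
    have n1 := norm_nonneg (G.M.x p)
    have n2 := norm_nonneg (G.M.x p₀)
    have n3 := norm_nonneg (G.M.x p - G.M.x p₀)
    generalize ‖G.M.x p - G.M.x p₀‖ = d, ‖G.M.x p‖ = x, ‖G.M.x p₀‖ = y at *
    constructor
    · nlinarith [mul_self_le_mul_self n1 (show x ≤ y + d by linarith), sq_nonneg (y - d)]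
    · nlinarith [mul_self_le_mul_self n2 (show y ≤ x + d by linarith), sq_nonneg (x - d)]
  have sub : B ⊆ {p | G.S.x2.1 p ≤ 4 * (2 * r) ^ 2} := fun p hp => (geo p hp).1
  have hι : ∀ p ∈ B, p ∈ tsupport G.ζ.1 → 1 ≤ z / r * G.ρ.1 p := fun p hp h => by
    have ρ0 := G.ρ_pos p
    rw [div_mul_eq_mul_div, one_le_div r0]
    refine abs_le_of_sq_le_sq' ?_ (by positivity) |>.2
    rw [mul_pow]
    exact ((geo p hp).2.trans (hZ p h).1).trans (mul_le_mul_of_nonneg_right hz' (sq_nonneg _))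
  have tv : tsupport v.1 ⊆ tsupport G.ζ.1 := (tsupport_mul_subset_left (f := s.1)).trans hz
  have key := hC v p₀ r r0 fun p hp h => by
    have a := hι p hp (tv (subset_tsupport _ h))
    have b := hh p
    have ρ0 := G.ρ_pos p
    rw [zpow_neg_one, ← div_eq_mul_inv, le_div_iff₀ ρ0] at b
    rw [div_mul_eq_mul_div, one_le_div r0] at a
    have c : |G.S.h.1 p| * r ≤ Ch * z :=
      calc _ ≤ |G.S.h.1 p| * (z * G.ρ.1 p) := by gcongr
        _ = |G.S.h.1 p| * G.ρ.1 p * z := by ring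
        _ ≤ _ := by gcongr
    rw [← sq_abs, ← mul_pow, ← mul_pow]
    gcongr
  have q : ∀ c : ℝ≥0, ENNReal.ofReal (c / r) * ENNReal.ofReal (2 * r) = 2 * c := fun c => by
    rw [← ENNReal.ofReal_mul (by positivity), show c / r * (2 * r) = ((2 * c : ℝ≥0) : ℝ) by
      push_cast; field_simp, ENNReal.ofReal_coe_nnreal]; rfl
  have b0 : ENNReal.ofReal r⁻¹ * G.nS B v ≤ 2 * C₀ * N G (l.length + 3) u := by
    have a : G.nS B v ≤ G.nS _ v := eLpNorm_mono_measure _ (Measure.restrict_mono sub le_rfl)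
    have b := q 1
    simp only [NNReal.coe_one, one_div, ENNReal.coe_one, mul_one] at b
    refine (mul_le_mul_right (a.trans (h₀ u _ r1)) _).trans_eq ?_
    rw [← b]; ring
  have b1 : ∀ a, G.nS B (G.S.D a v) ≤ 2 * z * C₁ a * N G (l.length + 3) u := fun a => by
    refine (nS_le (g := G.ρ * G.S.D a v) (c := z / r) mB sub fun p hp => ?_).trans
      ((mul_le_mul_right (h₁ a u _ r1) _).trans_eq (by rw [← q]; ring))
    rcases eq_or_ne ((G.S.D a v).1 p) 0 with h | h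
    · rw [h, abs_zero]; positivity
    rw [show (G.ρ * G.S.D a v).1 p = G.ρ.1 p * (G.S.D a v).1 p from rfl, abs_mul,
      abs_of_pos (G.ρ_pos p), ← mul_assoc]
    exact le_mul_of_one_le_left (abs_nonneg _) (hι p hp (zo_D tv a p h))
  have b2 : ∀ a, ENNReal.ofReal r * G.nS B (G.S.D a (G.S.D a v)) ≤
      2 * z ^ 2 * C₂ a * N G (l.length + 3) u := fun a => by
    have e : ENNReal.ofReal r * ENNReal.ofReal ((z / r) ^ 2) =
        ENNReal.ofReal (((z ^ 2 : ℝ≥0) : ℝ) / r) := by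
      rw [← ENNReal.ofReal_mul r0.le]; congr 1; push_cast; field_simp
    refine (mul_le_mul_right ((nS_le (g := G.ρ ^ 2 * G.S.D a (G.S.D a v)) (c := (z / r) ^ 2) mB sub
      fun p hp => ?_).trans (mul_le_mul_right (h₂ a u _ r1) _)) _).trans_eq ?_
    · rcases eq_or_ne ((G.S.D a (G.S.D a v)).1 p) 0 with h | h
      · rw [h, abs_zero]; positivity
      rw [show (G.ρ ^ 2 * G.S.D a (G.S.D a v)).1 p = G.ρ.1 p ^ 2 * (G.S.D a (G.S.D a v)).1 p from rfl,
        abs_mul, abs_of_nonneg (sq_nonneg (G.ρ.1 p)), ← mul_assoc, ← mul_pow]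
      exact le_mul_of_one_le_left (abs_nonneg _) (one_le_pow₀
        (hι p hp (zo_D ((Imm.tsupport_D_subset _ a).trans tv) a p h)))
    · rw [← mul_assoc, e, ← ENNReal.coe_pow, ← q]; ring
  refine key.trans ?_
  rw [ENNReal.coe_mul, mul_assoc, Finset.mul_sum]
  refine mul_le_mul_right ((add_le_add (add_le_add b0 (Finset.sum_le_sum fun a _ => b1 a))
    (Finset.sum_le_sum fun a _ => b2 a)).trans_eq ?_) _
  push_cast
  simp only [add_mul, Finset.sum_mul]

end Crest.Agent.N250.WS.Geo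

end
end

-- ▼ part N250/Wt/Main0
section

/-!
# Row 250, weighted theory (helper44): the main estimate for real functions
-/

set_option autoImplicit false
set_option linter.unusedSectionVars false
open MeasureTheory Set Filter Topology
open scoped ContDiff ENNReal NNReal

noncomputable section

namespace Crest.Agent.N250

open Crest.Agent.N222

namespace WS

namespace Geo

variable {X : Type} [TopologicalSpace X] [MeasurableSpace X] [BorelSpace X] {G : Geo X}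

/-- `A ≤ C B` uniformly -/
def MLt {α : Type} (A B : α → ℝ≥0∞) : Prop := ∃ C : ℝ≥0, ∀ u, A u ≤ C * B u

section MLt

variable {α : Type} {A A' B B' : α → ℝ≥0∞}

theorem MLt.of_le (h : ∀ u, A u ≤ B u) : MLt A B := ⟨1, fun u => by simpa using h u⟩

theorem MLt.trans {D : α → ℝ≥0∞} (h : MLt A B) (h' : MLt B D) : MLt A D := by
  obtain ⟨C, h⟩ := h
  obtain ⟨C', h'⟩ := h'
  refine ⟨C * C', fun u => (h u).trans ?_⟩
  rw [ENNReal.coe_mul, mul_assoc]
  exact mul_le_mul_right (h' u) _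

theorem MLt.add (h : MLt A B) (h' : MLt A' B) : MLt (fun u => A u + A' u) B := by
  obtain ⟨C, h⟩ := h
  obtain ⟨C', h'⟩ := h'
  refine ⟨C + C', fun u => ?_⟩
  rw [ENNReal.coe_add, add_mul]
  exact add_le_add (h u) (h' u)

theorem MLt.left (h : MLt A B) (h' : ∀ u, A' u ≤ A u) : MLt A' B := (MLt.of_le h').trans h

theorem MLt.right (h : MLt A B) (h' : ∀ u, B u ≤ B' u) : MLt A B' := h.trans (MLt.of_le h')

theorem MLt.cmul (h : MLt A B) (c : ℝ≥0) : MLt (fun u => c * A u) B :=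
  MLt.trans ⟨c, fun _ => le_rfl⟩ h

theorem MLt.sum {κ : Type} (s : Finset κ) {A : κ → α → ℝ≥0∞} (h : ∀ i ∈ s, MLt (A i) B) :
    MLt (fun u => ∑ i ∈ s, A i u) B := by
  classical
  induction s using Finset.induction_on with
  | empty => exact MLt.of_le fun u => by simp
  | insert a s ha ih =>
    simp only [Finset.sum_insert ha]
    exact (h a (Finset.mem_insert_self _ _)).add
      (ih fun i hi => h i (Finset.mem_insert_of_mem hi))

end MLt

theorem mn_ι_pow (i : ℕ) : G.ι ^ i * G.ρ ^ i = 1 := by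
  rw [← mul_pow, mul_comm, G.ρι, one_pow]

theorem mn_norm {τ σ : G.R} {n m : ℤ} (hτ : G.Bd n τ) (hσ : G.Sy m σ) (j : ℕ)
    (h : n + m = j - 1) : G.Bd 0 (τ * σ * G.ι ^ j * G.ρ) :=
  (((hτ.mul hσ.bd).mul (G.sy_ι.pow j).bd).mul G.sy_ρ.bd).mono (by omega)

theorem mn_eq (τ σ s f : G.R) (j : ℕ) :
    τ * (s * σ * f) = τ * σ * G.ι ^ j * G.ρ * (s * G.ρ ^ j * G.ι * f) := by
  have h1 := mn_ι_pow (G := G) j
  have h2 := G.ρι
  linear_combination (-(τ * s * σ * f)) * h1 - τ * s * σ * f * (G.ι ^ j * G.ρ ^ j) * h2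

theorem mn_base {τ σ : G.R} {n m : ℤ} (hτ : G.Bd n τ) (hσ : G.Sy m σ) (w : List (Fin 3))
    (h : n + m = w.length - 1) :
    MLt (fun u => G.nR (τ * (σ * G.S.Dw w u))) (G.U w.length) := by
  obtain ⟨C, hC⟩ := (mn_norm hτ hσ w.length h).nR_mul
  refine ⟨C, fun u => ?_⟩
  have e := mn_eq τ σ 1 (G.S.Dw w u) w.length
  rw [one_mul, one_mul] at e
  beta_reduce
  rw [e]
  exact (hC _).trans (mul_le_mul_right
    (le_sumW' (fun l => G.nR (G.ρ ^ w.length * G.ι * G.S.Dw l u)) w) _)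

/-- partial sums of the `U j` -/
def mSU (G : Geo X) (k : ℕ) (u : G.R) : ℝ≥0∞ := ∑ j ∈ Finset.range k, G.U j u

theorem mSU_mono {k k' : ℕ} (h : k ≤ k') (u : G.R) : G.mSU k u ≤ G.mSU k' u :=
  Finset.sum_le_sum_of_subset (Finset.range_mono h)

theorem U_le_mSU {j k : ℕ} (h : j < k) (u : G.R) : G.U j u ≤ G.mSU k u :=
  Finset.single_le_sum (f := fun j => G.U j u) (fun _ _ => zero_le) (Finset.mem_range.2 h)

/-- commutator of a word of derivatives and a symbol -/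
theorem mn_comm (l : List (Fin 3)) : ∀ {τ σ : G.R} {n m : ℤ} (w : List (Fin 3)), G.Bd n τ →
    G.Sy m σ → n + m = l.length + w.length - 1 →
    MLt (fun u => G.nR (τ * (G.S.Dw l (σ * G.S.Dw w u) - σ * G.S.Dw (l ++ w) u)))
      (G.mSU (l.length + w.length)) := by
  induction l using List.reverseRecOn with
  | nil =>
    intro τ σ n m w _ _ _
    exact MLt.of_le fun u => by simp [Mov.Dw, nR_zero]
  | append_singleton l a ih =>
    intro τ σ n m w hτ hσ h
    rw [List.length_append, List.length_singleton] at h ⊢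
    have h1 := ih w hτ (hσ.D a) (by push_cast at h; omega)
    have h2 := ih (a :: w) hτ hσ (by rw [List.length_cons]; push_cast at h ⊢; omega)
    have h3 := mn_base hτ (hσ.D a) (l ++ w) (by rw [List.length_append]; push_cast at h ⊢; omega)
    refine (((h1.right (mSU_mono (by omega))).add
      (h2.right (mSU_mono (by rw [List.length_cons]; omega)))).add
      (h3.right (U_le_mSU (by rw [List.length_append]; omega)))).left fun u => ?_
    refine le_trans (le_of_eq ?_) ((nR_add _ _).trans (add_le_add (nR_add _ _) le_rfl))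
    congr 1
    rw [Mov.Dw_snoc, G.hyp.mul, G.hyp.Dw_add, List.append_assoc, List.singleton_append]
    simp only [Mov.Dw]
    ring

theorem mn_all (l w : List (Fin 3)) {τ σ : G.R} {n m : ℤ} (hτ : G.Bd n τ) (hσ : G.Sy m σ)
    (h : n + m = l.length + w.length - 1) :
    MLt (fun u => G.nR (τ * G.S.Dw l (σ * G.S.Dw w u))) (G.mSU (l.length + w.length + 1)) := by
  have h1 := mn_comm l w hτ hσ h
  have h3 := mn_base hτ hσ (l ++ w) (by rw [List.length_append]; push_cast; omega)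
  refine ((h1.right (mSU_mono (by omega))).add
    (h3.right (U_le_mSU (by rw [List.length_append]; omega)))).left fun u => ?_
  refine le_trans (le_of_eq ?_) (nR_add _ _)
  congr 1; ring

theorem mn_Ar (k : ℕ) (w : List (Fin 3)) {σ : G.R} (hσ : G.Sy (w.length - 1) σ) :
    MLt (fun u => G.Ar k (σ * G.S.Dw w u)) (G.mSU (k + w.length + 1)) :=
  sumW_bound k fun l hl => hl ▸ mn_all l w (G.sy_ρ_pow l.length).bd hσ (by ring)

/-- the top order terms -/
theorem mn_top (k : ℕ) : ∃ C : ℝ≥0, ∀ u,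
    ∑ a, ∑ b, G.Ar k (G.ζ * G.ρ * G.S.D a (G.S.D b u)) ≤ G.U (k + 2) u + C * G.mSU (k + 2) u := by
  have h1 : MLt (fun u => ∑ a, ∑ b, sumW k fun l => G.nR (G.ρ ^ k *
      (G.S.Dw l (G.ζ * G.ρ * G.S.Dw [a, b] u) - G.ζ * G.ρ * G.S.Dw (l ++ [a, b]) u)))
      (G.mSU (k + 2)) :=
    MLt.sum _ fun a _ => MLt.sum _ fun b _ => sumW_bound k fun l hl =>
      hl ▸ mn_comm l [a, b] (G.sy_ρ_pow l.length).bd (G.sy_ζ.mul G.sy_ρ) (by simp; ring)
  obtain ⟨C, hC⟩ := h1
  refine ⟨C, fun u => le_trans ?_ (add_le_add le_rfl (hC u))⟩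
  have e : G.U (k + 2) u = ∑ a, ∑ b, sumW k fun l =>
      G.nR (G.ρ ^ (k + 2) * G.ι * G.S.Dw (l ++ [a, b]) u) := by
    rw [U, sumW_snoc, sumW_snoc]
    simp only [sumW_sum, List.append_assoc, List.singleton_append]
  rw [e, ← Finset.sum_add_distrib]
  refine Finset.sum_le_sum fun a _ => ?_
  rw [← Finset.sum_add_distrib]
  refine Finset.sum_le_sum fun b _ => ?_
  rw [← sumW_add, Ar]
  refine sumW_le' k fun l _ => ?_
  have e2 : G.ρ ^ k * G.S.Dw l (G.ζ * G.ρ * G.S.D a (G.S.D b u)) =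
      G.ζ * (G.ρ ^ (k + 2) * G.ι * G.S.Dw (l ++ [a, b]) u) + G.ρ ^ k *
        (G.S.Dw l (G.ζ * G.ρ * G.S.Dw [a, b] u) - G.ζ * G.ρ * G.S.Dw (l ++ [a, b]) u) := by
    have h2 := G.ρι
    simp only [Mov.Dw]
    linear_combination (-(G.ζ * G.ρ ^ (k + 1) * G.S.Dw (l ++ [a, b]) u)) * h2
  rw [e2]
  refine (nR_add _ _).trans (add_le_add ?_ le_rfl)
  have := nR_le (C := 1) (f := G.ζ * (G.ρ ^ (k + 2) * G.ι * G.S.Dw (l ++ [a, b]) u))
    (g := G.ρ ^ (k + 2) * G.ι * G.S.Dw (l ++ [a, b]) u) fun p =>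
      (abs_mul _ _).trans_le (mul_le_mul_of_nonneg_right (G.ζ_le p) (abs_nonneg _))
  simpa using this

/-! ### sup norms -/

/-- admissible cut-offs -/
structure MZc (G : Geo X) (s : G.R) : Prop where
  sy : G.Sy 0 s
  sd : ∀ a, G.Sy (-3) (G.S.D a s)
  su : tsupport s.1 ⊆ tsupport G.ζ.1

theorem mzc_ζ : G.MZc G.ζ := ⟨G.sy_ζ, G.symDζ, subset_rfl⟩

theorem mn_supp_D (s : G.R) (a : Fin 3) : tsupport (G.ρ * G.S.D a s).1 ⊆ tsupport s.1 := by
  refine closure_minimal (fun p hp => ?_) (isClosed_tsupport _)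
  by_contra h
  refine hp ?_
  have h1 : s.1 =ᶠ[𝓝 p] fun _ => 0 := notMem_tsupport_iff_eventuallyEq.1 h
  have h2 : (G.S.D a s).1 p = 0 := by
    have := Imm.D_congr (M := G.M) h1 a
    exact this.trans (Imm.D_const _ _ _)
  change G.ρ.1 p * (G.S.D a s).1 p = 0
  rw [h2, mul_zero]

theorem MZc.D {s : G.R} (h : G.MZc s) (a : Fin 3) : G.MZc (G.ρ * G.S.D a s) :=
  ⟨(G.sy_ρ.mul (h.sd a)).mono (by omega),
    fun b => ((G.sy_ρ.mul (h.sd a)).D b).mono (by omega), (mn_supp_D s a).trans h.su⟩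

/-- partial sums of `U j + T j` -/
def mSV (G : Geo X) (k : ℕ) (u : G.R) : ℝ≥0∞ := ∑ j ∈ Finset.range k, (G.U j u + G.T j u)

theorem mSV_mono {k k' : ℕ} (h : k ≤ k') (u : G.R) : G.mSV k u ≤ G.mSV k' u :=
  Finset.sum_le_sum_of_subset (Finset.range_mono h)

theorem mn_sup (hS : G.SupS) (l : List (Fin 3)) : ∀ {τ σ s : G.R} {n m : ℤ} (w : List (Fin 3)),
    G.Bd n τ → G.Sy m σ → G.MZc s → n + m = l.length + w.length - 1 →
    MLt (fun u => G.sR (τ * G.S.Dw l (s * σ * G.S.Dw w u))) (G.mSV (l.length + w.length + 3)) := by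
  induction l using List.reverseRecOn with
  | nil =>
    intro τ σ s n m w hτ hσ hs h
    obtain ⟨C, hC⟩ := (mn_norm hτ hσ w.length (by simpa using h)).sR_mul
    refine MLt.trans ⟨C, fun u => ?_⟩
      (MLt.right (hS s hs.sy hs.sd hs.su w) fun u => le_of_eq (by simp [mSV]))
    simp only [Mov.Dw]
    rw [mn_eq τ σ s _ w.length]
    exact hC _
  | append_singleton l a ih =>
    intro τ σ s n m w hτ hσ hs h
    rw [List.length_append, List.length_singleton] at h ⊢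
    have h1 := ih w hτ (G.sy_ι.mul hσ) (hs.D a) (by push_cast at h; omega)
    have h2 := ih w hτ (hσ.D a) hs (by push_cast at h; omega)
    have h3 := ih (a :: w) hτ hσ hs (by rw [List.length_cons]; push_cast at h ⊢; omega)
    refine (((h1.right (mSV_mono (by omega))).add (h2.right (mSV_mono (by omega)))).add
      (h3.right (mSV_mono (by rw [List.length_cons]; omega)))).left fun u => ?_
    refine le_trans (le_of_eq ?_) ((sR_add _ _).trans (add_le_add (sR_add _ _) le_rfl))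
    congr 1
    rw [← mul_add, ← mul_add, ← G.hyp.Dw_add, ← G.hyp.Dw_add, Mov.Dw_snoc, G.hyp.mul, G.hyp.mul]
    congr 2
    have h2 := G.ρι
    simp only [Mov.Dw]
    linear_combination (-(G.S.D a s * σ * G.S.Dw w u)) * h2

theorem mn_Sr (hS : G.SupS) (k : ℕ) (w : List (Fin 3)) {σ : G.R} (hσ : G.Sy (w.length - 1) σ) :
    MLt (fun u => G.Sr k (G.ζ * σ * G.S.Dw w u)) (G.mSV (k + w.length + 3)) :=
  sumW_bound k fun l hl => hl ▸ mn_sup hS l w (G.sy_ρ_pow l.length).bd hσ mzc_ζ (by ring)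

/-! ### the levels -/

/-- the lower order terms -/
def Bk (G : Geo X) (k : ℕ) (u : G.R) : ℝ≥0∞ :=
  ∑ j ∈ Finset.range k, G.Ar j (G.ρ * G.S.LL u) + G.gR u

theorem Bk_mono {k k' : ℕ} (h : k ≤ k') (u : G.R) : G.Bk k u ≤ G.Bk k' u :=
  add_le_add (Finset.sum_le_sum_of_subset (Finset.range_mono h)) le_rfl

theorem lev_Bk (hL : G.LevS) {j k : ℕ} (h : j < k) :
    MLt (fun u => G.U (j + 2) u + G.T j u + G.U 1 u + G.U 0 u) (G.Bk k) := by
  obtain ⟨C₀, hL⟩ := hL
  obtain ⟨C, hC⟩ := hL j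
  refine MLt.left (MLt.add (MLt.cmul (MLt.of_le fun u => ?_) C₀)
    (MLt.cmul (MLt.of_le (Bk_mono h.le)) C)) hC
  exact le_add_right (Finset.single_le_sum (f := fun j => G.Ar j (G.ρ * G.S.LL u))
    (fun _ _ => zero_le) (Finset.mem_range.2 h))

theorem U_Bk (hL : G.LevS) {j k : ℕ} (hk : 0 < k) (h : j < k + 2) : MLt (G.U j) (G.Bk k) := by
  match j, h with
  | 0, _ => exact (lev_Bk hL hk).left fun u => le_add_self
  | 1, _ => exact (lev_Bk hL hk).left fun u => le_add_right le_add_self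
  | j + 2, h =>
    exact (lev_Bk hL (j := j) (by omega)).left fun u =>
      le_add_right (le_add_right le_self_add)

theorem mSU_Bk (hL : G.LevS) {k : ℕ} (hk : 0 < k) : MLt (G.mSU (k + 2)) (G.Bk k) :=
  MLt.sum _ fun _ hj => U_Bk hL hk (Finset.mem_range.1 hj)

theorem mSV_Bk (hL : G.LevS) (k : ℕ) : MLt (G.mSV k) (G.Bk k) :=
  MLt.sum _ fun j hj => (U_Bk hL (by have := Finset.mem_range.1 hj; omega)
    (by have := Finset.mem_range.1 hj; omega)).add
    ((lev_Bk hL (Finset.mem_range.1 hj)).left fun u => le_add_right (le_add_right le_add_self))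

/-- real jets -/
def jR (G : Geo X) (N : G.R → ℝ≥0∞) (u : G.R) : ℝ≥0∞ :=
  N (G.ζ * G.ι * u) + ∑ a, N (G.ζ * G.S.D a u) + ∑ a, ∑ b, N (G.ζ * G.ρ * G.S.D a (G.S.D b u))

theorem jR_Ar (k : ℕ) : ∃ C : ℝ≥0, ∀ u,
    G.jR (G.Ar k) u ≤ G.U (k + 2) u + C * G.mSU (k + 2) u := by
  obtain ⟨C, hC⟩ := mn_top (G := G) k
  have h0 := (mn_Ar k [] (σ := G.ζ * G.ι) ((G.sy_ζ.mul G.sy_ι).cast (by simp))).right
    (mSU_mono (k' := k + 2) (by simp))
  have h1 : MLt (fun u => ∑ a, G.Ar k (G.ζ * G.S.D a u)) (G.mSU (k + 2)) :=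
    MLt.sum _ fun a _ => mn_Ar k [a] (G.sy_ζ.cast (by simp))
  obtain ⟨C', hC'⟩ := h0.add h1
  refine ⟨C' + C, fun u => (add_le_add (hC' u) (hC u)).trans (le_of_eq ?_)⟩
  push_cast; ring

theorem jR_Sr (hS : G.SupS) (i : ℕ) : MLt (G.jR (G.Sr i)) (G.mSV (i + 5)) := by
  have h0 := (mn_Sr hS i [] (σ := G.ι) (G.sy_ι.cast (by simp))).right
    (mSV_mono (k' := i + 5) (by simp))
  have h1 : MLt (fun u => ∑ a, G.Sr i (G.ζ * G.S.D a u)) (G.mSV (i + 5)) :=
    MLt.sum _ fun a _ => ((mn_Sr hS i [a] (σ := 1) (sy_one.cast (by simp))).right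
      (mSV_mono (k' := i + 5) (by simp))).left fun u => le_of_eq (by rw [mul_one]; rfl)
  have h2 : MLt (fun u => ∑ a, ∑ b, G.Sr i (G.ζ * G.ρ * G.S.D a (G.S.D b u))) (G.mSV (i + 5)) :=
    MLt.sum _ fun a _ => MLt.sum _ fun b _ => mn_Sr hS i [a, b] (G.sy_ρ.cast (by simp))
  exact (h0.add h1).add h2

/-- the main estimate for real functions -/
theorem main_real (hL : G.LevS) (hS : G.SupS) : ∃ C₀ : ℝ≥0, ∀ k, ∃ C : ℝ≥0, ∀ u,
    G.jR (G.Ar k) u + (if 5 ≤ k then G.jR (G.Sr (k - 5)) u else 0) ≤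
      C₀ * G.Ar k (G.ρ * G.S.LL u) + C * G.Bk k u := by
  obtain ⟨C₀, hL'⟩ := id hL
  obtain ⟨A₀, hA₀⟩ := jR_Ar (G := G) 0
  refine ⟨(1 + A₀) * C₀, fun k => ?_⟩
  obtain ⟨C, hC⟩ := hL' k
  rcases Nat.eq_zero_or_pos k with rfl | hk
  · refine ⟨(1 + A₀) * C, fun u => ?_⟩
    rw [if_neg (by omega), add_zero]
    have h1 : G.mSU (0 + 2) u ≤ G.U (0 + 2) u + G.T 0 u + G.U 1 u + G.U 0 u := by
      simp only [mSU, zero_add, Finset.sum_range_succ, Finset.range_zero, Finset.sum_empty]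
      rw [add_comm (G.U 0 u), add_assoc _ (G.U 1 u)]
      exact le_add_self
    have h2 : G.U (0 + 2) u ≤ G.U (0 + 2) u + G.T 0 u + G.U 1 u + G.U 0 u :=
      le_add_right (le_add_right le_self_add)
    refine (hA₀ u).trans ((add_le_add (h2.trans (hC u))
      (mul_le_mul_right (h1.trans (hC u)) _)).trans (le_of_eq ?_))
    unfold Bk; push_cast; ring
  · obtain ⟨A, hA⟩ := jR_Ar (G := G) k
    have h3 : MLt (fun u => if 5 ≤ k then G.jR (G.Sr (k - 5)) u else 0) (G.Bk k) := by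
      split_ifs with h5
      · have := jR_Sr hS (k - 5)
        rw [Nat.sub_add_cancel h5] at this
        exact this.trans (mSV_Bk hL k)
      · exact MLt.of_le fun _ => zero_le
    obtain ⟨B, hB⟩ := ((mSU_Bk hL hk).cmul A).add h3
    refine ⟨C + B, fun u => ?_⟩
    have h2 : G.U (k + 2) u ≤ G.U (k + 2) u + G.T k u + G.U 1 u + G.U 0 u :=
      le_add_right (le_add_right le_self_add)
    refine (add_le_add (hA u) le_rfl).trans ?_
    rw [add_assoc]
    refine (add_le_add (h2.trans (hC u)) (hB u)).trans ?_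
    have h4 : (C₀ : ℝ≥0∞) ≤ ((1 + A₀) * C₀ : ℝ≥0) := by
      rw [ENNReal.coe_le_coe, add_mul, one_mul]; exact le_self_add
    rw [add_assoc]
    refine add_le_add (mul_le_mul_left h4 _) (le_of_eq ?_)
    unfold Bk; push_cast; ring

end Geo

end WS

end Crest.Agent.N250

end
end

-- ▼ part N250/Wt/Main
section

/-!
# Row 250, weighted theory (helper44): the main estimate
-/

set_option autoImplicit false
set_option linter.unusedSectionVars false
open MeasureTheory Set Filter Topology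
open scoped ContDiff ENNReal NNReal

noncomputable section

namespace Crest.Agent.N250

open Crest.Agent.N222

namespace WS

namespace Geo

variable {X : Type} [TopologicalSpace X] [MeasurableSpace X] [BorelSpace X] {G : Geo X}

theorem mn_lvA (j : ℕ) : G.Lv (G.Ar j) (G.Ac j) := by
  have := G.nm_n.lv (G.ρ ^ j) j
  rw [map_pow] at this
  exact this

theorem mn_lvS (j : ℕ) : G.Lv (G.Sr j) (G.Sc j) := by
  have := G.nm_sup.lv (G.ρ ^ j) j
  rw [map_pow] at this
  exact this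

theorem mn_jets_le {A' : G.R → ℝ≥0∞} {A : G.SmC → ℝ≥0∞} (h : G.Lv A' A) (u : G.SmC) :
    G.jets A u ≤ G.jR A' (G.re u) + G.jR A' (G.im u) := by
  unfold jets jR
  have h0 := h.le_re_im (G.oR (G.ζ * G.ι) * u)
  rw [re_oR_mul, im_oR_mul] at h0
  have h1 : ∑ a, A (G.oR G.ζ * G.SC.D a u) ≤
      ∑ a, A' (G.ζ * G.S.D a (G.re u)) + ∑ a, A' (G.ζ * G.S.D a (G.im u)) := by
    rw [← Finset.sum_add_distrib]
    refine Finset.sum_le_sum fun a _ => ?_
    have := h.le_re_im (G.oR G.ζ * G.SC.D a u)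
    rwa [re_oR_mul, im_oR_mul, re_D, im_D] at this
  have h2 : ∑ a, ∑ b, A (G.oR (G.ζ * G.ρ) * G.SC.D a (G.SC.D b u)) ≤
      ∑ a, ∑ b, A' (G.ζ * G.ρ * G.S.D a (G.S.D b (G.re u))) +
        ∑ a, ∑ b, A' (G.ζ * G.ρ * G.S.D a (G.S.D b (G.im u))) := by
    rw [← Finset.sum_add_distrib]
    refine Finset.sum_le_sum fun a _ => ?_
    rw [← Finset.sum_add_distrib]
    refine Finset.sum_le_sum fun b _ => ?_
    have := h.le_re_im (G.oR (G.ζ * G.ρ) * G.SC.D a (G.SC.D b u))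
    rwa [re_oR_mul, im_oR_mul, re_D, im_D, re_D, im_D] at this
  refine (add_le_add (add_le_add h0 h1) h2).trans (le_of_eq ?_)
  ring

theorem mn_jets_lev (k : ℕ) (u : G.SmC) : G.jets (G.lev k) u =
    G.jets (G.Ac k) u + if 5 ≤ k then G.jets (G.Sc (k - 5)) u else 0 := by
  unfold jets lev
  split_ifs
  · simp only [Finset.sum_add_distrib]; ring
  · simp

theorem Bk_re (k : ℕ) (u : G.SmC) :
    G.Bk k (G.re u) ≤ G.low k (G.oR G.ρ * G.SC.LL u) + G.gC u := by
  refine add_le_add (Finset.sum_le_sum fun j _ => le_add_right ?_) (G.nm_g.re_le u)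
  rw [← re_LL, ← re_oR_mul]
  exact (mn_lvA j).re_le _

theorem Bk_im (k : ℕ) (u : G.SmC) :
    G.Bk k (G.im u) ≤ G.low k (G.oR G.ρ * G.SC.LL u) + G.gC u := by
  refine add_le_add (Finset.sum_le_sum fun j _ => le_add_right ?_) (G.nm_g.im_le u)
  rw [← im_LL, ← im_oR_mul]
  exact (mn_lvA j).im_le _

/-- the main estimate -/
theorem mainS_of (hL : G.LevS) (hS : G.SupS) : G.MainS := by
  obtain ⟨C₀, h⟩ := main_real hL hS
  refine ⟨2 * C₀, fun k => ?_⟩
  obtain ⟨C, hC⟩ := h k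
  refine ⟨2 * C, fun u => ?_⟩
  have a1 : G.Ar k (G.ρ * G.S.LL (G.re u)) ≤ G.lev k (G.oR G.ρ * G.SC.LL u) := by
    rw [← re_LL, ← re_oR_mul]
    exact le_add_right ((mn_lvA k).re_le _)
  have a2 : G.Ar k (G.ρ * G.S.LL (G.im u)) ≤ G.lev k (G.oR G.ρ * G.SC.LL u) := by
    rw [← im_LL, ← im_oR_mul]
    exact le_add_right ((mn_lvA k).im_le _)
  have b1 := (hC (G.re u)).trans
    (add_le_add (mul_le_mul_right a1 _) (mul_le_mul_right (Bk_re k u) _))
  have b2 := (hC (G.im u)).trans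
    (add_le_add (mul_le_mul_right a2 _) (mul_le_mul_right (Bk_im k u) _))
  refine le_trans ?_ ((add_le_add b1 b2).trans (le_of_eq (by push_cast; ring)))
  rw [mn_jets_lev]
  have c1 := mn_jets_le (mn_lvA (G := G) k) u
  have c2 := mn_jets_le (mn_lvS (G := G) (k - 5)) u
  split_ifs
  · exact (add_le_add c1 c2).trans (le_of_eq (by ring))
  · simpa using c1

end Geo

end WS

end Crest.Agent.N250

end
end

-- ▼ part N250/Wt/E0
section

/-!
Row 250, weighted theory (helper85): from Gaussian to polynomial weights, `E0S`.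
-/

set_option autoImplicit false
open MeasureTheory Set Filter Topology
open scoped ContDiff ENNReal NNReal

noncomputable section

namespace Crest.Agent.N250.WS

namespace E0

open Crest.Agent.N222

/-! ### algebra -/

section Alg

variable {R : Type} [CommRing R] [Algebra ℝ R] {S : Mov R (Fin 3)}

/-- the field of the energy identity -/
def Y (S : Mov R (Fin 3)) (W u : R) (a : Fin 3) : R := W * (8 * u * S.D a u - u * u * S.D a S.x2)

lemma two_half : (2 : R) * algebraMap ℝ R (1 / 2) = 1 := by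
  rw [show (2 : R) = algebraMap ℝ R 2 from (map_ofNat _ 2).symm, ← map_mul]
  norm_num

lemma gam_x2 (H : S.IsHyp) (f : R) : ∑ a, S.D a f * S.D a S.x2 = 2 * S.dr f := by
  have := H.n_D f
  simp only [H.D_x2, Mov.dr, Fin.sum_univ_three] at this ⊢
  linear_combination (-2 * S.xn) * this

lemma tan_Y (H : S.IsHyp) (W u : R) : S.Tan (Y S W u) := by
  refine H.tan_of ?_
  have h1 := H.n_D u
  have h2 := H.n_D S.x2
  simp only [Y, Fin.sum_univ_three] at h1 h2 ⊢
  linear_combination (8 * W * u) * h1 - (W * u * u) * h2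

lemma dv_Y (H : S.IsHyp) (hs : S.xn = 2 * S.h) (W u : R) :
    S.dv (Y S W u) = 8 * W * S.gam u u + 8 * W * u * S.LL u + 8 * u * S.gam W u
      - u * u * (W * (8 + 8 * S.a2 - 4 * (S.h * S.h)) + 2 * S.dr W) := by
  have d8 : ∀ a, S.D a 8 = 0 := fun a => by
    rw [show (8 : R) = algebraMap ℝ R 8 from (map_ofNat _ 8).symm]; exact H.const a 8
  have h1 := gam_x2 H W
  have h2 := gam_x2 H u
  have h3 := H.lap_x2
  have h4 := two_half (R := R)
  simp only [Pre.dv, Y, H.mul, H.toIsDS.D_sub, d8, Pre.gam, Mov.LL, Mov.Mi, Mov.Pi, Pre.lap,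
    Fin.sum_univ_three, Fintype.card_fin, hs, Nat.cast_ofNat, Nat.cast_zero] at h1 h2 h3 ⊢
  linear_combination (-(u * u)) * h1 - (2 * W * u) * h2 - (W * u * u) * h3
    + (4 * W * u * (S.dr u - u)) * h4

end Alg

/-! ### the cut-off profile -/

/-- `η (t / n²) / (1 + e^{t/8} / n)` -/
def Ph (n t : ℝ) : ℝ := Hu.eta (t / n ^ 2) * (1 + Real.exp (t / 8) / n)⁻¹

lemma Ph_sm {n : ℝ} (hn : 0 < n) : ContDiff ℝ ∞ (Ph n) :=
  (Hu.eta_sm.comp (contDiff_id.div_const _)).mul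
    ((contDiff_const.add ((Real.contDiff_exp.comp (contDiff_id.div_const 8)).div_const n)).inv
      fun t => by simp only [Function.comp]; positivity)

lemma Ph_sq_le {n : ℝ} (hn : 0 < n) (t : ℝ) : Ph n t ^ 2 ≤ 1 := by
  have a := Hu.eta_nonneg (t / n ^ 2)
  have b := Hu.eta_le (t / n ^ 2)
  have c : (1 + Real.exp (t / 8) / n)⁻¹ ≤ 1 := inv_le_one_of_one_le₀ (by
    have : 0 < Real.exp (t / 8) / n := by positivity
    linarith)
  exact pow_le_one₀ (by unfold Ph; positivity) (mul_le_one₀ b (by positivity) c)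

lemma Ph_lim (t : ℝ) : Tendsto (fun n : ℕ => Ph (n + 1) t) atTop (𝓝 1) := by
  have i : Tendsto (fun n : ℕ => (n : ℝ) + 1) atTop atTop :=
    tendsto_atTop_add_const_right _ 1 tendsto_natCast_atTop_atTop
  have a : Tendsto (fun n : ℕ => Hu.eta (t / ((n : ℝ) + 1) ^ 2)) atTop (𝓝 (Hu.eta 0)) :=
    (Hu.eta_sm.continuous.tendsto 0).comp
      (tendsto_const_nhds.div_atTop ((tendsto_pow_atTop two_ne_zero).comp i))
  have b := ((tendsto_const_nhds (x := Real.exp (t / 8))).div_atTop i).const_add 1 |>.inv₀ (by simp)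
  simpa [Hu.eta_one zero_le_one, Ph] using a.mul b

lemma Ph_bd : ∃ C : ℝ, 0 ≤ C ∧ ∀ n t : ℝ, 0 < n → 0 ≤ t → ∃ d, HasDerivAt (Ph n) d t ∧
    ∀ s, 0 ≤ s → s ≤ t → s * (5 * (Ph n t * d) + 32 * d ^ 2) ≤ C * Real.exp (-t / 4) := by
  obtain ⟨C, C0, hC⟩ := Hu.eta_bd
  refine ⟨320 * C ^ 2, by positivity, fun n t hn ht => ?_⟩
  set q := Real.exp (t / 8) / n with hq
  have q0 : 0 < q := by positivity
  set b := (1 + q)⁻¹ with hb
  have b0 : 0 < b := by positivity
  have bq : b * q ≤ 1 := by rw [hb, inv_mul_le_iff₀ (by positivity)]; linarith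
  set e := deriv Hu.eta (t / n ^ 2) with he
  have e0 : e ≤ 0 := Hu.eta_anti.deriv_nonpos
  have d1 : HasDerivAt (fun t => Hu.eta (t / n ^ 2)) (e * (1 / n ^ 2)) t :=
    ((Hu.eta_sm.differentiable (by simp)) _).hasDerivAt.comp t ((hasDerivAt_id t).div_const _)
  have d2 : HasDerivAt (fun t => (1 + Real.exp (t / 8) / n)⁻¹) (-(b * (b * q) / 8)) t := by
    refine ((((hasDerivAt_id t).div_const 8).exp.div_const n).const_add 1 |>.inv
      (by positivity)).congr_deriv ?_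
    simp only [id, hb, hq]
    field_simp
  refine ⟨_, d1.mul d2, fun s s0 st => ?_⟩
  set c := Hu.eta (t / n ^ 2) with hc
  have c0 : 0 ≤ c := Hu.eta_nonneg _
  set e' := e * (1 / n ^ 2) with he'
  have e1 : e' ≤ 0 := mul_nonpos_of_nonpos_of_nonneg e0 (by positivity)
  have k : 5 * (c * b * (e' * b + c * -(b * (b * q) / 8))) +
      32 * (e' * b + c * -(b * (b * q) / 8)) ^ 2 ≤ 160 * (e' * b) ^ 2 := by
    set B := b * q
    have B0 : 0 ≤ B := by positivity
    have h1 : 0 ≤ (c * b) ^ 2 * (B * (1 - B)) := by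
      have : 0 ≤ 1 - B := by linarith
      positivity
    have h2 : 0 ≤ c * -e' * b ^ 2 := by
      have : 0 ≤ -e' := by linarith
      positivity
    nlinarith [sq_nonneg (4 * (e' * b) + c * (b * B) / 8)]
  have bb : b ^ 2 ≤ n ^ 2 * Real.exp (-t / 4) := by
    have : b ≤ n * Real.exp (-t / 8) := by
      have : b ≤ q⁻¹ := inv_anti₀ q0 (by linarith)
      rwa [hq, inv_div, div_eq_mul_inv, ← Real.exp_neg, ← neg_div] at this
    calc b ^ 2 ≤ (n * Real.exp (-t / 8)) ^ 2 := by gcongr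
      _ = _ := by rw [mul_pow, ← Real.exp_nat_mul]; congr 2; push_cast; ring
  have te : t * e' ^ 2 * n ^ 2 ≤ 2 * C ^ 2 := by
    have u0 : 0 ≤ t / n ^ 2 := by positivity
    have r : t * e' ^ 2 * n ^ 2 = t / n ^ 2 * e ^ 2 := by rw [he']; field_simp
    rw [r]
    rcases le_or_gt (t / n ^ 2) 2 with h | h
    · have : e ^ 2 ≤ C ^ 2 := sq_le_sq' (neg_le_of_abs_le (hC _ u0).1) (le_of_abs_le (hC _ u0).1)
      exact mul_le_mul h this (sq_nonneg _) (by norm_num)
    · have e0 : Hu.eta =ᶠ[𝓝 (t / n ^ 2)] fun _ => 0 := by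
        filter_upwards [Ioi_mem_nhds h] with v hv using Hu.eta_zero (le_of_lt hv)
      have : e = 0 := by simpa using e0.deriv_eq
      rw [this]
      nlinarith [sq_nonneg C]
  calc s * (5 * (Ph n t * (e' * b + c * -(b * (b * q) / 8))) +
        32 * (e' * b + c * -(b * (b * q) / 8)) ^ 2) ≤ s * (160 * (e' * b) ^ 2) :=
        mul_le_mul_of_nonneg_left k s0
    _ ≤ t * (160 * (e' ^ 2 * (n ^ 2 * Real.exp (-t / 4)))) := by rw [mul_pow]; gcongr
    _ = 160 * (t * e' ^ 2 * n ^ 2) * Real.exp (-t / 4) := by ring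
    _ ≤ 160 * (2 * C ^ 2) * Real.exp (-t / 4) := by gcongr
    _ = _ := by ring

/-! ### integration -/

variable {X : Type} [TopologicalSpace X] [MeasurableSpace X] [BorelSpace X] [T2Space X]
  [SecondCountableTopology X] (G : Geo X)

/-- evaluation -/
def ev (p : X) : G.R →ₐ[ℝ] ℝ := (Pi.evalAlgHom ℝ (fun _ : X => ℝ) p).comp (SmR G.M.ch).val

omit [BorelSpace X] [T2Space X] [SecondCountableTopology X] in
lemma ev_eq (p : X) (f : G.R) : f.1 p = ev G p f := rfl

omit [BorelSpace X] [T2Space X] [SecondCountableTopology X] in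
lemma cont (f : G.R) : Continuous f.1 := Imm.Sm.continuous f.2

omit [BorelSpace X] [T2Space X] [SecondCountableTopology X] in
lemma x2_nonneg (p : X) : 0 ≤ G.S.x2.1 p := by
  simp only [ev_eq, Mov.x2, map_sum, map_mul]
  exact Finset.sum_nonneg fun a _ => mul_self_nonneg _

/-- the cut-off -/
def ph (n : ℕ) : G.R :=
  ⟨fun p => Ph (n + 1) (G.S.x2.1 p), Imm.Sm.comp G.S.x2.2 (Ph_sm (by positivity))⟩

omit [BorelSpace X] [SecondCountableTopology X] in
lemma ph_cs (n : ℕ) (f : X → ℝ) : HasCompactSupport fun p => (ph G n).1 p * f p := by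
  refine HasCompactSupport.intro (G.prop (2 * ((n : ℝ) + 1) ^ 2)) fun p hp => ?_
  have : 2 ≤ G.S.x2.1 p / ((n : ℝ) + 1) ^ 2 := by
    rw [le_div_iff₀ (by positivity)]; exact (not_le.1 hp).le
  simp only [ph, Ph, Hu.eta_zero this, zero_mul]

omit [TopologicalSpace X] [BorelSpace X] [T2Space X] [SecondCountableTopology X] in
lemma ofReal_int_le {μ : Measure X} {f : X → ℝ} (hf : Integrable f μ) :
    ENNReal.ofReal (∫ p, f p ∂μ) ≤ ∫⁻ p, ENNReal.ofReal (f p) ∂μ := by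
  have h : ∫ p, f p ∂μ ≤ ∫ p, max (f p) 0 ∂μ :=
    integral_mono hf hf.pos_part fun p => le_max_left _ _
  refine (ENNReal.ofReal_le_ofReal h).trans (le_of_eq ?_)
  rw [ofReal_integral_eq_lintegral_ofReal hf.pos_part (.of_forall fun p => le_max_right _ _)]
  simp

/-- integration of a pointwise inequality, then `n → ∞` -/
lemma lint_le {a b : X → ℝ} (ha : Continuous a) (a0 : ∀ p, 0 ≤ a p) (w u : G.R)
    (h : ∀ (n : ℕ) p, (ph G n).1 p ^ 2 * a p ≤ b p + (G.S.dv (Y G.S (ph G n ^ 2 * w) u)).1 p) :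
    ∫⁻ p, ENNReal.ofReal (a p) ∂G.M.mu ≤ ∫⁻ p, ENNReal.ofReal (b p) ∂G.M.mu := by
  have k : ∀ n : ℕ, ∫⁻ p, ENNReal.ofReal ((ph G n).1 p ^ 2 * a p) ∂G.M.mu ≤
      ∫⁻ p, ENNReal.ofReal (b p) ∂G.M.mu := fun n => by
    set Z : Fin 3 → G.R := Y G.S (ph G n ^ 2 * w) u with hZ
    have cs : ∀ c, HasCompactSupport (Z c).1 := fun c => by
      have := ph_cs G n (ph G n * w * (8 * u * G.S.D c u - u * u * G.S.D c G.S.x2)).1
      convert this using 1
      funext p
      simp only [ev_eq, hZ, Y, map_mul, map_pow]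
      ring
    have e : (G.S.dv Z).1 = G.M.pre.dv fun c => (Z c).1 := G.M.hom.dv Z
    have c1 : ∀ c, G.M.C1 (Z c).1 := fun c => Imm.Sm.c1 (Z c).2
    have z : ∫ p, (G.S.dv Z).1 p ∂G.M.mu = 0 := by
      rw [e]
      refine Imm.integral_dv_tan c1 cs fun c => ?_
      have := congrArg G.M.val (tan_Y G.hyp (ph G n ^ 2 * w) u c)
      rw [map_sum] at this
      simp only [map_mul] at this
      exact this
    have i1 : Integrable (G.S.dv Z).1 G.M.mu := by
      rw [e]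
      have := integrable_finsetSum Finset.univ fun c _ => (c1 c).integrable_D (cs c) c
      exact this.congr (.of_forall fun p => (Imm.dv_apply _ p).symm)
    have i2 : Integrable (fun p => (ph G n).1 p ^ 2 * a p) G.M.mu := by
      refine Imm.integrable_of_support (ph_cs G n fun p => (ph G n).1 p * a p)
        (((cont G _).pow 2).mul ha) fun p hp => ?_
      have := image_eq_zero_of_notMem_tsupport hp
      rw [sq, mul_assoc]
      exact this
    rw [← ofReal_integral_eq_lintegral_ofReal i2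
      (.of_forall fun p => mul_nonneg (sq_nonneg _) (a0 p)), ← sub_zero (∫ p, _ ∂G.M.mu), ← z,
      ← integral_sub i2 i1]
    exact (ofReal_int_le (i2.sub i1)).trans
      (lintegral_mono fun p => ENNReal.ofReal_le_ofReal (sub_le_iff_le_add.2 (h n p)))
  have l : ∀ p, liminf (fun n : ℕ => ENNReal.ofReal ((ph G n).1 p ^ 2 * a p)) atTop =
      ENNReal.ofReal (a p) := fun p => by
    refine Tendsto.liminf_eq (ENNReal.tendsto_ofReal ?_)
    have := ((Ph_lim (G.S.x2.1 p)).pow 2).mul_const (a p)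
    rwa [one_pow, one_mul] at this
  simp only [← l]
  refine (lintegral_liminf_le fun n => ?_).trans (liminf_le_of_frequently_le' (.of_forall k))
  exact (((cont G _).pow 2).mul ha).measurable.ennreal_ofReal

lemma core {φ d W U e L a h κ C : ℝ} {u w t x : Fin 3 → ℝ} (w0 : 0 < W) (w1 : W ≤ 1)
    (ce : 0 ≤ C * e) (s1 : ∑ i, t i * t i = 2 * ∑ i, x i * t i)
    (hs : (∑ i, x i * t i) / 2 * (5 * (φ * d) + 32 * d ^ 2) ≤ C * e)
    (hκ : (1 + a) * W ^ 2 + (∑ i, x i * w i) * W / 4 + 2 * ∑ i, w i * w i ≤ κ * W ^ 2) :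
    φ ^ 2 * (W * (2 * ∑ i, u i * u i + 8 * U * L - 8 * κ * U ^ 2)) ≤ 2 * C * (U ^ 2 * e) +
      (8 * (φ ^ 2 * W) * ∑ i, u i * u i + 8 * (φ ^ 2 * W) * U * L
        + 8 * U * ∑ i, (φ ^ 2 * w i + 2 * φ * (d * t i) * W) * u i
        - U * U * (φ ^ 2 * W * (8 + 8 * a - 4 * (h * h))
          + 2 * ∑ i, x i * (φ ^ 2 * w i + 2 * φ * (d * t i) * W))) := by
  rw [← sub_nonneg, ← mul_nonneg_iff_of_pos_left w0]
  have h1 : 0 ≤ φ ^ 2 * ∑ i, (W * u i + 4 * U * w i) ^ 2 := by positivity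
  have h2 := mul_nonneg (mul_nonneg (sq_nonneg U) (sq_nonneg φ)) (sub_nonneg.2 hκ)
  have h3 : 0 ≤ W ^ 2 * ∑ i, (5 * φ * u i + 8 * d * U * t i) ^ 2 := by positivity
  have h4 : 0 ≤ (U * φ * W * h) ^ 2 := sq_nonneg _
  have h5 := mul_nonneg (mul_nonneg (sq_nonneg U) (sq_nonneg W)) (sub_nonneg.2 hs)
  have h6 : 0 ≤ W * U ^ 2 * (C * e) * (2 - 8 / 5 * W) :=
    mul_nonneg (by positivity) (by linarith)
  simp only [Fin.sum_univ_three] at *
  linear_combination h1 + 8 * h2 + h3 / 5 + 4 * h4 + 8 / 5 * h5 + h6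
    + 64 / 5 * W ^ 2 * d ^ 2 * U ^ 2 * s1

omit [BorelSpace X] [T2Space X] [SecondCountableTopology X] in
/-- the pointwise inequality -/
lemma pt : ∃ C : ℝ, 0 ≤ C ∧ ∀ (w u : G.R) (n : ℕ) (p : X) (κ : ℝ), 0 < w.1 p → w.1 p ≤ 1 →
    (1 + G.S.a2.1 p) * w.1 p ^ 2 + (G.S.dr w).1 p * w.1 p / 4 + 2 * (G.S.gam w w).1 p ≤
      κ * w.1 p ^ 2 →
    (ph G n).1 p ^ 2 * (w.1 p * (2 * (G.S.gam u u).1 p + 8 * u.1 p * (G.S.LL u).1 p
      - 8 * κ * u.1 p ^ 2)) ≤
      C * (u.1 p ^ 2 * Real.exp (-G.S.x2.1 p / 4)) + (G.S.dv (Y G.S (ph G n ^ 2 * w) u)).1 p := by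
  obtain ⟨C, C0, hC⟩ := Ph_bd
  refine ⟨2 * C, by positivity, fun w u n p κ w0 w1 hκ => ?_⟩
  obtain ⟨d, hd, hb⟩ := hC (n + 1) _ (by positivity) (x2_nonneg G p)
  have H : G.S.IsHyp := G.hyp
  have dφ : ∀ a, ev G p (G.S.D a (ph G n)) = d * ev G p (G.S.D a G.S.x2) := fun a =>
    Imm.D_comp (Imm.Sm.diffAt G.S.x2.2 p) hd a
  have s1 := congrArg (ev G p) (gam_x2 H G.S.x2)
  have s2 : G.S.dr G.S.x2 = 2 * (G.S.x2 - G.S.xn * G.S.xn) := by
    simp only [Mov.dr, H.D_x2]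
    simp only [Mov.xn, Mov.x2, Fin.sum_univ_three]
    ring
  have s3 := congrArg (ev G p) s2
  have hs := hb (ev G p (G.S.dr G.S.x2) / 2) (by
    simp only [map_sum, map_mul, map_ofNat] at s1
    have : 0 ≤ ∑ a, ev G p (G.S.D a G.S.x2) * ev G p (G.S.D a G.S.x2) :=
      Finset.sum_nonneg fun a _ => mul_self_nonneg _
    linarith) (by
    simp only [map_mul, map_sub, map_ofNat] at s3
    rw [s3, ev_eq]
    nlinarith [mul_self_nonneg (ev G p G.S.xn)])
  rw [dv_Y H G.shr]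
  rw [show Ph (n + 1) (G.S.x2.1 p) = ev G p (ph G n) from rfl] at hs
  simp only [ev_eq, map_add, map_sub, map_mul, map_ofNat, map_pow, map_sum, Pre.gam, Mov.dr, H.mul,
    H.toIsDS.D_sq, dφ] at hκ hs s1 w0 w1 ⊢
  exact core w0 w1 (by positivity) s1 hs hκ

omit [T2Space X] [SecondCountableTopology X] in
lemma sq_wd {f m : X → ℝ} (hf : Continuous f) (hm : Continuous m) (μ : Measure X) :
    eLpNorm f 2 (μ.withDensity fun p => ENNReal.ofReal (m p)) ^ 2 =
      ∫⁻ p, ENNReal.ofReal (f p ^ 2 * m p) ∂μ := by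
  have := eLpNorm_nnreal_pow_eq_lintegral (f := f) (p := 2)
    (μ := μ.withDensity fun p => ENNReal.ofReal (m p)) two_ne_zero
  simp only [ENNReal.coe_ofNat, NNReal.coe_ofNat, ENNReal.rpow_ofNat] at this
  rw [this, lintegral_withDensity_eq_lintegral_mul _ hm.measurable.ennreal_ofReal
      (by have := hf.measurable; fun_prop)]
  refine lintegral_congr fun p => ?_
  rw [ENNReal.ofReal_mul (sq_nonneg _), mul_comm, ← sq_abs, ENNReal.ofReal_pow (abs_nonneg _)]
  simp [Real.enorm_eq_ofReal_abs]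

omit [T2Space X] [SecondCountableTopology X] in
/-- from integrals of squares to norms -/
lemma comb {θ K : ℝ} (hθ : 0 < θ) (hK : 0 ≤ K) : ∃ c : ℝ≥0, ∀ f g h u : G.R,
    ∫⁻ p, ENNReal.ofReal (θ * (f.1 p ^ 2 * G.m.1 p)) ∂G.M.mu ≤
      ∫⁻ p, ENNReal.ofReal (K * (g.1 p ^ 2 * G.m.1 p + h.1 p ^ 2 * G.m.1 p
        + u.1 p ^ 2 * Real.exp (-G.S.x2.1 p / 4))) ∂G.M.mu →
    G.nR f ≤ c * (G.nR g + G.nR h + G.gR u) := by
  refine ⟨Real.toNNReal (K / θ + 1), fun f g h u H => ?_⟩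
  have ce : Continuous fun p => Real.exp (-G.S.x2.1 p / 4) := by have := cont G G.S.x2; fun_prop
  have mm : ∀ f : G.R, Measurable fun p => ENNReal.ofReal (f.1 p ^ 2 * G.m.1 p) := fun f =>
    (((cont G f).pow 2).mul (cont G _)).measurable.ennreal_ofReal
  have nn : ∀ (f : G.R) p, 0 ≤ f.1 p ^ 2 * G.m.1 p := fun f p =>
    mul_nonneg (sq_nonneg _) (G.m_pos p).le
  have e : ∀ p, ENNReal.ofReal (K * (g.1 p ^ 2 * G.m.1 p + h.1 p ^ 2 * G.m.1 p
      + u.1 p ^ 2 * Real.exp (-G.S.x2.1 p / 4))) = ENNReal.ofReal K *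
      (ENNReal.ofReal (g.1 p ^ 2 * G.m.1 p) + (ENNReal.ofReal (h.1 p ^ 2 * G.m.1 p)
        + ENNReal.ofReal (u.1 p ^ 2 * Real.exp (-G.S.x2.1 p / 4)))) := fun p => by
    rw [ENNReal.ofReal_mul hK, add_assoc, ENNReal.ofReal_add (nn g p)
      (add_nonneg (nn h p) (by positivity)), ENNReal.ofReal_add (nn h p) (by positivity)]
  simp only [e, ENNReal.ofReal_mul hθ.le] at H
  rw [lintegral_const_mul' _ _ ENNReal.ofReal_ne_top, lintegral_const_mul' _ _ ENNReal.ofReal_ne_top,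
    lintegral_add_left (mm g), lintegral_add_left (mm h), ← sq_wd (cont G f) (cont G _),
    ← sq_wd (cont G g) (cont G _), ← sq_wd (cont G h) (cont G _), ← sq_wd (cont G u) ce] at H
  change _ * G.nR f ^ 2 ≤ _ * (G.nR g ^ 2 + (G.nR h ^ 2 + G.gR u ^ 2)) at H
  have k : ENNReal.ofReal K ≤ ENNReal.ofReal θ * (Real.toNNReal (K / θ + 1) : ℝ≥0∞) ^ 2 := by
    change _ ≤ _ * ENNReal.ofReal _ ^ 2
    rw [← ENNReal.ofReal_pow (by positivity), ← ENNReal.ofReal_mul hθ.le]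
    refine ENNReal.ofReal_le_ofReal ?_
    have : 0 ≤ K / θ := by positivity
    calc K = θ * (K / θ) := by field_simp
      _ ≤ _ := by gcongr; nlinarith
  have s : G.nR g ^ 2 + (G.nR h ^ 2 + G.gR u ^ 2) ≤ (G.nR g + G.nR h + G.gR u) ^ 2 := by
    rw [show (G.nR g + G.nR h + G.gR u) ^ 2 = G.nR g ^ 2 + (G.nR h ^ 2 + G.gR u ^ 2) +
      2 * (G.nR g * G.nR h + G.nR g * G.gR u + G.nR h * G.gR u) by ring]
    exact le_self_add
  have := H.trans (mul_le_mul' k s)
  rw [mul_assoc, ENNReal.mul_le_mul_iff_right (by simpa using hθ) ENNReal.ofReal_ne_top,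
    ← mul_pow] at this
  by_contra hn
  exact absurd this (not_le.2 (ENNReal.pow_lt_pow_left two_ne_zero (not_le.1 hn)))

omit [BorelSpace X] [T2Space X] [SecondCountableTopology X] in
lemma ρι (p : X) : G.ρ.1 p * G.ι.1 p = 1 := congrArg (fun f : G.R => f.1 p) G.ρι

omit [BorelSpace X] [T2Space X] [SecondCountableTopology X] in
lemma ι_bd (p : X) : 0 < G.ι.1 p ∧ G.ι.1 p ≤ 1 := by
  have h := ρι G p
  have := G.one_le p
  have a : 0 < G.ι.1 p := by by_contra hn; nlinarith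
  exact ⟨a, by nlinarith⟩

/-- first test: the weight `ι² m` -/
lemma test1 : ∃ c : ℝ≥0, ∀ u : G.R,
    G.nR (G.ι * u) ≤ c * (G.nR (G.ρ * G.S.LL u) + G.nR (G.ρ * G.S.LL u) + G.gR u) := by
  obtain ⟨C, C0, hC⟩ := pt G
  obtain ⟨R₁, hR⟩ := G.far
  set w := G.ι ^ 2 * G.m with hw
  have we : ∀ p, w.1 p = G.ι.1 p ^ 2 * G.m.1 p := fun p => by simp only [ev_eq, hw, map_mul, map_pow]
  have w0 : ∀ p, 0 < w.1 p := fun p => by
    rw [we]; exact mul_pos (pow_pos (ι_bd G p).1 2) (G.m_pos p)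
  have w1 : ∀ p, w.1 p ≤ G.m.1 p := fun p => by
    rw [we]
    exact mul_le_of_le_one_left (G.m_pos p).le (pow_le_one₀ (ι_bd G p).1.le (ι_bd G p).2)
  obtain ⟨K, hK⟩ := (G.prop R₁).exists_bound_of_continuousOn (f := fun p => ((1 + G.S.a2.1 p) *
    w.1 p ^ 2 + (G.S.dr w).1 p * w.1 p / 4 + 2 * (G.S.gam w w).1 p) / w.1 p ^ 2) (by
      have := cont G w; have := cont G G.S.a2; have := cont G (G.S.dr w)
      have := cont G (G.S.gam w w)
      exact (Continuous.div (by fun_prop) (by fun_prop) fun p => (pow_pos (w0 p) 2).ne').continuousOn)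
  set K' := (1 + 8 * |K|) * Real.exp (R₁ / 4) with hK'
  obtain ⟨c, hc⟩ := comb G (θ := 1 / 2) (K := 16 + C + K') (by norm_num) (by positivity)
  refine ⟨c, fun u => hc _ _ _ _ (lint_le G (by
    have := cont G (G.ι * u); have := cont G G.m; fun_prop)
    (fun p => by have := G.m_pos p; positivity) w u fun n p => ?_)⟩
  have φ1 : (ph G n).1 p ^ 2 ≤ 1 := Ph_sq_le (by positivity) _
  have A0 : 0 ≤ (G.S.gam u u).1 p := by
    simp only [ev_eq, Pre.gam, map_sum, map_mul]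
    exact Finset.sum_nonneg fun a _ => mul_self_nonneg _
  have e1 : (G.ι * u).1 p ^ 2 * G.m.1 p = w.1 p * u.1 p ^ 2 := by
    rw [we]; simp only [ev_eq, map_mul]; ring
  have e2 : w.1 p * (G.S.LL u).1 p ^ 2 ≤ (G.ρ * G.S.LL u).1 p ^ 2 * G.m.1 p := by
    have : (G.ρ * G.S.LL u).1 p ^ 2 = G.ρ.1 p ^ 2 * (G.S.LL u).1 p ^ 2 := by
      simp only [ev_eq, map_mul]; ring
    rw [this, mul_right_comm]
    refine mul_le_mul_of_nonneg_right ((w1 p).trans ?_) (sq_nonneg _)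
    exact le_mul_of_one_le_left (G.m_pos p).le (one_le_pow₀ (G.one_le p))
  rw [e1]
  have w0 := w0 p
  have w2 := (w1 p).trans (G.m_le p)
  have K0 : 0 ≤ K' := by positivity
  have key : ∀ κ κ' : ℝ, (1 + G.S.a2.1 p) * w.1 p ^ 2 + (G.S.dr w).1 p * w.1 p / 4 +
      2 * (G.S.gam w w).1 p ≤ κ * w.1 p ^ 2 → 1 + 8 * κ ≤ κ' → 0 ≤ κ' →
      κ' ≤ K' * Real.exp (-G.S.x2.1 p / 4) → _ := fun κ κ' h1 h2 h3 h4 => by
    have := hC w u n p κ w0 w2 h1
    show (ph G n).1 p ^ 2 * (1 / 2 * (w.1 p * u.1 p ^ 2)) ≤ (16 + C + K') *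
      ((G.ρ * G.S.LL u).1 p ^ 2 * G.m.1 p + (G.ρ * G.S.LL u).1 p ^ 2 * G.m.1 p
        + u.1 p ^ 2 * Real.exp (-G.S.x2.1 p / 4)) + (G.S.dv (Y G.S (ph G n ^ 2 * w) u)).1 p
    generalize (G.ρ * G.S.LL u).1 p ^ 2 * G.m.1 p = g at *
    generalize (ph G n).1 p = φ at *
    generalize (G.S.LL u).1 p = L at *
    generalize u.1 p = U at *
    generalize w.1 p = W at *
    have e0 := Real.exp_pos (-G.S.x2.1 p / 4)
    generalize Real.exp (-G.S.x2.1 p / 4) = e at *
    have g0 : 0 ≤ g := le_trans (by positivity) e2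
    have p0 : 0 ≤ φ ^ 2 * W := by positivity
    have p1 : φ ^ 2 * W ≤ 1 := mul_le_one₀ φ1 w0.le w2
    have a1 := mul_nonneg p0 (sq_nonneg (U + 8 * L))
    have a2 := mul_nonneg p0 A0
    have a3 : φ ^ 2 * (W * L ^ 2) ≤ g := (mul_le_of_le_one_left (by positivity) φ1).trans e2
    have a4 : φ ^ 2 * W * ((1 + 8 * κ) * U ^ 2) ≤ K' * e * U ^ 2 :=
      calc _ ≤ φ ^ 2 * W * (κ' * U ^ 2) := by gcongr
        _ ≤ κ' * U ^ 2 := mul_le_of_le_one_left (by positivity) p1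
        _ ≤ _ := by gcongr
    have a5 : 0 ≤ (C + K') * g := by positivity
    have a6 : 0 ≤ U ^ 2 * e := by positivity
    nlinarith
  rcases le_total R₁ (G.S.x2.1 p) with h | h
  · exact key (-1 / 8) 0 ((hR p h).trans (le_of_eq (by ring))) (by norm_num) le_rfl (by positivity)
  · refine key |K| (1 + 8 * |K|) ?_ le_rfl (by positivity) ?_
    · rw [← div_le_iff₀ (by positivity)]
      exact (le_abs_self _).trans ((hK p h).trans (le_abs_self K))
    · rw [hK', mul_assoc, ← Real.exp_add]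
      exact le_mul_of_one_le_right (by positivity) (Real.one_le_exp (by linarith))

omit [BorelSpace X] [T2Space X] [SecondCountableTopology X] in
lemma a2_le : ∃ C : ℝ, ∀ p, G.S.a2.1 p ≤ C * G.ι.1 p ^ 2 := by
  choose C hC using fun a b => G.symn b [a]
  refine ⟨∑ a, ∑ b, C a b ^ 2, fun p => ?_⟩
  simp only [ev_eq, Mov.a2, map_sum, map_mul, Finset.sum_mul]
  refine Finset.sum_le_sum fun a _ => Finset.sum_le_sum fun b _ => ?_
  have h : |ev G p (G.S.B a b)| ≤ C a b * G.ρ.1 p ^ ((0 : ℤ) - ((1 : ℕ) : ℤ)) := hC a b p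
  rw [show (0 : ℤ) - ((1 : ℕ) : ℤ) = -1 by norm_num, zpow_neg_one,
    ← eq_inv_of_mul_eq_one_right (ρι G p)] at h
  rw [← sq, ← mul_pow, ← sq_abs]
  exact pow_le_pow_left₀ (abs_nonneg _) h 2

/-- second test: the weight `m` -/
lemma test2 : ∃ c : ℝ≥0, ∀ (u : G.R) a,
    G.nR (G.S.D a u) ≤ c * (G.nR (G.ι * u) + G.nR (G.ρ * G.S.LL u) + G.gR u) := by
  obtain ⟨C, C0, hC⟩ := pt G
  obtain ⟨C1, h1⟩ := a2_le G
  obtain ⟨C2, h2⟩ := G.Dm
  obtain ⟨C3, h3⟩ := G.drm
  set K := |C1 + C3 / 4 + 6 * C2 ^ 2| with hK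
  obtain ⟨c, hc⟩ := comb G (θ := 2) (K := 4 + 8 * K + C) (by norm_num) (by positivity)
  refine ⟨c, fun u a => hc _ _ _ _ (lint_le G (by
    have := cont G (G.S.D a u); have := cont G G.m; fun_prop)
    (fun p => by have := G.m_pos p; positivity) G.m u fun n p => ?_)⟩
  have φ1 : (ph G n).1 p ^ 2 ≤ 1 := Ph_sq_le (by positivity) _
  have m0 := G.m_pos p
  have A0 : (G.S.D a u).1 p ^ 2 ≤ (G.S.gam u u).1 p := by
    simp only [ev_eq, Pre.gam, map_sum, map_mul, sq]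
    exact Finset.single_le_sum (f := fun a => ev G p (G.S.D a u) * ev G p (G.S.D a u))
      (fun a _ => mul_self_nonneg _) (Finset.mem_univ a)
  have gm : (G.S.gam G.m G.m).1 p ≤ 3 * (C2 * G.ι.1 p * G.m.1 p) ^ 2 := by
    have b : ∀ a, ev G p (G.S.D a G.m) * ev G p (G.S.D a G.m) ≤ (C2 * G.ι.1 p * G.m.1 p) ^ 2 :=
      fun a => by rw [← sq, ← sq_abs]; exact pow_le_pow_left₀ (abs_nonneg _) (h2 a p) 2
    rw [ev_eq, Pre.gam, map_sum, Fin.sum_univ_three, map_mul, map_mul, map_mul]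
    linarith [b 0, b 1, b 2]
  have := hC G.m u n p (K * G.ι.1 p ^ 2) m0 (G.m_le p) (by
    have b1 := mul_le_mul_of_nonneg_right (h1 p) (sq_nonneg (G.m.1 p))
    have b2 := mul_le_mul_of_nonneg_right (h3 p) m0.le
    have b3 := mul_le_mul_of_nonneg_right (le_abs_self (C1 + C3 / 4 + 6 * C2 ^ 2))
      (sq_nonneg (G.ι.1 p * G.m.1 p))
    change (G.S.dr G.m).1 p * _ ≤ _ at b2
    nlinarith)
  have r := ρι G p
  have K0 : 0 ≤ K := abs_nonneg _
  rw [show (G.ι * u).1 p = G.ι.1 p * u.1 p from rfl,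
    show (G.ρ * G.S.LL u).1 p = G.ρ.1 p * (G.S.LL u).1 p from rfl]
  generalize (ph G n).1 p = φ at *
  generalize (G.S.LL u).1 p = L at *
  generalize u.1 p = U at *
  generalize G.m.1 p = W at *
  generalize G.ι.1 p = i at *
  generalize G.ρ.1 p = ρ at *
  have e0 := Real.exp_pos (-G.S.x2.1 p / 4)
  generalize Real.exp (-G.S.x2.1 p / 4) = e at *
  have p0 : 0 ≤ φ ^ 2 * W := by positivity
  have a1 := mul_nonneg p0 (sq_nonneg (i * U + ρ * L))
  have a2 := mul_le_mul_of_nonneg_left A0 p0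
  have a3 : φ ^ 2 * ((ρ * L) ^ 2 * W) ≤ (ρ * L) ^ 2 * W := mul_le_of_le_one_left (by positivity) φ1
  have a4 : φ ^ 2 * ((4 + 8 * K) * ((i * U) ^ 2 * W)) ≤ (4 + 8 * K) * ((i * U) ^ 2 * W) :=
    mul_le_of_le_one_left (by positivity) φ1
  have a5 : 0 ≤ C * ((i * U) ^ 2 * W) := by positivity
  have a6 : 0 ≤ (8 * K + C) * ((ρ * L) ^ 2 * W) := by positivity
  have a7 : 0 ≤ (4 + 8 * K) * (U ^ 2 * e) := by positivity
  have a8 : φ ^ 2 * W * (U * L) * (ρ * i) = φ ^ 2 * W * (U * L) := by rw [r, mul_one]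
  nlinarith

end E0

/-- **from Gaussian to polynomial weights** -/
theorem Geo.e0S {X : Type} [TopologicalSpace X] [MeasurableSpace X] [BorelSpace X] [T2Space X]
    [SecondCountableTopology X] (G : Geo X) : G.E0S := by
  obtain ⟨c1, h1⟩ := E0.test1 G
  obtain ⟨c2, h2⟩ := E0.test2 G
  refine ⟨2 * c1 + 3 * (c2 * (2 * c1 + 1)), fun u => ?_⟩
  set N := G.nR (G.ρ * G.S.LL u) + G.gR u with hN
  have a : G.nR (G.ι * u) ≤ 2 * c1 * N := (h1 u).trans (by
    rw [show 2 * c1 * N = c1 * (G.nR (G.ρ * G.S.LL u) + G.nR (G.ρ * G.S.LL u) + G.gR u) +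
      c1 * G.gR u by rw [hN]; ring]
    exact le_self_add)
  have b : ∀ a, G.nR (G.S.D a u) ≤ c2 * (2 * c1 + 1) * N := fun c => (h2 u c).trans (by
    rw [mul_assoc, add_mul, one_mul, add_assoc]
    gcongr)
  rw [Fin.sum_univ_three]
  calc _ ≤ 2 * c1 * N + (c2 * (2 * c1 + 1) * N + c2 * (2 * c1 + 1) * N + c2 * (2 * c1 + 1) * N) := by
        gcongr <;> exact b _
    _ = _ := by push_cast; ring

end Crest.Agent.N250.WS

end
end

-- ▼ part N250/Wt/Boch
section

/-!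
# Row 250: drift Laplacians on a hypersurface, weighted energy and Bochner identities, commutators
(helper86; pure algebra)
-/

set_option autoImplicit false
set_option linter.unusedSectionVars false

noncomputable section

namespace Crest.Agent.N250

open Crest.Agent.N222

namespace Mov

variable {R : Type} [CommRing R] {ι : Type} [Fintype ι] (S : Mov R ι)

/-- the drift Laplacian `Δ f - ⟨∇ψ, ∇f⟩` -/
def L0 (ψ f : R) : R := S.lap f - S.gam ψ f


/-- `|Hess f|²` -/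
def hs2 (f : R) : R := ∑ a, ∑ b, S.hess f a b * S.hess f a b

/-- `∑ (D_a D_b f)²` -/
def dd2 (f : R) : R := ∑ a, ∑ b, S.D a (S.D b f) * S.D a (S.D b f)

/-- a matrix evaluated on `(∇f, ∇f)` -/
def qf (T : ι → ι → R) (f : R) : R := ∑ a, ∑ b, T a b * (S.D a f * S.D b f)



variable [Algebra ℝ R] [DecidableEq ι] {S}

namespace IsHyp

variable (H : S.IsHyp)
include H





theorem dd2_eq (f : R) : S.dd2 f = S.hs2 f + S.qf S.B2 f := by
  have e : ∀ a b, S.D a (S.D b f) * S.D a (S.D b f) = S.hess f a b * S.hess f a b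
      - 2 * (∑ c, S.B a c * S.D c f) * (S.n b * S.hess f a b)
      + (∑ c, S.B a c * S.D c f) * (∑ c, S.B a c * S.D c f) * (S.n b * S.n b) := fun a b => by
    rw [H.DD]; ring
  have e2 : ∑ a, (∑ c, S.B a c * S.D c f) * (∑ c, S.B a c * S.D c f) = S.qf S.B2 f := by
    simp only [Finset.sum_mul_sum]
    simp only [qf, B2, Finset.sum_mul]
    rw [Finset.sum_comm]
    refine Finset.sum_congr rfl fun c _ => ?_
    rw [Finset.sum_comm]
    exact Finset.sum_congr rfl fun e _ => Finset.sum_congr rfl fun a _ => by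
      rw [H.B_symm c a]; ring
  simp only [dd2, e, Finset.sum_add_distrib, Finset.sum_sub_distrib, ← Finset.mul_sum, H.nn,
    H.n_tan (H.toIsDS.tan_hess f _), mul_zero, mul_one, e2, hs2, sub_zero]

theorem D_gam (f g : R) (a : ι) :
    S.D a (S.gam f g) = ∑ b, (S.D b f * S.D a (S.D b g) + S.D a (S.D b f) * S.D b g) := by
  simp only [Pre.gam, H.toIsDS.D_sum, H.mul]



/-- Bochner's formula -/
theorem bochner (f : R) : S.lap (S.gam f f) = 2 * S.hs2 f + 2 * S.gam f (S.lap f)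
    + 2 * (S.h * S.qf S.B f - S.qf S.B2 f) := by
  have e0 : S.lap (S.gam f f) = ∑ a, S.lap (S.D a f * S.D a f) := by
    simp only [Pre.lap, Pre.gam, H.toIsDS.D_sum]; exact Finset.sum_comm
  have e1 : ∀ a, S.lap (S.D a f * S.D a f) = 2 * (S.D a f * S.D a (S.lap f))
      - 4 * ∑ b, S.B2 a b * (S.D a f * S.D b f) + 2 * S.h * ∑ b, S.B a b * (S.D a f * S.D b f)
      - (4 * (∑ b, ∑ c, S.B b c * S.D b (S.D c f)) + 2 * S.gam S.h f) * (S.n a * S.D a f)
      + 2 * ∑ b, S.D b (S.D a f) * S.D b (S.D a f) := fun a => by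
    have a1 : ∑ b, S.B2 a b * (S.D a f * S.D b f) = S.D a f * ∑ b, S.B2 a b * S.D b f := by
      rw [Finset.mul_sum]; exact Finset.sum_congr rfl fun b _ => by ring
    have a2 : ∑ b, S.B a b * (S.D a f * S.D b f) = S.D a f * ∑ b, S.B a b * S.D b f := by
      rw [Finset.mul_sum]; exact Finset.sum_congr rfl fun b _ => by ring
    have a3 : S.gam (S.D a f) (S.D a f) = ∑ b, S.D b (S.D a f) * S.D b (S.D a f) := rfl
    rw [H.toIsDS.lap_mul, H.lap_D, a1, a2, a3]; ring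
  have e2 : ∑ a, ∑ b, S.D b (S.D a f) * S.D b (S.D a f) = S.dd2 f := Finset.sum_comm
  simp only [e0, e1, Finset.sum_add_distrib, Finset.sum_sub_distrib, ← Finset.mul_sum, H.n_D, e2,
    H.dd2_eq]
  simp only [qf, Pre.gam]
  ring


section Weight

variable {E β : R} (hE : ∀ a, S.D a E = -(E * S.D a β))
include hE






end Weight


/-! ### shrinkers: `4 ψ = |x|²`, `⟨x, n⟩ = 2 h` -/

section Shr

variable {ψ : R} (hψ : 4 * ψ = S.x2)
include hψ





variable (hs : S.xn = 2 * S.h)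
include hs








end Shr

end IsHyp

end Mov

end Crest.Agent.N250

end
end

-- ▼ part N250/Wt/E2a
section

/-!
# Row 250, weighted theory (helper35): the pointwise half of the second order estimate
-/

set_option autoImplicit false
set_option linter.unusedSectionVars false

noncomputable section

namespace Crest.Agent.N250

open Crest.Agent.N222

namespace Mov

variable {R : Type} [CommRing R] [Algebra ℝ R] (S : Mov R (Fin 3))

/-- the field of the second order identity, without the weight -/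
def e2Z (i : ℕ) (v : R) (a : Fin 3) : R := 4 * S.lap v * S.D a v - 2 * S.D a (S.gam v v)
  - 4 * S.Pi i v * S.D a v + 2 * S.gam v v * (S.x a - S.xn * S.n a)

/-- the field of the second order identity -/
def e2Y (W : R) (i : ℕ) (v : R) (a : Fin 3) : R := W * S.e2Z i v a

variable {S}

namespace IsHyp

variable (H : S.IsHyp)
include H

theorem tan_e2Y (W : R) (i : ℕ) (v : R) : S.Tan (S.e2Y W i v) := by
  refine H.tan_of ?_
  have : ∀ a, S.n a * S.e2Y W i v a = W * (4 * S.lap v - 4 * S.Pi i v) * (S.n a * S.D a v)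
      - 2 * W * (S.n a * S.D a (S.gam v v)) + 2 * W * S.gam v v * (S.x a * S.n a)
      - 2 * W * S.gam v v * S.xn * (S.n a * S.n a) := fun a => by rw [e2Y, e2Z]; ring
  simp only [this, Finset.sum_sub_distrib, Finset.sum_add_distrib, ← Finset.mul_sum, H.n_D, H.nn]
  rw [← xn]; ring

theorem D_nat (a : Fin 3) (i : ℕ) : S.D a (i : R) = 0 := by
  rw [← map_natCast (algebraMap ℝ R)]; exact H.const a _

theorem dir_xT (f : R) : ∑ a, (S.x a - S.xn * S.n a) * S.D a f = S.dr f := by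
  have : ∀ a, (S.x a - S.xn * S.n a) * S.D a f = S.x a * S.D a f - S.xn * (S.n a * S.D a f) :=
    fun a => by ring
  simp only [this, Finset.sum_sub_distrib, ← Finset.mul_sum, H.n_D, mul_zero, sub_zero, dr]

theorem dv_xT : ∑ a, S.D a (S.x a - S.xn * S.n a) = 2 - S.xn * S.h := by
  have h1 := H.tr_P
  have : ∀ a, S.D a (S.x a - S.xn * S.n a) = S.P a a - S.xn * S.B a a - S.n a * S.D a S.xn :=
    fun a => by rw [H.toIsDS.D_sub, H.mul, Pre.P, B]; ring
  simp only [this, Finset.sum_sub_distrib, ← Finset.mul_sum, H.n_D, h1, Fintype.card_fin]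
  rw [← h]; push_cast; ring

theorem gam_Pi (i : ℕ) (v : R) : 2 * S.gam v (S.Pi i v) =
    2 * (i : R) * S.gam v v + S.dr (S.gam v v) - 2 * S.xn * S.qf S.B v := by
  have e1 : ∀ a, S.D a (S.Pi i v) = ∑ b, S.x b * S.D a (S.D b v) + (i : R) * S.D a v := fun a => by
    have := H.toIsDS.PD a v
    simp only [Pre.P] at this
    simp only [Mov.Pi, dr, H.add, H.mul, H.toIsDS.D_sum, H.toIsDS.D_sub, H.D_nat, H.toIsDS.D_one,
      Finset.sum_add_distrib, this]
    ring
  have e2 : ∀ a b, S.D a v * (S.x b * S.D a (S.D b v)) = S.x b * (S.D a v * S.D b (S.D a v))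
      + (S.n a * S.D a v) * (S.x b * ∑ c, S.B b c * S.D c v)
      - (S.D a v * ∑ c, S.B a c * S.D c v) * (S.x b * S.n b) := fun a b => by
    rw [H.DD_comm v a b]; ring
  have e3 : ∑ a, S.D a v * ∑ c, S.B a c * S.D c v = S.qf S.B v := by
    simp only [qf, Finset.mul_sum]
    exact Finset.sum_congr rfl fun a _ => Finset.sum_congr rfl fun c _ => by ring
  have e4 : S.dr (S.gam v v) = 2 * ∑ a, ∑ b, S.x b * (S.D a v * S.D b (S.D a v)) := by
    rw [Finset.sum_comm, dr, Finset.mul_sum]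
    refine Finset.sum_congr rfl fun a _ => ?_
    rw [H.D_gam, Finset.mul_sum, Finset.mul_sum]
    exact Finset.sum_congr rfl fun b _ => by ring
  have e5 : S.gam v (S.Pi i v) = ∑ a, ∑ b, S.D a v * (S.x b * S.D a (S.D b v))
      + (i : R) * S.gam v v := by
    simp only [Pre.gam, e1, mul_add, Finset.sum_add_distrib, Finset.mul_sum]
    congr 1
    exact Finset.sum_congr rfl fun a _ => by ring
  rw [e5, e4]
  simp only [e2, Finset.sum_add_distrib, Finset.sum_sub_distrib, ← Finset.mul_sum,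
    ← Finset.sum_mul, H.n_D, e3]
  rw [← xn]; ring

theorem dv_e2Z (i : ℕ) (v : R) : S.dv (S.e2Z i v) = 4 * S.lap v ^ 2 + 4 * S.gam v (S.lap v)
    - 2 * S.lap (S.gam v v) - 4 * S.Pi i v * S.lap v - 4 * S.gam v (S.Pi i v)
    + 2 * S.gam v v * (2 - S.xn * S.h) + 2 * S.dr (S.gam v v) := by
  have d4 : ∀ a, S.D a 4 = 0 := fun a => by exact_mod_cast H.D_nat a 4
  have e : ∀ a, S.D a (S.e2Z i v a) = 4 * S.lap v * S.D a (S.D a v)
      + 4 * (S.D a v * S.D a (S.lap v)) - 2 * S.D a (S.D a (S.gam v v))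
      - 4 * S.Pi i v * S.D a (S.D a v) - 4 * (S.D a v * S.D a (S.Pi i v))
      + 2 * S.gam v v * S.D a (S.x a - S.xn * S.n a)
      + 2 * ((S.x a - S.xn * S.n a) * S.D a (S.gam v v)) := fun a => by
    rw [e2Z, H.add, H.toIsDS.D_sub, H.toIsDS.D_sub, H.mul _ _ (S.x a - S.xn * S.n a)]
    simp only [H.mul _ _ (S.D a _), H.mul _ 4, H.mul _ 2, H.toIsDS.D_two, d4]
    ring
  rw [Pre.dv]
  simp only [e, Finset.sum_add_distrib, Finset.sum_sub_distrib, ← Finset.mul_sum, H.dv_xT,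
    H.dir_xT]
  simp only [Pre.lap, Pre.gam]
  ring

/-- the second order identity with an arbitrary weight -/
theorem e2_id (hs : S.xn = 2 * S.h) (W : R) (i : ℕ) (v : R) : 4 * W * S.Mi i v ^ 2 =
    W * (4 * S.dd2 v + S.Pi i v ^ 2 - 8 * S.qf S.B2 v - 4 * S.h * S.qf S.B v
      + 4 * S.h ^ 2 * S.gam v v + 4 * ((i : R) - 1) * S.gam v v)
    - (4 * S.lap v * S.gam W v - 2 * S.gam W (S.gam v v) - 4 * S.Pi i v * S.gam W v
      + 2 * S.gam v v * S.dr W) + S.dv (S.e2Y W i v) := by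
  have e0 : S.dv (S.e2Y W i v) = _ := H.toIsDS.dv_mul W (S.e2Z i v)
  have e1 : S.dir (S.e2Z i v) W = 4 * S.lap v * S.gam W v - 2 * S.gam W (S.gam v v)
      - 4 * S.Pi i v * S.gam W v + 2 * S.gam v v * S.dr W := by
    have : ∀ a, S.e2Z i v a * S.D a W = 4 * S.lap v * (S.D a W * S.D a v)
        - 2 * (S.D a W * S.D a (S.gam v v)) - 4 * S.Pi i v * (S.D a W * S.D a v)
        + 2 * S.gam v v * ((S.x a - S.xn * S.n a) * S.D a W) := fun a => by rw [e2Z]; ring
    rw [Pre.dir]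
    simp only [this, Finset.sum_add_distrib, Finset.sum_sub_distrib, ← Finset.mul_sum, H.dir_xT]
    rfl
  have e2 : 2 * S.Mi i v = 2 * S.lap v - S.Pi i v := by
    have : (2 : R) * algebraMap ℝ R (1 / 2) = 1 := by
      rw [← map_ofNat (algebraMap ℝ R) 2, ← map_mul]; norm_num
    rw [Mi]; linear_combination (-S.Pi i v) * this
  have e3 := H.bochner v
  have e4 := H.gam_Pi i v
  have e5 := H.dd2_eq v
  rw [e0, e1, H.dv_e2Z]
  rw [hs] at e4 ⊢
  linear_combination W * (2 * S.Mi i v + 2 * S.lap v - S.Pi i v) * e2 + 2 * W * e3 + 2 * W * e4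
    - 4 * W * e5

end IsHyp

end Mov

namespace WS

theorem abs_sum3 {f : Fin 3 → ℝ} {c : ℝ} (h : ∀ a, |f a| ≤ c) : |∑ a, f a| ≤ 3 * c :=
  (Finset.abs_sum_le_sum_abs _ _).trans ((Finset.sum_le_sum fun a _ => h a).trans (by simp))

theorem abs_mul_le' {a b c d : ℝ} (h1 : |a| ≤ c) (h2 : |b| ≤ d) : |a * b| ≤ c * d := by
  rw [abs_mul]; exact mul_le_mul h1 h2 (abs_nonneg _) ((abs_nonneg _).trans h1)

theorem e2_real {κ P : ℝ} {d ω : Fin 3 → ℝ} {Q β : Fin 3 → Fin 3 → ℝ}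
    (hω : ∀ a, |ω a| ≤ κ) (hβ : ∀ a b, |β a b| ≤ κ) :
    -(2 * ∑ a, ∑ b, Q a b * Q a b + P ^ 2 / 2 + 1044 * κ ^ 2 * ∑ a, d a * d a) ≤
      -8 * ∑ a, ∑ b, (∑ c, β a c * β c b) * (d a * d b)
      - 4 * ((∑ a, β a a) * ∑ a, ∑ b, β a b * (d a * d b))
      - 4 * ((∑ a, Q a a) * ∑ a, ω a * d a) + 4 * ∑ a, ∑ b, ω a * (d b * Q a b)
      + 4 * (P * ∑ a, ω a * d a) := by
  have g0 : 0 ≤ ∑ a, d a * d a := Finset.sum_nonneg fun a _ => mul_self_nonneg _
  have q1 : ∀ a, 0 ≤ ∑ b, Q a b * Q a b := fun a => Finset.sum_nonneg fun b _ => mul_self_nonneg _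
  have q0 : 0 ≤ ∑ a, ∑ b, Q a b * Q a b := Finset.sum_nonneg fun a _ => q1 a
  have hd : ∀ a, |d a| ≤ √(∑ a, d a * d a) := fun a => Real.abs_le_sqrt (by
    rw [sq]; exact Finset.single_le_sum (fun a _ => mul_self_nonneg (d a)) (Finset.mem_univ a))
  have hQ : ∀ a b, |Q a b| ≤ √(∑ a, ∑ b, Q a b * Q a b) := fun a b => Real.abs_le_sqrt (by
    rw [sq]
    exact (Finset.single_le_sum (fun b _ => mul_self_nonneg (Q a b)) (Finset.mem_univ b)).trans
      (Finset.single_le_sum (fun a _ => q1 a) (Finset.mem_univ a)))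
  have hg := Real.sq_sqrt g0
  have hq := Real.sq_sqrt q0
  set γ := √(∑ a, d a * d a)
  set q := √(∑ a, ∑ b, Q a b * Q a b)
  have a1 := abs_le.1 (abs_sum3 fun a => abs_sum3 fun b => abs_mul_le'
    (abs_sum3 fun c => abs_mul_le' (hβ a c) (hβ c b)) (abs_mul_le' (hd a) (hd b)))
  have a2 := abs_le.1 (abs_mul_le' (abs_sum3 fun a => hβ a a) (abs_sum3 fun a => abs_sum3 fun b =>
    abs_mul_le' (hβ a b) (abs_mul_le' (hd a) (hd b))))
  have a0 := abs_sum3 fun a => abs_mul_le' (hω a) (hd a)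
  have a3 := abs_le.1 (abs_mul_le' (abs_sum3 fun a => hQ a a) a0)
  have a4 := abs_le.1 (abs_sum3 fun a => abs_sum3 fun b => abs_mul_le' (hω a)
    (abs_mul_le' (hd b) (hQ a b)))
  have a5 := abs_le.1 (abs_mul_le' (le_refl |P|) a0)
  rw [← hg, ← hq, ← sq_abs P]
  nlinarith [sq_nonneg (q - 18 * (κ * γ)), sq_nonneg (|P| - 12 * (κ * γ)), a1.2, a2.2, a3.2, a4.1,
    a5.1]

theorem e2_abs {R : Type} [CommRing R] [Algebra ℝ R] {S : Mov R (Fin 3)} (H : S.IsHyp)
    (hs : S.xn = 2 * S.h) (E : R →+* ℝ) (W v : R) (i : ℕ) {s m κ c : ℝ} {ω : Fin 3 → ℝ}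
    (hm : 0 ≤ m) (hW : E W = s ^ 2 * m) (hD : ∀ a, E (S.D a W) = s * m * ω a)
    (hω : ∀ a, |ω a| ≤ κ) (hβ : ∀ a b, |s * E (S.B a b)| ≤ κ)
    (hr : E (S.dr W) ≤ m * ((2 * i - 2) * s ^ 2 + c)) :
    2 * E (W * S.dd2 v) + E (W * S.Pi i v ^ 2) / 2 ≤ 4 * E (W * S.Mi i v ^ 2)
      - E (S.dv (S.e2Y W i v)) + (1044 * κ ^ 2 + 2 * c) * (m * E (S.gam v v)) := by
  have id := congrArg E (H.e2_id hs W i v)
  have k2 := mul_le_mul_of_nonneg_left (e2_real (P := s * E (S.Pi i v)) (d := fun a => E (S.D a v))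
    (Q := fun a b => s * E (S.D a (S.D b v))) hω hβ) hm
  have g0 : 0 ≤ E (S.gam v v) := by
    rw [Pre.gam, map_sum]
    exact Finset.sum_nonneg fun a _ => by rw [map_mul]; exact mul_self_nonneg _
  have k4 := mul_le_mul_of_nonneg_left hr g0
  have k5 : 0 ≤ m * ((s * E S.h) ^ 2 * E (S.gam v v)) := by positivity
  have e1 : S.gam W (S.gam v v) = ∑ a, S.D a W *
      ∑ b, (S.D b v * S.D a (S.D b v) + S.D a (S.D b v) * S.D b v) := by
    rw [Pre.gam.eq_1 _ W]; simp only [H.D_gam]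
  rw [e1] at id
  simp only [map_add, map_sub, map_mul, map_pow, map_ofNat, map_natCast, map_one] at id ⊢
  generalize E (S.dv _) = z at id ⊢
  generalize E (S.dr W) = y at id k4
  generalize E (S.Mi i v) = M at id ⊢
  generalize S.Pi i v = P at id k2 ⊢
  simp only [Mov.dd2, Mov.qf, Mov.B2, Mov.h, Pre.lap, Pre.gam, map_add, map_mul, hW, hD,
    Fin.sum_univ_three] at id k2 k4 k5 ⊢
  linarith

variable {X : Type} [TopologicalSpace X] [MeasurableSpace X]

namespace Geo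

variable (G : Geo X)

/-- evaluation at a point -/
def evp (p : X) : G.R →+* ℝ := (Pi.evalRingHom (fun _ : X => ℝ) p).comp G.M.val

theorem evp_eq (p : X) (f : G.R) : f.1 p = G.evp p f := rfl

theorem iota_pos (p : X) : 0 < G.ι.1 p := by
  have h : G.ρ.1 p * G.ι.1 p = 1 := congrArg (fun f : G.R => f.1 p) G.ρι
  exact pos_of_mul_pos_of_pos_left' h (G.one_le p)
where
  pos_of_mul_pos_of_pos_left' {a b : ℝ} (h : a * b = 1) (ha : 1 ≤ a) : 0 < b := by
    by_contra hb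
    nlinarith [not_lt.1 hb]

theorem exists_B : ∃ C : ℝ, 0 ≤ C ∧ ∀ a b p, |(G.S.B a b).1 p| ≤ C * G.ι.1 p := by
  choose C hC using fun a b => G.symn b [a]
  refine ⟨∑ a, ∑ b, |C a b|, by positivity, fun a b p => (hC a b p).trans ?_⟩
  have h : G.ρ.1 p * G.ι.1 p = 1 := congrArg (fun f : G.R => f.1 p) G.ρι
  have e : G.ρ.1 p ^ ((0 : ℤ) - ([a].length : ℕ)) = G.ι.1 p := by
    simp [eq_inv_of_mul_eq_one_right h]
  rw [e]
  refine mul_le_mul_of_nonneg_right ((le_abs_self _).trans ?_) (G.iota_pos p).le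
  exact (Finset.single_le_sum (fun b _ => abs_nonneg (C a b)) (Finset.mem_univ b)).trans
    (Finset.single_le_sum (f := fun a => ∑ b, |C a b|) (fun a _ => by positivity)
      (Finset.mem_univ a))

/-- the pointwise second order inequality for the weight `s² m` -/
theorem e2_pt (i : ℕ) (K : ℝ) : ∃ C : ℝ, 0 ≤ C ∧ ∀ (s τ v : G.R) (p : X), 0 ≤ τ.1 p →
    |s.1 p| * G.ι.1 p ≤ τ.1 p → (∀ a, |(G.S.D a s).1 p| ≤ K * τ.1 p) →
    s.1 p * (G.S.dr s).1 p ≤ (i + 1) * s.1 p ^ 2 + K * τ.1 p ^ 2 →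
    2 * (s ^ 2 * G.m * G.S.dd2 v).1 p + (s ^ 2 * G.m * G.S.Pi i v ^ 2).1 p / 2 ≤
      4 * (s ^ 2 * G.m * G.S.Mi i v ^ 2).1 p - (G.S.dv (G.S.e2Y (s ^ 2 * G.m) i v)).1 p
        + C * (τ ^ 2 * G.m * G.S.gam v v).1 p := by
  obtain ⟨C1, h1, hB⟩ := G.exists_B
  obtain ⟨C2, h2⟩ := G.Dm
  obtain ⟨C3, h3⟩ := G.drm
  refine ⟨1044 * (C1 + 2 * |K| + |C2|) ^ 2 + 4 * |K| + 2 * |C3|, by positivity,
    fun s τ v p hτ hs hD hr => ?_⟩
  have H := G.hyp
  have hm := G.m_pos p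
  have hι := G.iota_pos p
  have hK : K * τ.1 p ≤ |K| * τ.1 p := mul_le_mul_of_nonneg_right (le_abs_self _) hτ
  have DW : ∀ a, G.S.D a (s ^ 2 * G.m) = s * (2 * G.m * G.S.D a s + s * G.S.D a G.m) := fun a => by
    rw [H.mul, H.toIsDS.D_sq]; ring
  have drW : G.S.dr (s ^ 2 * G.m) = 2 * G.m * (s * G.S.dr s) + s ^ 2 * G.S.dr G.m := by
    simp only [Mov.dr, DW, Finset.mul_sum, ← Finset.sum_add_distrib]
    exact Finset.sum_congr rfl fun a _ => by ring
  have b3 : (s.1 p * G.ι.1 p) ^ 2 ≤ τ.1 p ^ 2 := by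
    rw [← sq_abs, abs_mul, abs_of_pos hι]
    exact pow_le_pow_left₀ (by positivity) hs 2
  have key := e2_abs H G.shr (G.evp p) (s ^ 2 * G.m) v i (s := s.1 p) (m := G.m.1 p)
    (κ := (C1 + 2 * |K| + |C2|) * τ.1 p) (c := (2 * |K| + |C3|) * τ.1 p ^ 2)
    (ω := fun a => 2 * (G.S.D a s).1 p + s.1 p * (G.S.D a G.m).1 p / G.m.1 p) hm.le
    (by rw [map_mul, map_pow]; rfl) (fun a => ?_) (fun a => ?_) (fun a b => ?_) ?_
  · have e : (τ ^ 2 * G.m * G.S.gam v v).1 p = τ.1 p ^ 2 * G.m.1 p * G.evp p (G.S.gam v v) := by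
      rw [evp_eq, map_mul, map_mul, map_pow]; rfl
    rw [e]
    refine key.trans (le_of_eq ?_)
    simp only [← evp_eq]
    ring
  · rw [DW]
    simp only [map_add, map_mul, map_ofNat, ← evp_eq]
    field_simp
  · refine (abs_add_le _ _).trans ?_
    have b1 : |2 * (G.S.D a s).1 p| ≤ 2 * (|K| * τ.1 p) := by
      rw [abs_mul, abs_two]; linarith [hD a]
    have b2 : |s.1 p * (G.S.D a G.m).1 p / G.m.1 p| ≤ |C2| * τ.1 p := by
      rw [abs_div, abs_of_pos hm, div_le_iff₀ hm, abs_mul]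
      have c1 := mul_le_mul_of_nonneg_left ((h2 a p).trans (mul_le_mul_of_nonneg_right
        (mul_le_mul_of_nonneg_right (le_abs_self C2) hι.le) hm.le)) (abs_nonneg (s.1 p))
      linarith [mul_le_mul_of_nonneg_left hs (mul_nonneg (abs_nonneg C2) hm.le)]
    linarith [mul_nonneg h1 hτ]
  · rw [abs_mul, ← evp_eq]
    linarith [mul_le_mul_of_nonneg_left (hB a b p) (abs_nonneg (s.1 p)),
      mul_le_mul_of_nonneg_left hs h1, mul_nonneg (abs_nonneg K) hτ, mul_nonneg (abs_nonneg C2) hτ]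
  · have b1 := mul_le_mul_of_nonneg_left (h3 p) (sq_nonneg (s.1 p))
    have b2 := mul_le_mul_of_nonneg_left hr hm.le
    have b4 : C3 * (s.1 p * G.ι.1 p) ^ 2 ≤ |C3| * τ.1 p ^ 2 :=
      mul_le_mul (le_abs_self _) b3 (sq_nonneg _) (abs_nonneg _)
    have b5 : K * τ.1 p ^ 2 ≤ |K| * τ.1 p ^ 2 :=
      mul_le_mul_of_nonneg_right (le_abs_self _) (sq_nonneg _)
    rw [drW]
    simp only [map_add, map_mul, map_pow, map_ofNat, ← evp_eq]
    linarith [mul_le_mul_of_nonneg_left b4 hm.le, mul_le_mul_of_nonneg_left b5 hm.le]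

end Geo

end WS

end Crest.Agent.N250

end
end

-- ▼ part N250/Wt/E2
section

/-!
# Row 250, weighted theory (helper23): the second order estimate `E2S`
-/

set_option autoImplicit false
open MeasureTheory Set Filter Topology
open scoped ContDiff ENNReal NNReal

noncomputable section

namespace Crest.Agent.N250.WS.Geo

open Crest.Agent.N222

variable {X : Type} [TopologicalSpace X] [MeasurableSpace X] (G : Geo X)

theorem D_pow_succ (f : G.R) (a : Fin 3) (i : ℕ) :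
    G.S.D a (f ^ (i + 1)) = ((i : G.R) + 1) * f ^ i * G.S.D a f := by
  induction i with
  | zero => simp
  | succ i ih => rw [pow_succ, G.hyp.mul, ih]; push_cast; ring

theorem e2_weight (i : ℕ) : ∃ K : ℝ, ∀ k p,
    |(G.chi k * G.ρ ^ (i + 1)).1 p| * G.ι.1 p ≤ (G.ρ ^ i).1 p ∧
    (∀ a, |(G.S.D a (G.chi k * G.ρ ^ (i + 1))).1 p| ≤ K * (G.ρ ^ i).1 p) ∧
    (G.chi k * G.ρ ^ (i + 1)).1 p * (G.S.dr (G.chi k * G.ρ ^ (i + 1))).1 p ≤
      (i + 1) * (G.chi k * G.ρ ^ (i + 1)).1 p ^ 2 + K * (G.ρ ^ i).1 p ^ 2 := by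
  obtain ⟨C1, hC1, h1⟩ := G.D_chi_le
  obtain ⟨C2, h2⟩ := G.drρ
  have h3 := fun a => (G.sy_ρ.D a).bd
  choose C3 hC3 h3 using h3
  have hS : 0 ≤ ∑ a, C3 a := Finset.sum_nonneg fun a _ => hC3 a
  refine ⟨(i + 1) * (∑ a, C3 a + |C2|) + C1, fun k p => ?_⟩
  have r0 := G.ρ_pos p
  have ri := G.ρι_ev p
  have i0 := G.ι_pos p
  have c0 := G.chi_nonneg k p
  have c1 := G.chi_le k p
  have rp : 0 < G.ρ.1 p ^ i := pow_pos r0 i
  have hi : (0 : ℝ) ≤ i + 1 := by positivity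
  have e0 : (G.chi k * G.ρ ^ (i + 1)).1 p = (G.chi k).1 p * (G.ρ.1 p ^ i * G.ρ.1 p) := by
    rw [← ev_apply, map_mul, map_pow, pow_succ]; rfl
  have e1 : (G.ρ ^ i).1 p = G.ρ.1 p ^ i := by rw [← ev_apply, map_pow]; rfl
  have e2 : ∀ a, (G.S.D a (G.chi k * G.ρ ^ (i + 1))).1 p =
      (G.chi k).1 p * ((i + 1) * G.ρ.1 p ^ i * (G.S.D a G.ρ).1 p) +
        (G.S.D a (G.chi k)).1 p * (G.ρ.1 p ^ i * G.ρ.1 p) := fun a => by
    rw [← ev_apply, G.hyp.mul, D_pow_succ]
    simp only [map_add, map_mul, map_pow, map_natCast, map_one, pow_succ]; rfl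
  rw [e0, e1]
  refine ⟨?_, fun a => ?_, ?_⟩
  · rw [abs_of_nonneg (by positivity)]
    calc _ = (G.chi k).1 p * G.ρ.1 p ^ i * (G.ρ.1 p * G.ι.1 p) := by ring
      _ ≤ _ := by rw [ri, mul_one]; exact mul_le_of_le_one_left rp.le c1
  · have a1 : |(G.S.D a G.ρ).1 p| ≤ ∑ a, C3 a := by
      have := h3 a p
      rw [sub_self, zpow_zero, mul_one] at this
      exact this.trans (Finset.single_le_sum (fun a _ => hC3 a) (Finset.mem_univ a))
    have a2 : |(G.S.D a (G.chi k)).1 p| * G.ρ.1 p ≤ C1 := by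
      calc _ ≤ C1 * G.ι.1 p * G.ρ.1 p := mul_le_mul_of_nonneg_right (h1 k a p) r0.le
        _ = C1 := by rw [mul_assoc, mul_comm (G.ι.1 p), ri, mul_one]
    rw [e2]
    refine (abs_add_le _ _).trans ?_
    rw [abs_mul, abs_mul, abs_mul (G.S.D a (G.chi k) |>.1 p), abs_of_nonneg c0,
      abs_of_nonneg (mul_nonneg hi rp.le), abs_of_nonneg (mul_nonneg rp.le r0.le)]
    have b1 : (G.chi k).1 p * ((i + 1) * G.ρ.1 p ^ i * |(G.S.D a G.ρ).1 p|) ≤
        (i + 1) * G.ρ.1 p ^ i * ∑ a, C3 a :=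
      (mul_le_of_le_one_left (by positivity) c1).trans
        (mul_le_mul_of_nonneg_left a1 (by positivity))
    have b2 := mul_le_mul_of_nonneg_left a2 rp.le
    have b3 : 0 ≤ (i + 1) * G.ρ.1 p ^ i * |C2| := by positivity
    nlinarith
  · have e3 : (G.S.dr (G.chi k * G.ρ ^ (i + 1))).1 p =
        (G.chi k).1 p * ((i + 1) * G.ρ.1 p ^ i * (G.S.dr G.ρ).1 p) +
          (G.S.dr (G.chi k)).1 p * (G.ρ.1 p ^ i * G.ρ.1 p) := by
      simp only [dr_pt, e2, Fin.sum_univ_three]; ring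
    have a1 : G.ρ.1 p * (G.S.dr G.ρ).1 p ≤ G.ρ.1 p ^ 2 + |C2| := by
      have := (le_abs_self _).trans (h2 p)
      have h4 : C2 * G.ι.1 p * G.ρ.1 p ≤ |C2| := by
        rw [mul_assoc, mul_comm (G.ι.1 p), ri, mul_one]; exact le_abs_self _
      nlinarith [mul_le_mul_of_nonneg_right this r0.le]
    have a2 : (G.chi k).1 p * (G.ρ.1 p ^ i * G.ρ.1 p) *
        ((G.S.dr (G.chi k)).1 p * (G.ρ.1 p ^ i * G.ρ.1 p)) ≤ 0 :=
      mul_nonpos_of_nonneg_of_nonpos (by positivity)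
        (mul_nonpos_of_nonpos_of_nonneg (G.dr_chi k p) (by positivity))
    have a3 := mul_le_mul_of_nonneg_left a1
      (show 0 ≤ (G.chi k).1 p ^ 2 * (i + 1) * (G.ρ.1 p ^ i) ^ 2 by positivity)
    have a4 : (G.chi k).1 p ^ 2 * ((i + 1) * (G.ρ.1 p ^ i) ^ 2 * |C2|) ≤
        (i + 1) * (G.ρ.1 p ^ i) ^ 2 * |C2| :=
      mul_le_of_le_one_left (by positivity) (pow_le_one₀ c0 c1)
    have a5 : 0 ≤ ((i + 1) * ∑ a, C3 a + C1) * (G.ρ.1 p ^ i) ^ 2 := by positivity
    rw [e3]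
    nlinarith

variable [BorelSpace X] [T2Space X] [SecondCountableTopology X]

theorem e2S : G.E2S := by
  intro i
  obtain ⟨K, hK⟩ := G.e2_weight i
  obtain ⟨C, hC, h⟩ := G.e2_pt i K
  obtain ⟨c, hc⟩ : ∃ c : ℝ≥0, 4 * C = (c : ℝ) ^ 2 :=
    ⟨⟨√(4 * C), Real.sqrt_nonneg _⟩, (Real.sq_sqrt (by positivity)).symm⟩
  refine ⟨10 * c, fun v => ?_⟩
  have eg : ∀ p, (G.S.gam v v).1 p = ∑ a, (G.S.D a v).1 p ^ 2 := fun p => by
    rw [← ev_apply, Pre.gam, map_sum]; simp only [map_mul, sq]; rfl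
  have ed : ∀ p, (G.S.dd2 v).1 p = ∑ a, ∑ b, (G.S.D a (G.S.D b v)).1 p ^ 2 := fun p => by
    rw [← ev_apply, Mov.dd2, map_sum]; simp only [map_sum, map_mul, sq]; rfl
  have d0 : ∀ p, 0 ≤ (G.S.dd2 v).1 p := fun p => by rw [ed]; positivity
  have ms : ∀ f : G.R, Measurable fun p => f.1 p ^ 2 * G.m.1 p := fun f =>
    ((G.meas_R _).pow_const 2).mul (G.meas_R _)
  have n0 : ∀ (f : G.R) p, 0 ≤ f.1 p ^ 2 * G.m.1 p := fun f p =>
    mul_nonneg (sq_nonneg _) (G.m_pos p).le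
  have key : ∀ (f : G.R), (∀ p, f.1 p ^ 2 ≤ 8 * (G.S.dd2 v).1 p + 2 * (G.S.Pi i v).1 p ^ 2) →
      G.nR (G.ρ ^ (i + 1) * f) ≤ 4 * G.nR (G.ρ ^ (i + 1) * G.S.Mi i v) +
        c * ∑ a, G.nR (G.ρ ^ i * G.S.D a v) := by
    intro f hf
    refine le_of_sq_le (G.nR_sq_le_of_chi _ fun k => ?_)
    have cs : ∀ g : G.R, HasCompactSupport (G.chi k * g).1 := fun g => (G.chi_cs k).mul_right
    have step := G.lint_le (a := fun p => (G.chi k * (G.ρ ^ (i + 1) * f)).1 p ^ 2 * G.m.1 p)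
      (b := fun p => 16 * ((G.ρ ^ (i + 1) * G.S.Mi i v).1 p ^ 2 * G.m.1 p) +
        ∑ a, (c : ℝ) ^ 2 * ((G.ρ ^ i * G.S.D a v).1 p ^ 2 * G.m.1 p))
      (by
        have := G.intg_cs (cs (G.ρ ^ (i + 1) * f * (G.chi k * (G.ρ ^ (i + 1) * f)) * G.m))
        refine this.congr (Eventually.of_forall fun p => ?_)
        show (G.chi k).1 p * ((G.ρ ^ (i + 1) * f).1 p * ((G.chi k).1 p * (G.ρ ^ (i + 1) * f).1 p)
          * G.m.1 p) = ((G.chi k).1 p * (G.ρ ^ (i + 1) * f).1 p) ^ 2 * _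
        ring)
      (n0 _) ((measurable_const.mul (ms _)).add
        (Finset.measurable_fun_sum _ fun a _ => measurable_const.mul (ms _)))
      (fun p => add_nonneg (mul_nonneg (by norm_num) (n0 _ p))
        (Finset.sum_nonneg fun a _ => mul_nonneg (sq_nonneg _) (n0 _ p)))
      (Y := G.S.e2Y ((G.chi k * G.ρ ^ (i + 1)) ^ 2 * G.m) i v)
      (fun a => by
        rw [Mov.e2Y, sq, mul_assoc, mul_assoc, mul_assoc]; exact cs _)
      (G.hyp.tan_e2Y _ i v) (c := -4) fun p => ?_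
    · rw [nR_sq]
      refine step.trans ?_
      have e : ∀ p, ENNReal.ofReal (16 * ((G.ρ ^ (i + 1) * G.S.Mi i v).1 p ^ 2 * G.m.1 p) +
          ∑ a, (c : ℝ) ^ 2 * ((G.ρ ^ i * G.S.D a v).1 p ^ 2 * G.m.1 p)) =
          16 * ENNReal.ofReal ((G.ρ ^ (i + 1) * G.S.Mi i v).1 p ^ 2 * G.m.1 p) +
          ∑ a, (c : ℝ≥0∞) ^ 2 * ENNReal.ofReal ((G.ρ ^ i * G.S.D a v).1 p ^ 2 * G.m.1 p) := by
        intro p
        rw [ENNReal.ofReal_add (mul_nonneg (by norm_num) (n0 _ p))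
          (Finset.sum_nonneg fun a _ => mul_nonneg (sq_nonneg _) (n0 _ p)),
          ENNReal.ofReal_sum_of_nonneg fun a _ => mul_nonneg (sq_nonneg _) (n0 _ p),
          ENNReal.ofReal_mul (by norm_num), ENNReal.ofReal_ofNat]
        simp only [ENNReal.ofReal_mul (sq_nonneg (c : ℝ)), ENNReal.ofReal_pow (NNReal.coe_nonneg c),
          ENNReal.ofReal_coe_nnreal]
      simp only [e]
      rw [lintegral_add_left ((ms _).ennreal_ofReal.const_mul _),
        lintegral_const_mul _ (ms _).ennreal_ofReal,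
        lintegral_finsetSum _ fun a _ => (ms _).ennreal_ofReal.const_mul _]
      simp only [lintegral_const_mul _ (ms _).ennreal_ofReal, ← nR_sq, Fin.sum_univ_three]
      generalize G.nR (G.ρ ^ (i + 1) * G.S.Mi i v) = A
      generalize G.nR (G.ρ ^ i * G.S.D 0 v) = B0
      generalize G.nR (G.ρ ^ i * G.S.D 1 v) = B1
      generalize G.nR (G.ρ ^ i * G.S.D 2 v) = B2
      exact le_of_le_of_eq (le_self_add (b := 8 * A * c * (B0 + B1 + B2) +
        2 * c ^ 2 * (B0 * B1 + B0 * B2 + B1 * B2))) (by ring)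
    · obtain ⟨k1, k2, k3⟩ := hK k p
      have h1 := h (G.chi k * G.ρ ^ (i + 1)) (G.ρ ^ i) v p
        (by rw [← ev_apply, map_pow]; exact pow_nonneg (G.ρ_pos p).le i) k1 k2 k3
      have c0 := G.chi_nonneg k p
      have c1 := G.chi_le k p
      have m0 := G.m_pos p
      have h2 := mul_le_mul_of_nonneg_left (hf p)
        (show 0 ≤ ((G.chi k).1 p * G.ρ.1 p ^ (i + 1)) ^ 2 * G.m.1 p by positivity)
      have h3 : (G.chi k).1 p ^ 2 * ((G.ρ.1 p ^ (i + 1) * (G.S.Mi i v).1 p) ^ 2 * G.m.1 p) ≤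
          (G.ρ.1 p ^ (i + 1) * (G.S.Mi i v).1 p) ^ 2 * G.m.1 p :=
        mul_le_of_le_one_left (by positivity) (pow_le_one₀ c0 c1)
      have h4 := eg p
      simp only [← ev_apply, map_mul, map_pow, Fin.sum_univ_three, ← hc] at h1 h2 h3 h4 ⊢
      rw [h4] at h1
      nlinarith
  have k1 := key (G.S.Pi i v) fun p => by nlinarith [d0 p, sq_nonneg ((G.S.Pi i v).1 p)]
  have k2 := fun a b => key (G.S.D a (G.S.D b v)) fun p => by
    have h1 : (G.S.D a (G.S.D b v)).1 p ^ 2 ≤ (G.S.dd2 v).1 p := by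
      rw [ed]
      exact (Finset.single_le_sum (f := fun b => (G.S.D a (G.S.D b v)).1 p ^ 2)
        (fun _ _ => sq_nonneg _) (Finset.mem_univ b)).trans (Finset.single_le_sum
          (f := fun a => ∑ b, (G.S.D a (G.S.D b v)).1 p ^ 2)
          (fun _ _ => Finset.sum_nonneg fun _ _ => sq_nonneg _) (Finset.mem_univ a))
    nlinarith [d0 p, sq_nonneg ((G.S.Pi i v).1 p)]
  refine (add_le_add k1 (Finset.sum_le_sum fun a _ => Finset.sum_le_sum fun b _ => k2 a b)).trans ?_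
  generalize G.nR (G.ρ ^ (i + 1) * G.S.Mi i v) = A
  generalize ∑ a, G.nR (G.ρ ^ i * G.S.D a v) = B
  simp only [Fin.sum_univ_three]
  push_cast
  exact le_of_le_of_eq (le_self_add (b := 60 * A)) (by ring)

end Crest.Agent.N250.WS.Geo

end
end

-- ▼ part N250/Wt/Com
section

/-!
# Row 250, weighted theory (helper54): differential operators with symbol coefficients, `ComS`
-/

set_option autoImplicit false
set_option linter.unusedSectionVars false
open MeasureTheory Set Filter Topology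
open scoped ContDiff ENNReal NNReal

noncomputable section

namespace Crest.Agent.N250.WS

open Crest.Agent.N222

variable {X : Type} [TopologicalSpace X] [MeasurableSpace X]

namespace Geo

variable (G : Geo X)

/-- operators `∑ z s D^l` of order `< r` and weight `k`, with cut-offs `z` in the class `Z` -/
inductive Op (Z : G.R → Prop) (r : ℕ) (k : ℤ) : (G.R → G.R) → Prop
  | zero : Op Z r k fun _ => 0
  | mon (z s : G.R) (l : List (Fin 3)) : Z z → G.Sy (l.length + k) s → l.length < r →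
      Op Z r k fun u => z * s * G.S.Dw l u
  | add {T T' : G.R → G.R} : Op Z r k T → Op Z r k T' → Op Z r k fun u => T u + T' u

/-- classes of cut-offs -/
def ZC (Z : G.R → Prop) : Prop := ∀ z, Z z → ∀ a, Z (G.ρ * G.S.D a z)


theorem zC_sy : G.ZC (G.Sy 0) := fun _ h a => (G.sy_ρ.mul (h.D a)).cast (by norm_num)



variable {G} {Z : G.R → Prop} {r r' : ℕ} {k k' : ℤ} {T T' : G.R → G.R}

namespace Op

theorem congr (h : G.Op Z r k T) (e : ∀ u, T' u = T u) : G.Op Z r k T' := by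
  rw [show T' = T from funext e]; exact h

theorem mono (h : G.Op Z r k T) (hr : r ≤ r') (hk : k ≤ k') : G.Op Z r' k' T := by
  induction h with
  | zero => exact .zero
  | mon z s l h1 h2 h3 => exact .mon z s l h1 (h2.mono (by omega)) (by omega)
  | add _ _ h1 h2 => exact h1.add h2

theorem smul (h : G.Op Z r k T) {s : G.R} (hs : G.Sy k' s) :
    G.Op Z r (k' + k) fun u => s * T u := by
  induction h with
  | zero => exact Op.zero.congr fun _ => mul_zero _
  | mon z s' l h1 h2 h3 =>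
    exact (Op.mon z (s * s') l h1 ((hs.mul h2).cast (by ring)) h3).congr fun u => by ring
  | add _ _ h1 h2 => exact (h1.add h2).congr fun u => mul_add _ _ _

theorem neg (h : G.Op Z r k T) : G.Op Z r k fun u => -T u :=
  ((h.smul sy_one.neg).mono le_rfl (by omega)).congr fun u => by ring

theorem sub (h : G.Op Z r k T) (h' : G.Op Z r k T') : G.Op Z r k fun u => T u - T' u :=
  (h.add h'.neg).congr fun u => by ring

theorem sum {κ : Type} (s : Finset κ) {T : κ → G.R → G.R} (h : ∀ i, G.Op Z r k (T i)) :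
    G.Op Z r k fun u => ∑ i ∈ s, T i u := by
  classical
  induction s using Finset.induction_on with
  | empty => exact Op.zero.congr fun _ => Finset.sum_empty
  | insert i s hi ih => exact ((h i).add ih).congr fun _ => Finset.sum_insert hi

theorem D (hZ : G.ZC Z) (h : G.Op Z r k T) (a : Fin 3) :
    G.Op Z (r + 1) (k - 1) fun u => G.S.D a (T u) := by
  induction h with
  | zero => exact Op.zero.congr fun _ => G.hyp.toIsDS.D_zero a
  | mon z s l h1 h2 h3 =>
    refine (((Op.mon z s (a :: l) h1 (h2.cast ?_) (by simpa using h3)).add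
      (Op.mon z (G.S.D a s) l h1 ((h2.D a).cast (by ring)) (by omega))).add
      (Op.mon _ (G.ι * s) l (hZ z h1 a) ((G.sy_ι.mul h2).cast (by ring)) (by omega))).congr
      fun u => ?_
    · rw [List.length_cons]; push_cast; ring
    · rw [G.hyp.mul, G.hyp.mul, Mov.Dw]
      linear_combination (-(G.S.D a z * s * G.S.Dw l u)) * G.ρι
  | add _ _ h1 h2 => exact (h1.add h2).congr fun u => G.hyp.add _ _ _

theorem Dw (hZ : G.ZC Z) (h : G.Op Z r k T) (l : List (Fin 3)) :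
    G.Op Z (r + l.length) (k - l.length) fun u => G.S.Dw l (T u) := by
  induction l with
  | nil => exact h.mono le_rfl (by simp)
  | cons a l ih => exact (ih.D hZ a).mono le_rfl (by rw [List.length_cons]; push_cast; omega)

theorem comp (h : G.Op Z r k T) (l : List (Fin 3)) :
    G.Op Z (r + l.length) (k - l.length) fun u => T (G.S.Dw l u) := by
  induction h with
  | zero => exact .zero
  | mon z s l' h1 h2 h3 =>
    refine (Op.mon z s (l' ++ l) h1 (h2.cast ?_) (by simpa using h3)).congr fun u => by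
      rw [Mov.Dw_append]
    rw [List.length_append]; push_cast; ring
  | add _ _ h1 h2 => exact h1.add h2

/-- bounds for operators from bounds for monomials -/
theorem bound (h : G.Op Z r k T) {N : G.R → ℝ≥0∞} {B : G.R → ℝ≥0∞} {e e' : G.R}
    (he : e * e' = 1) (he' : G.Sy (-k) e') (N0 : N 0 = 0) (Na : ∀ f g, N (f + g) ≤ N f + N g)
    (Nm : ∀ s, G.Bd 0 s → ∃ C : ℝ≥0, ∀ g, N (s * g) ≤ C * N g)
    (hB : ∀ z, Z z → ∀ l : List (Fin 3), l.length < r →
      ∃ C : ℝ≥0, ∀ u, N (z * G.ρ ^ l.length * e * G.S.Dw l u) ≤ C * B u) :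
    ∃ C : ℝ≥0, ∀ u, N (T u) ≤ C * B u := by
  induction h with
  | zero => exact ⟨0, fun u => by simp [N0]⟩
  | mon z s l h1 h2 h3 =>
    obtain ⟨C, hC⟩ := hB z h1 l h3
    obtain ⟨C', hC'⟩ := Nm (s * G.ι ^ l.length * e')
      (((h2.mul (G.sy_ι.pow _)).mul he').cast (by ring)).bd
    refine ⟨C' * C, fun u => ?_⟩
    have e1 : G.ρ ^ l.length * G.ι ^ l.length = 1 := by rw [← mul_pow, G.ρι, one_pow]
    have e2 : z * s * G.S.Dw l u =
        s * G.ι ^ l.length * e' * (z * G.ρ ^ l.length * e * G.S.Dw l u) := by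
      linear_combination (-(z * s * G.S.Dw l u)) * he - (z * s * G.S.Dw l u * e * e') * e1
    beta_reduce
    rw [e2, ENNReal.coe_mul, mul_assoc (C' : ℝ≥0∞)]
    exact (hC' _).trans (mul_le_mul_right (hC u) _)
  | add _ _ h1 h2 =>
    obtain ⟨C, hC⟩ := h1
    obtain ⟨C', hC'⟩ := h2
    exact ⟨C + C', fun u => by
      rw [ENNReal.coe_add, add_mul]; exact (Na _ _).trans (add_le_add (hC u) (hC' u))⟩

end Op

theorem op_mon {s : G.R} (l : List (Fin 3)) (hs : G.Sy (l.length + k) s) (h : l.length < r) :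
    G.Op (G.Sy 0) r k fun u => s * G.S.Dw l u :=
  (Op.mon 1 s l sy_one hs h).congr fun u => by rw [one_mul]


/-- the commutator of the level operators and words -/
theorem op_com (l : List (Fin 3)) : G.Op (G.Sy 0) (l.length + 2) (-2 - l.length) fun u =>
    G.S.Mi l.length (G.S.Dw l u) - G.S.Dw l (G.S.LL u) := by
  induction l with
  | nil =>
    exact (op_mon [] (G.sy_a2.neg.cast (by simp)) (by simp)).congr fun u => by
      simp only [Mov.Dw, Mov.LL, List.length_nil]; ring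
  | cons a l ih =>
    have h1 : G.Op (G.Sy 0) 3 (-3) fun u => -(2 * ∑ b, G.S.B2 a b * G.S.D b u)
        - 2 * G.S.n a * ∑ b, ∑ c, G.S.B b c * G.S.D b (G.S.D c u) :=
      (((Op.sum _ fun b => op_mon (k := -3) [b] ((G.sy_B2 a b).cast (by simp)) (by simp)).smul
        sy_two).mono le_rfl (by norm_num)).neg.sub
      (((Op.sum _ fun b => Op.sum _ fun c => op_mon (k := -3) [b, c]
        ((G.sy_B b c).cast (by simp)) (by simp)).smul (sy_two.mul (G.sy_n a))).mono le_rfl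
        (by norm_num))
    refine (((ih.D G.zC_sy a).mono ?_ ?_).add ((h1.comp l).mono ?_ ?_)).congr fun u => ?_
    iterate 4 simp only [List.length_cons]; push_cast; omega
    rw [List.length_cons, Mov.Dw, Mov.Dw, G.hyp.Mi_D G.shr, G.hyp.toIsDS.D_sub]; ring

variable [BorelSpace X]

theorem le_U (l : List (Fin 3)) (u : G.R) :
    G.nR (G.ρ ^ l.length * G.ι * G.S.Dw l u) ≤ G.U l.length u :=
  le_sumW' (fun l' => G.nR (G.ρ ^ l.length * G.ι * G.S.Dw l' u)) l


theorem Op.nU (h : G.Op (G.Sy 0) r (-1) T) :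
    ∃ C : ℝ≥0, ∀ u, G.nR (T u) ≤ C * ∑ j ∈ Finset.range r, G.U j u :=
  h.bound (e := G.ι) (e' := G.ρ) (by rw [mul_comm, G.ρι]) G.sy_ρ nR_zero nR_add
    (fun _ h => h.nR_mul) fun z hz l hl => by
      obtain ⟨C, hC⟩ := hz.bd.nR_mul
      refine ⟨C, fun u => ?_⟩
      rw [mul_assoc z, mul_assoc z]
      exact (hC _).trans (mul_le_mul_right ((le_U l u).trans (Finset.single_le_sum
        (f := fun j => G.U j u) (fun _ _ => zero_le) (Finset.mem_range.2 hl))) _)



variable (G)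

theorem comS : G.ComS := fun l =>
  (((op_com l).smul (G.sy_ρ_pow (l.length + 1))).mono le_rfl (by push_cast; omega)).nU

end Geo

end Crest.Agent.N250.WS

end
end

-- ▼ part N250/Wt/Lev
section

/-!
# Row 250 (helper61): the weighted estimate at all levels, `LevS`
-/

set_option autoImplicit false
set_option linter.unusedSectionVars false
open MeasureTheory Set Filter Topology
open scoped ContDiff ENNReal NNReal

noncomputable section

namespace Crest.Agent.N250.WS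

open Crest.Agent.N222

namespace Lev

/-- domination up to a constant -/
def Dom {α : Type} (A B : α → ℝ≥0∞) : Prop := ∃ C : ℝ≥0, ∀ u, A u ≤ C * B u

section Dom

variable {α : Type} {A A' B B' : α → ℝ≥0∞}

theorem Dom.of_le (h : ∀ u, A u ≤ B u) : Dom A B := ⟨1, fun u => by simpa using h u⟩

theorem Dom.trans (h : Dom A B) (h' : Dom B B') : Dom A B' := by
  obtain ⟨C, hC⟩ := h
  obtain ⟨D, hD⟩ := h'
  refine ⟨C * D, fun u => (hC u).trans ?_⟩
  rw [ENNReal.coe_mul, mul_assoc]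
  gcongr
  exact hD u

theorem Dom.add (h : Dom A B) (h' : Dom A' B) : Dom (fun u => A u + A' u) B := by
  obtain ⟨C, hC⟩ := h
  obtain ⟨D, hD⟩ := h'
  refine ⟨C + D, fun u => ?_⟩
  rw [ENNReal.coe_add, add_mul]
  exact add_le_add (hC u) (hD u)

theorem Dom.cmul (c : ℝ≥0) (h : Dom A B) : Dom (fun u => c * A u) B :=
  Dom.trans ⟨c, fun _ => le_rfl⟩ h

theorem Dom.zero : Dom (fun _ => 0) B := Dom.of_le fun _ => zero_le

theorem Dom.sum {κ : Type} (s : Finset κ) {F : κ → α → ℝ≥0∞} (h : ∀ i ∈ s, Dom (F i) B) :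
    Dom (fun u => ∑ i ∈ s, F i u) B := by
  classical
  induction s using Finset.induction_on with
  | empty => simpa using Dom.zero
  | insert a s ha ih =>
    simp only [Finset.sum_insert ha]
    exact (h a (by simp)).add (ih fun i hi => h i (by simp [hi]))

theorem Dom.sumW {ι : Type} [Fintype ι] (k : ℕ) {F : List ι → α → ℝ≥0∞}
    (h : ∀ l, l.length = k → Dom (F l) B) : Dom (fun u => sumW k fun l => F l u) B := by
  induction k generalizing F with
  | zero => exact h [] rfl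
  | succ k ih =>
    exact Dom.sum (F := fun a u => N250.sumW k fun w => F (a :: w) u) _ fun a _ =>
      ih fun w hw => h _ (by simp [hw])

end Dom

section SumW

variable {ι : Type} [Fintype ι]

theorem sumW_mono (k : ℕ) {F G : List ι → ℝ≥0∞} (h : ∀ w, w.length = k → F w ≤ G w) :
    sumW k F ≤ sumW k G := by
  induction k generalizing F G with
  | zero => exact h [] rfl
  | succ k ih => exact Finset.sum_le_sum fun a _ => ih fun w hw => h _ (by simp [hw])

theorem le_sumW' (F : List ι → ℝ≥0∞) (w : List ι) : F w ≤ sumW w.length F := by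
  induction w generalizing F with
  | nil => exact le_rfl
  | cons a w ih =>
    refine (ih fun w => F (a :: w)).trans ?_
    exact Finset.single_le_sum (f := fun a => sumW w.length fun w => F (a :: w))
      (fun a _ => zero_le) (Finset.mem_univ a)

theorem sumW_cmul (c : ℝ≥0∞) (k : ℕ) (F : List ι → ℝ≥0∞) :
    sumW k (fun w => c * F w) = c * sumW k F :=
  (map_sumW (AddMonoidHom.mulLeft c) k F).symm

end SumW

variable {X : Type} [TopologicalSpace X] [MeasurableSpace X] (G : Geo X)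

theorem Dw_append (l w : List (Fin 3)) (f : G.R) :
    G.S.Dw (l ++ w) f = G.S.Dw l (G.S.Dw w f) := by
  induction l with
  | nil => rfl
  | cons a l ih => simp only [List.cons_append, Mov.Dw, ih]

variable {G}

theorem sy_D {k : ℤ} {s : G.R} (h : G.Sy k s) (a : Fin 3) : G.Sy (k - 1) (G.S.D a s) := by
  intro l
  obtain ⟨C, hC⟩ := h (l ++ [a])
  refine ⟨C, fun p => ?_⟩
  have := hC p
  rw [Dw_append] at this
  have e : k - 1 - (l.length : ℤ) = k - ((l ++ [a]).length : ℤ) := by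
    simp only [List.length_append, List.length_singleton]
    push_cast
    ring
  rw [e]
  exact this

theorem nR_le {f g : G.R} {C : ℝ} (h : ∀ p, |f.1 p| ≤ C * |g.1 p|) :
    G.nR f ≤ C.toNNReal * G.nR g :=
  eLpNorm_le_mul_eLpNorm_of_ae_le_mul (Eventually.of_forall fun p => by simpa using h p) 2

theorem nR_zero : G.nR 0 = 0 := eLpNorm_zero

variable (G) in
/-- sums of `s * D^w`, `s` of order `m + |w|`, `|w| < k` -/
inductive Op : ℤ → ℕ → (G.R → G.R) → Prop
  | zero (m : ℤ) (k : ℕ) : Op m k fun _ => 0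
  | term (m : ℤ) (k : ℕ) (s : G.R) (w : List (Fin 3)) : G.Sy (m + w.length) s → w.length < k →
      Op m k fun g => s * G.S.Dw w g
  | add (m : ℤ) (k : ℕ) (A B : G.R → G.R) : Op m k A → Op m k B → Op m k fun g => A g + B g

theorem D_zero (a : Fin 3) : G.S.D a 0 = 0 := by
  simpa using G.hyp.const a 0

theorem Op.D {m : ℤ} {k : ℕ} {A : G.R → G.R} (h : Op G m k A) (a : Fin 3) :
    Op G (m - 1) (k + 1) fun g => G.S.D a (A g) := by
  induction h with
  | zero => simpa only [D_zero] using Op.zero _ _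
  | term s w hs hw =>
    simp only [G.hyp.mul]
    refine Op.add _ _ _ _ (Op.term _ _ s (a :: w) ?_ (by simpa using hw))
      (Op.term _ _ _ w ?_ (by omega))
    · convert hs using 1
      simp
    · convert sy_D hs a using 1
      ring
  | add A B _ _ ihA ihB =>
    simp only [G.hyp.add]
    exact Op.add _ _ _ _ ihA ihB

/-- Leibniz rule with a symbol -/
theorem leib {m : ℤ} {s : G.R} (hs : G.Sy m s) (l : List (Fin 3)) :
    ∃ A, Op G (m - l.length) l.length A ∧ ∀ g, G.S.Dw l (s * g) = s * G.S.Dw l g + A g := by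
  induction l with
  | nil => exact ⟨_, Op.zero _ _, fun g => by simp [Mov.Dw]⟩
  | cons a l ih =>
    obtain ⟨A, hA, h⟩ := ih
    refine ⟨fun g => G.S.D a s * G.S.Dw l g + G.S.D a (A g), Op.add _ _ _ _
      (Op.term _ _ _ l ?_ (by simp)) ?_, fun g => ?_⟩
    · convert sy_D hs a using 1
      simp only [List.length_cons]
      push_cast
      ring
    · have e : m - ((a :: l).length : ℤ) = m - l.length - 1 := by
        simp only [List.length_cons]
        push_cast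
        ring
      rw [e]
      exact hA.D a
    · simp only [Mov.Dw, h, G.hyp.add, G.hyp.mul]
      ring

variable [BorelSpace X]

theorem nR_add (f g : G.R) : G.nR (f + g) ≤ G.nR f + G.nR g :=
  eLpNorm_add_le (Imm.Sm.continuous f.2).aestronglyMeasurable
    (Imm.Sm.continuous g.2).aestronglyMeasurable (by norm_num)

theorem Op.dom {m : ℤ} {k : ℕ} {A : G.R → G.R} (h : Op G m k A) {n : ℕ} (hn : m + n = 0) :
    Dom (fun g => G.nR (G.ρ ^ n * A g)) fun g => ∑ j ∈ Finset.range k, G.Ar j g := by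
  induction h with
  | zero => simpa only [mul_zero, nR_zero] using Dom.zero
  | term s w hs hw =>
    obtain ⟨C, hC⟩ := hs []
    refine Dom.trans (B := fun g => G.nR (G.ρ ^ w.length * G.S.Dw w g))
      ⟨C.toNNReal, fun g => nR_le fun p => ?_⟩ (Dom.of_le fun g => ?_)
    · have h1 := hC p
      have h0 : 0 < G.ρ.1 p := one_pos.trans_le (G.one_le p)
      simp only [Mov.Dw, List.length_nil, Nat.cast_zero, sub_zero] at h1
      have e : G.ρ.1 p ^ n * G.ρ.1 p ^ (m + (w.length : ℤ)) = G.ρ.1 p ^ w.length := by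
        rw [← zpow_natCast, ← zpow_add₀ h0.ne', ← zpow_natCast]
        congr 1
        omega
      show |G.ρ.1 p ^ n * (s.1 p * (G.S.Dw w g).1 p)| ≤ C * |G.ρ.1 p ^ w.length * (G.S.Dw w g).1 p|
      rw [abs_mul, abs_mul, abs_mul, abs_of_pos (pow_pos h0 _), abs_of_pos (pow_pos h0 _), ← e]
      calc G.ρ.1 p ^ n * (|s.1 p| * |(G.S.Dw w g).1 p|)
          ≤ G.ρ.1 p ^ n * (C * G.ρ.1 p ^ (m + (w.length : ℤ)) * |(G.S.Dw w g).1 p|) := by gcongr
        _ = _ := by ring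
    · refine (le_sumW' (fun l => G.nR (G.ρ ^ w.length * G.S.Dw l g)) w).trans ?_
      exact Finset.single_le_sum (f := fun j => G.Ar j g) (fun _ _ => zero_le)
        (Finset.mem_range.2 hw)
  | add A B _ _ ihA ihB =>
    refine Dom.trans (Dom.of_le fun g => ?_) (ihA.add ihB)
    rw [mul_add]
    exact nR_add _ _

theorem U_two (k : ℕ) (u : G.R) : G.U (k + 2) u =
    sumW k fun l => ∑ a, ∑ b, G.nR (G.ρ ^ (k + 1) * G.S.D a (G.S.D b (G.S.Dw l u))) := by
  have e : G.ρ ^ (k + 2) * G.ι = G.ρ ^ (k + 1) := by rw [pow_succ, mul_assoc, G.ρι, mul_one]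
  simp only [Geo.U, sumW, Mov.Dw, e, sumW_sum]

theorem U_one (k : ℕ) (u : G.R) : G.U (k + 1) u =
    sumW k fun l => ∑ a, G.nR (G.ρ ^ k * G.S.D a (G.S.Dw l u)) := by
  have e : G.ρ ^ (k + 1) * G.ι = G.ρ ^ k := by rw [pow_succ, mul_assoc, G.ρι, mul_one]
  simp only [Geo.U, sumW, Mov.Dw, e, sumW_sum]

/-- one level -/
theorem step (hC : G.ComS) (h2 : G.E2S) (k : ℕ) : ∃ E : G.R → ℝ≥0∞,
    Dom E (fun u => ∑ j ∈ Finset.range k, G.Ar j (G.ρ * G.S.LL u)
      + ∑ j ∈ Finset.range (k + 2), G.U j u) ∧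
    ∀ u, G.U (k + 2) u + G.T k u ≤ 100 * G.Ar k (G.ρ * G.S.LL u) + E u := by
  obtain ⟨C, hC2⟩ := h2 k
  choose A hA hl using fun l => leib G.symι l
  refine ⟨fun u => (100 : ℝ≥0) * (sumW k fun l => G.nR (G.ρ ^ (k + 1) * A l (G.ρ * G.S.LL u))
      + G.nR (G.ρ ^ (k + 1) * (G.S.Mi k (G.S.Dw l u) - G.S.Dw l (G.S.LL u))))
      + C * G.U (k + 1) u, ?_, fun u => ?_⟩
  · refine Dom.add (Dom.cmul _ (Dom.sumW k fun l hl => Dom.add ?_ ?_)) (Dom.cmul _ ?_)
    · obtain ⟨D, hD⟩ := (hA l).dom (n := k + 1) (by rw [hl]; push_cast; ring)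
      refine ⟨D, fun u => (hD _).trans ?_⟩
      rw [hl]
      gcongr
      exact le_self_add
    · subst hl
      exact Dom.trans (hC l) (Dom.of_le fun u => le_add_self)
    · refine Dom.of_le fun u => le_trans ?_ le_add_self
      exact Finset.single_le_sum (f := fun j => G.U j u) (fun _ _ => zero_le) (by simp)
  · beta_reduce
    rw [U_two, U_one, Geo.T, Geo.Ar, ← sumW_add, ← sumW_cmul, ← sumW_cmul, ← sumW_cmul,
      ← sumW_add, ← sumW_add]
    refine sumW_mono k fun l _ => ?_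
    rw [add_comm]
    refine (hC2 _).trans ?_
    rw [← add_assoc, ENNReal.coe_ofNat, ← mul_add]
    gcongr
    have e1 : G.S.LL u = G.ι * (G.ρ * G.S.LL u) := by rw [← mul_assoc, mul_comm G.ι, G.ρι, one_mul]
    have e2 : G.ρ ^ (k + 1) * G.ι = G.ρ ^ k := by rw [pow_succ, mul_assoc, G.ρι, mul_one]
    have e : G.ρ ^ (k + 1) * G.S.Mi k (G.S.Dw l u) = G.ρ ^ k * G.S.Dw l (G.ρ * G.S.LL u)
        + (G.ρ ^ (k + 1) * A l (G.ρ * G.S.LL u)
          + G.ρ ^ (k + 1) * (G.S.Mi k (G.S.Dw l u) - G.S.Dw l (G.S.LL u))) := by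
      have := hl l (G.ρ * G.S.LL u)
      rw [← e1] at this
      rw [this, ← e2]
      ring
    rw [e]
    exact (nR_add _ _).trans (add_le_add le_rfl (nR_add _ _))

theorem base (h0 : G.E0S) : Dom (fun u => ∑ j ∈ Finset.range 2, G.U j u)
    fun u => G.Ar 0 (G.ρ * G.S.LL u) + G.gR u := by
  obtain ⟨C, hC⟩ := h0
  refine ⟨C, fun u => ?_⟩
  have := hC u
  simpa [Finset.sum_range_succ, U_one, Geo.U, Geo.Ar, sumW, Mov.Dw, G.ρι] using this

theorem all (hC : G.ComS) (h2 : G.E2S) (h0 : G.E0S) (k : ℕ) :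
    Dom (fun u => ∑ j ∈ Finset.range (k + 3), G.U j u)
      fun u => ∑ j ∈ Finset.range (k + 1), G.Ar j (G.ρ * G.S.LL u) + G.gR u := by
  have key : ∀ k : ℕ, Dom (fun u => ∑ j ∈ Finset.range (k + 2), G.U j u)
      (fun u => ∑ j ∈ Finset.range (k + 1), G.Ar j (G.ρ * G.S.LL u) + G.gR u) →
      Dom (fun u => ∑ j ∈ Finset.range (k + 3), G.U j u)
      fun u => ∑ j ∈ Finset.range (k + 1), G.Ar j (G.ρ * G.S.LL u) + G.gR u := by
    intro k hk
    obtain ⟨E, hE, h⟩ := step hC h2 k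
    simp only [Finset.sum_range_succ _ (k + 2)]
    refine hk.add (Dom.trans (Dom.of_le fun u => le_self_add.trans (h u)) (Dom.add ?_ ?_))
    · refine Dom.cmul 100 (Dom.of_le fun u => ?_)
      rw [Finset.sum_range_succ]
      exact le_add_self.trans le_self_add
    · refine hE.trans (Dom.add (Dom.of_le fun u => ?_) hk)
      rw [Finset.sum_range_succ]
      exact le_self_add.trans le_self_add
  induction k with
  | zero => exact key 0 (by simpa using base h0)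
  | succ k ih =>
    refine key (k + 1) (ih.trans (Dom.of_le fun u => ?_))
    rw [Finset.sum_range_succ _ (k + 1)]
    exact add_le_add le_self_add le_rfl

end Lev

open Lev in
theorem Geo.levS_of {X : Type} [TopologicalSpace X] [MeasurableSpace X] [BorelSpace X] (G : Geo X)
    (hC : G.ComS) (h2 : G.E2S) (h0 : G.E0S) : G.LevS := by
  have hU : ∀ (k : ℕ) (u : G.R), G.U 1 u + G.U 0 u ≤ ∑ j ∈ Finset.range (k + 2), G.U j u := by
    intro k u
    refine le_trans (le_of_eq ?_) (Finset.sum_le_sum_of_subset (s := Finset.range 2)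
      (Finset.range_subset_range.2 (by omega)))
    simp [Finset.sum_range_succ, add_comm]
  obtain ⟨E₀, hE₀, h₀⟩ := step hC h2 0
  obtain ⟨C₀, hC₀⟩ : Dom (fun u => E₀ u + (G.U 1 u + G.U 0 u))
      fun u => G.Ar 0 (G.ρ * G.S.LL u) + G.gR u :=
    Dom.add (hE₀.trans (by simpa using base h0)) (Dom.trans (Dom.of_le (hU 0)) (base h0))
  refine ⟨100 + C₀, fun k => ?_⟩
  rcases k with _ | k
  · refine ⟨C₀, fun u => ?_⟩
    rw [add_assoc]
    refine (add_le_add (h₀ u) le_rfl).trans ?_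
    rw [add_assoc]
    refine (add_le_add le_rfl (hC₀ u)).trans (le_of_eq ?_)
    simp only [ENNReal.coe_add, ENNReal.coe_ofNat, Finset.range_zero, Finset.sum_empty, zero_add]
    ring
  · obtain ⟨E, hE, h⟩ := step hC h2 (k + 1)
    obtain ⟨C, hC'⟩ : Dom (fun u => E u + (G.U 1 u + G.U 0 u))
        fun u => ∑ j ∈ Finset.range (k + 1), G.Ar j (G.ρ * G.S.LL u) + G.gR u :=
      Dom.add (hE.trans (Dom.add (Dom.of_le fun u => le_self_add) (all hC h2 h0 k)))
        (Dom.trans (Dom.of_le (hU (k + 1))) (all hC h2 h0 k))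
    refine ⟨C, fun u => ?_⟩
    rw [add_assoc]
    refine (add_le_add (h u) le_rfl).trans ?_
    rw [add_assoc]
    refine add_le_add ?_ (hC' u)
    gcongr
    rw [ENNReal.coe_add, ENNReal.coe_ofNat]
    exact le_self_add

end Crest.Agent.N250.WS

end
end

-- ▼ part N250/Wt/All

/-!
# Row 250 (helper84): the weighted estimates, closed
-/

set_option autoImplicit false

namespace Crest.Agent.N250.WS.Geo

variable {X : Type} [TopologicalSpace X] [MeasurableSpace X] [BorelSpace X] [T2Space X]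
  [SecondCountableTopology X] (G : Geo X)

theorem levS : G.LevS := G.levS_of G.comS G.e2S G.e0S

theorem mainS : G.MainS := G.mainS_of G.levS G.supS

end Crest.Agent.N250.WS.Geo
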