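import Crest.Agent.N250.Wt.Defs

/-!
# Row 250, weighted theory (helper49): limits of smooth vector valued functions, `SC.D = td`
-/

set_option autoImplicit false
set_option linter.unusedSectionVars false
open MeasureTheory Set Filter Topology Function
open scoped ContDiff

noncomputable section

namespace Crest.Agent.N250

open Crest.Agent.N222 hiding E ee

namespace WS

namespace Lim

variable {d : ℕ} {ι : Type} [Fintype ι] [DecidableEq ι] {X : Type} [TopologicalSpace X]
  {F : Type} [NormedAddCommGroup F] [NormedSpace ℝ F]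

/-- iterated tangential derivatives of vector valued functions -/
def DW (M : Imm d ι X) : List ι → (X → F) → X → F
  | [], f => f
  | a :: l, f => fun p => M.td (DW M l f) p (N222.ee a)

theorem sm_DW {M : Imm d ι X} {f : X → F} (hf : M.Sm f) (l : List ι) : M.Sm (DW M l f) := by
  induction l with
  | nil => exact hf
  | cons a l ih =>
    exact ih.td.comp (ContinuousLinearMap.apply ℝ F (N222.ee a)).contDiff

/-- `v ↦ ∑ a, (J v) a • c a` -/
def Ph (J : N222.E (Fin d) →L[ℝ] N222.E ι) (c : ι → F) : N222.E (Fin d) →L[ℝ] F :=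
  ∑ a, ((EuclideanSpace.proj a : N222.E ι →L[ℝ] ℝ).smulRight (c a)) ∘L J

theorem Ph_eq (T : N222.E ι →L[ℝ] F) (J : N222.E (Fin d) →L[ℝ] N222.E ι) :
    T ∘L J = Ph J fun a => T (N222.ee a) := by
  ext1 v
  rw [ContinuousLinearMap.comp_apply, eq_sum_ee (J v), map_sum]
  simp [Ph]




variable {M : Imm d ι X} {α : Type} {L : Filter α} [L.NeBot] {f : α → X → F}
  {g : List ι → X → F}





end Lim

variable {X : Type} [TopologicalSpace X] [MeasurableSpace X] (G : Geo X)

theorem Geo.SC_D_td (a : Fin 3) (f : G.SmC) (p : X) :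
    (G.SC.D a f).1 p = G.M.td f.1 p (N222.ee a) := by
  have hd := Imm.Sm.diffAt (M := G.M) f.2 p
  have h1 := Imm.td_comp hd Complex.reCLM.differentiableAt
  have h2 := Imm.td_comp hd Complex.imCLM.differentiableAt
  rw [ContinuousLinearMap.fderiv] at h1 h2
  change ((G.M.td (fun p => Complex.reCLM (f.1 p)) p (N222.ee a) : ℝ) : ℂ) +
    Complex.I * ((G.M.td (fun p => Complex.imCLM (f.1 p)) p (N222.ee a) : ℝ) : ℂ) = _
  rw [h1, h2, mul_comm]
  exact Complex.re_add_im _

theorem Geo.SC_Dw_DW (l : List (Fin 3)) (f : G.SmC) : (G.SC.Dw l f).1 = Lim.DW G.M l f.1 := by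
  induction l with
  | nil => rfl
  | cons a l ih => funext p; rw [Mov.Dw, G.SC_D_td, ih, Lim.DW]

end WS

end Crest.Agent.N250

end
private theorem rz_90263dcb9a : type_of% @_root_.Crest.Agent.N250.WS.Lim.DW.eq_def := @_root_.Crest.Agent.N250.WS.Lim.DW.eq_def -- L26
private theorem rz_6aade4dfdc : type_of% @_root_.Crest.Agent.N250.WS.Lim.DW.eq_1 := @_root_.Crest.Agent.N250.WS.Lim.DW.eq_1 -- L26
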